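import Crest.Agent.SW.Final

/-! Siegel–Walfisz for `Λ` in progressions, unconditional: see `Crest.Agent.SW.Final`
(`Crest.Agent.SW.psiAP_holds`, `Crest.Agent.SW.psiOne_holds`). -/
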