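import Crest.Agent.SW.Final

/-!
# `θ(x)`, `π(x)` with error terms
-/

namespace Crest.Agent.SW

open Finset

theorem psi_bound (A : ℝ) : ∃ C : ℝ, ∀ x : ℝ, 2 ≤ x →
    |Chebyshev.psi x - x| ≤ C * x / (Real.log x) ^ A := by
  obtain ⟨C, hC⟩ := psiOne_holds A
  exact ⟨C, fun x hx => hC x hx⟩

theorem theta_bound (A : ℝ) : ∃ C : ℝ, ∀ x : ℝ, 2 ≤ x →
    |Chebyshev.theta x - x| ≤ C * x / (Real.log x) ^ A := by
  obtain ⟨C, hC⟩ := psi_bound A
  obtain ⟨D, hD0, hD⟩ := AP301.log_rpow_le (2 * (A + 1))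
  refine ⟨C + 2 * Real.sqrt D, fun x hx => ?_⟩
  have hx0 : 0 < x := by linarith
  have hl : 0 < Real.log x := Real.log_pos (by linarith)
  have hp : 0 < (Real.log x) ^ A := Real.rpow_pos_of_pos hl _
  have h1 := hC x hx
  have h2 := Chebyshev.abs_psi_sub_theta_le_sqrt_mul_log (x := x) (by linarith)
  have h3 : 2 * Real.sqrt x * Real.log x ≤ 2 * Real.sqrt D * x / (Real.log x) ^ A := by
    rw [le_div_iff₀ hp]
    have h4 : (Real.log x) ^ (A + 1) ≤ Real.sqrt (D * x) := by
      apply Real.le_sqrt_of_sq_le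
      have := hD x hx
      calc ((Real.log x) ^ (A + 1)) ^ 2 = (Real.log x) ^ (2 * (A + 1)) := by
            rw [← Real.rpow_natCast, ← Real.rpow_mul hl.le]; congr 1; push_cast; ring
        _ ≤ D * x := this
    rw [Real.sqrt_mul hD0.le] at h4
    have hs : Real.sqrt x * Real.sqrt x = x := Real.mul_self_sqrt hx0.le
    calc 2 * Real.sqrt x * Real.log x * (Real.log x) ^ A
        = 2 * Real.sqrt x * (Real.log x) ^ (A + 1) := by
          rw [Real.rpow_add_one hl.ne']; ring
      _ ≤ 2 * Real.sqrt x * (Real.sqrt D * Real.sqrt x) := by gcongr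
      _ = 2 * Real.sqrt D * (Real.sqrt x * Real.sqrt x) := by ring
      _ = 2 * Real.sqrt D * x := by rw [hs]
  calc |Chebyshev.theta x - x| = |(Chebyshev.psi x - x) - (Chebyshev.psi x - Chebyshev.theta x)| := by
        congr 1; ring
    _ ≤ |Chebyshev.psi x - x| + |Chebyshev.psi x - Chebyshev.theta x| := abs_sub _ _
    _ ≤ C * x / (Real.log x) ^ A + 2 * Real.sqrt D * x / (Real.log x) ^ A := by linarith
    _ = (C + 2 * Real.sqrt D) * x / (Real.log x) ^ A := by ring

open Asymptotics Filter in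
/-- the prime number theorem with error `O(x/log² x)` -/
theorem pnt2 : ∃ C : ℝ, ∀ x : ℝ, 2 ≤ x →
    |(Nat.primeCounting ⌊x⌋₊ : ℝ) - x / Real.log x| ≤ C * x / Real.log x ^ 2 := by
  obtain ⟨C1, hC1⟩ := theta_bound 1
  obtain ⟨C2, hC2⟩ := (Chebyshev.primeCounting_sub_theta_div_log_isBigO).bound
  rw [Filter.eventually_atTop] at hC2
  obtain ⟨X0, hX0⟩ := hC2
  set M : ℝ := (2 + 1 / Real.log 2) * (Real.log (max X0 2)) ^ 2 with hM
  have hl2 : 0 < Real.log 2 := Real.log_pos (by norm_num)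
  refine ⟨max (C2 + C1) M, fun x hx => ?_⟩
  have hx0 : 0 < x := by linarith
  have hl : 0 < Real.log x := Real.log_pos (by linarith)
  have hl2x : Real.log 2 ≤ Real.log x := Real.log_le_log (by norm_num) hx
  rcases le_total x (max X0 2) with hle | hge
  · have h1 : (Nat.primeCounting ⌊x⌋₊ : ℝ) ≤ 2 * x := by
      have : Nat.primeCounting ⌊x⌋₊ ≤ ⌊x⌋₊ + 1 := Nat.count_le _
      have h7 : (Nat.primeCounting ⌊x⌋₊ : ℝ) ≤ ⌊x⌋₊ + 1 := by exact_mod_cast this
      have := Nat.floor_le hx0.le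
      linarith
    have h2 : (0 : ℝ) ≤ Nat.primeCounting ⌊x⌋₊ := Nat.cast_nonneg _
    have h3 : x / Real.log x ≤ x / Real.log 2 := by gcongr
    have h4 : 0 < x / Real.log x := by positivity
    have h5 : |(Nat.primeCounting ⌊x⌋₊ : ℝ) - x / Real.log x| ≤ x * (2 + 1 / Real.log 2) := by
      have e : x * (2 + 1 / Real.log 2) = 2 * x + x / Real.log 2 := by ring
      rw [e, abs_le]
      constructor <;> linarith
    have h6 : Real.log x ≤ Real.log (max X0 2) := Real.log_le_log hx0 hle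
    refine h5.trans ?_
    rw [le_div_iff₀ (by positivity)]
    calc x * (2 + 1 / Real.log 2) * Real.log x ^ 2
        ≤ x * (2 + 1 / Real.log 2) * (Real.log (max X0 2)) ^ 2 := by gcongr
      _ = M * x := by rw [hM]; ring
      _ ≤ max (C2 + C1) M * x := by gcongr; exact le_max_right _ _
  · have h1 := hX0 x ((le_max_left _ _).trans hge)
    have h2 := hC1 x hx
    rw [Real.rpow_one] at h2
    rw [Real.norm_eq_abs, Real.norm_of_nonneg (by positivity)] at h1
    have h3 : |Chebyshev.theta x / Real.log x - x / Real.log x| ≤ C1 * x / Real.log x ^ 2 := by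
      rw [← sub_div, abs_div, abs_of_pos hl]
      calc |Chebyshev.theta x - x| / Real.log x ≤ (C1 * x / Real.log x) / Real.log x := by gcongr
        _ = _ := by rw [div_div, sq]
    calc |(Nat.primeCounting ⌊x⌋₊ : ℝ) - x / Real.log x|
        = |((Nat.primeCounting ⌊x⌋₊ : ℝ) - Chebyshev.theta x / Real.log x) +
            (Chebyshev.theta x / Real.log x - x / Real.log x)| := by congr 1; ring
      _ ≤ _ := abs_add_le _ _
      _ ≤ C2 * (x / Real.log x ^ 2) + C1 * x / Real.log x ^ 2 := add_le_add h1 h3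
      _ = (C2 + C1) * x / Real.log x ^ 2 := by ring
      _ ≤ _ := by gcongr; exact le_max_left _ _

end Crest.Agent.SW
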