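import Crest.Agent.SW.Engine2_259

/-!
# Siegel–Walfisz library: the Perron engine, part 3: the final form
-/

set_option autoImplicit false
set_option maxHeartbeats 1000000

open Complex MeasureTheory Set Filter Topology

namespace Crest.Agent.SW

noncomputable section

theorem log_pow_le (m : ℕ) {x : ℝ} (hx : 1 ≤ x) : Real.log x ^ m ≤ m.factorial * x := by
  have h := Real.pow_div_factorial_le_exp (Real.log x) (Real.log_nonneg hx) m
  rw [Real.exp_log (by linarith)] at h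
  have hf : (0 : ℝ) < m.factorial := by exact_mod_cast Nat.factorial_pos m
  rw [div_le_iff₀ hf] at h
  linarith

theorem bk_norm_le (a : ℕ → ℂ) (ha : ∀ n : ℕ, 1 ≤ n → ‖a n‖ ≤ 1 + Real.log n) (k : ℕ) {y : ℝ}
    (n : ℕ) (hn : (n : ℝ) ≤ y) (hn1 : 1 ≤ n) : ‖bk a k n‖ ≤ (1 + Real.log y) ^ (k + 1) := by
  unfold bk
  have h1 : (1 : ℝ) ≤ n := by exact_mod_cast hn1
  have h0 : 0 ≤ Real.log n := Real.log_nonneg h1
  have h2 : Real.log n ≤ Real.log y := Real.log_le_log (by linarith) hn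
  rw [norm_mul, norm_pow, Complex.norm_real, Real.norm_of_nonneg h0, pow_succ]
  have h3 := ha n hn1
  have h4 : Real.log n ^ k ≤ (1 + Real.log y) ^ k := by gcongr; linarith
  exact mul_le_mul h4 (by linarith) (norm_nonneg _) (by have : 0 ≤ 1 + Real.log y := by linarith
                                                        positivity)

def C1 (m : ℕ) : ℝ := 24 * Jc + 3 ^ (2 * m + 2) * (1 + (m + 1).factorial)

theorem C1_pos (m : ℕ) : 0 < C1 m := by
  unfold C1
  have := Jc_nonneg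
  positivity

theorem S_bound (m : ℕ) (a : ℕ → ℂ) (ha : ∀ n : ℕ, 1 ≤ n → ‖a n‖ ≤ 1 + Real.log n) (K : ℝ)
    (hK1 : 1 ≤ K)
    (hK : ∀ s : ℂ, 1 < s.re → s.re ≤ 2 →
      ‖iteratedDeriv (2 * m + 1) (LSeries a) s‖ ≤ K * (1 + |s.im|) ^ (1 / 2 : ℝ))
    (x : ℝ) (hx : 3 ≤ x) :
    ‖∑ n ∈ Finset.Icc 1 ⌊x⌋₊, bk a (2 * m + 1) n‖ ≤ C1 m * K * x * Real.log x ^ (m + 1) := by
  have hx0 : 0 < x := by linarith
  have hl1 : 1 < Real.log x := by
    rw [Real.lt_log_iff_exp_lt hx0]
    exact lt_of_lt_of_le Real.exp_one_lt_three hx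
  set L := Real.log x with hL
  have hLp : 1 ≤ L ^ (m + 1) := one_le_pow₀ hl1.le
  have hLp0 : 0 < L ^ (m + 1) := by linarith
  set h : ℝ := x / L ^ (m + 1) with hh
  have hhpos : 0 < h := by positivity
  have hhx : h ≤ x := by
    rw [hh, div_le_iff₀ hLp0]
    nlinarith
  set M : ℝ := 12 * Jc * K * x ^ 2 with hM
  have hJ := Jc_nonneg
  have hJK : 0 ≤ Jc * K := mul_nonneg hJ (by linarith)
  have h1 : ‖∑ n ∈ Finset.Icc 1 ⌊x⌋₊, bk a (2 * m + 1) n * (x - n)‖ ≤ M := by
    refine (smooth_bound a ha (2 * m + 1) K hK x hx).trans ?_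
    rw [hM]
    have : 0 ≤ Jc * K * x ^ 2 := by positivity
    nlinarith
  have h2 : ‖∑ n ∈ Finset.Icc 1 ⌊x + h⌋₊, bk a (2 * m + 1) n * (x + h - n)‖ ≤ M := by
    have h3 := smooth_bound a ha (2 * m + 1) K hK (x + h) (by linarith)
    push_cast at h3
    refine h3.trans ?_
    have h4 : (x + h) ^ 2 ≤ 4 * x ^ 2 := by nlinarith
    calc 3 * Jc * K * (x + h) ^ 2 = 3 * (Jc * K) * (x + h) ^ 2 := by ring
      _ ≤ 3 * (Jc * K) * (4 * x ^ 2) := by gcongr
      _ = M := by rw [hM]; ring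
  have hlog2x : 1 + Real.log (2 * x) ≤ 3 * L := by
    rw [Real.log_mul (by norm_num) hx0.ne']
    have : Real.log 2 < 0.6931471808 := Real.log_two_lt_d9
    linarith
  have h5 := unsmooth (bk a (2 * m + 1)) x h M ((3 * L) ^ (2 * m + 2)) hx0 hhpos h1 h2 ?_ (by positivity)
  · refine h5.trans ?_
    have h6 : 2 * M / h = 24 * Jc * K * x * L ^ (m + 1) := by
      rw [hM, hh]
      field_simp
      ring
    have h7 : (h + 1) * (3 * L) ^ (2 * m + 2) ≤
        3 ^ (2 * m + 2) * (1 + (m + 1).factorial) * K * x * L ^ (m + 1) := by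
      have h8 : (h + 1) * (3 * L) ^ (2 * m + 2) =
          3 ^ (2 * m + 2) * (x * L ^ (m + 1) + L ^ (m + 1) * L ^ (m + 1)) := by
        rw [hh, mul_pow]
        field_simp
        ring
      rw [h8]
      have h9 : L ^ (m + 1) ≤ (m + 1).factorial * x := log_pow_le (m + 1) (by linarith)
      have h10 : x * L ^ (m + 1) + L ^ (m + 1) * L ^ (m + 1) ≤
          (1 + (m + 1).factorial) * x * L ^ (m + 1) := by nlinarith
      calc 3 ^ (2 * m + 2) * (x * L ^ (m + 1) + L ^ (m + 1) * L ^ (m + 1))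
          ≤ 3 ^ (2 * m + 2) * ((1 + (m + 1).factorial) * x * L ^ (m + 1)) := by gcongr
        _ = 3 ^ (2 * m + 2) * (1 + (m + 1).factorial) * 1 * x * L ^ (m + 1) := by ring
        _ ≤ 3 ^ (2 * m + 2) * (1 + (m + 1).factorial) * K * x * L ^ (m + 1) := by gcongr
    rw [h6]
    unfold C1
    nlinarith [h7]
  · intro n hn hn1
    have h3 := bk_norm_le a ha (2 * m + 1) (y := 2 * x) n (by linarith) hn1
    refine h3.trans ?_
    rw [show 2 * m + 1 + 1 = 2 * m + 2 by ring]
    have : 0 ≤ Real.log (2 * x) := Real.log_nonneg (by linarith)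
    gcongr

def C2 (m : ℕ) : ℝ := C1 m + 2 ^ (m + 1)

theorem C2_pos (m : ℕ) : 0 < C2 m := by
  unfold C2
  have := C1_pos m
  positivity

theorem log_half {t : ℝ} (ht : 2 ≤ t) : 1 / 2 ≤ Real.log t := by
  have h1 : Real.log 2 ≤ Real.log t := Real.log_le_log (by norm_num) ht
  have := Real.log_two_gt_d9
  linarith

theorem S_bound' (m : ℕ) (a : ℕ → ℂ) (ha : ∀ n : ℕ, 1 ≤ n → ‖a n‖ ≤ 1 + Real.log n) (K : ℝ)
    (hK1 : 1 ≤ K)
    (hK : ∀ s : ℂ, 1 < s.re → s.re ≤ 2 →
      ‖iteratedDeriv (2 * m + 1) (LSeries a) s‖ ≤ K * (1 + |s.im|) ^ (1 / 2 : ℝ))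
    (x : ℝ) (hx : 2 ≤ x) :
    ‖∑ n ∈ Finset.Icc 0 ⌊x⌋₊, bk a (2 * m + 1) n‖ ≤ C2 m * K * x * Real.log x ^ (m + 1) := by
  have hx0 : 0 < x := by linarith
  have hL0 := log_half hx
  have h0 : ∑ n ∈ Finset.Icc 0 ⌊x⌋₊, bk a (2 * m + 1) n =
      ∑ n ∈ Finset.Icc 1 ⌊x⌋₊, bk a (2 * m + 1) n := by
    symm
    apply Finset.sum_subset
    · intro n hn
      rw [Finset.mem_Icc] at hn ⊢
      omega
    · intro n hn hn'
      rw [Finset.mem_Icc] at hn hn'
      have : n = 0 := by omega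
      subst this
      simp [bk]
  rw [h0]
  rcases lt_or_ge x 3 with h3 | h3
  · have hfl : ⌊x⌋₊ = 2 := by
      rw [Nat.floor_eq_iff hx0.le]
      constructor
      · exact_mod_cast hx
      · norm_num; linarith
    rw [hfl]
    have h1 : ∑ n ∈ Finset.Icc 1 2, bk a (2 * m + 1) n = bk a (2 * m + 1) 2 := by
      rw [show Finset.Icc 1 2 = {1, 2} by rfl]
      rw [Finset.sum_pair (by norm_num)]
      simp [bk]
    rw [h1]
    have h2 : ‖bk a (2 * m + 1) 2‖ ≤ 2 := by
      unfold bk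
      have hl2 : 0 ≤ Real.log 2 := Real.log_nonneg (by norm_num)
      have hl2' : Real.log 2 ≤ 1 := by have := Real.log_two_lt_d9; linarith
      have ha2 := ha 2 (by norm_num)
      push_cast at ha2 ⊢
      rw [norm_mul, norm_pow, Complex.norm_real, Real.norm_of_nonneg hl2]
      calc Real.log 2 ^ (2 * m + 1) * ‖a 2‖ ≤ 1 * 2 := by
            apply mul_le_mul (pow_le_one₀ hl2 hl2') (by linarith) (norm_nonneg _) (by norm_num)
        _ = 2 := by norm_num
    refine h2.trans ?_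
    have h4 : (1 / 2 : ℝ) ^ (m + 1) ≤ Real.log x ^ (m + 1) := by gcongr
    have h5 : (2 : ℝ) ^ (m + 1) ≤ C2 m := by
      unfold C2; linarith [C1_pos m]
    calc (2 : ℝ) = 2 ^ (m + 1) * 1 * 2 * (1 / 2) ^ (m + 1) := by
          rw [one_div, inv_pow]
          field_simp
      _ ≤ C2 m * K * x * Real.log x ^ (m + 1) := by
          have := C2_pos m
          gcongr
  · refine (S_bound m a ha K hK1 hK x h3).trans ?_
    have : C1 m ≤ C2 m := by
      unfold C2
      have : (0 : ℝ) < 2 ^ (m + 1) := by positivity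
      linarith
    gcongr

def C3 (m : ℕ) : ℝ :=
  C2 m + (2 ^ m * m.factorial) + (2 * m + 1) * C2 m * 2 ^ (m + 1) * (2 ^ m * m.factorial + 1)
    + 6 * 2 ^ m

theorem C3_pos (m : ℕ) : 0 < C3 m := by
  unfold C3
  have := C2_pos m
  positivity

/-- the weight -/
def fw (k : ℕ) (t : ℝ) : ℂ := (((Real.log t ^ k)⁻¹ : ℝ) : ℂ)

def fw' (k : ℕ) (t : ℝ) : ℝ := -(k * Real.log t ^ (k - 1) * t⁻¹) / (Real.log t ^ k) ^ 2

theorem fw_hasDerivAt (k : ℕ) {t : ℝ} (ht : 2 ≤ t) : HasDerivAt (fw k) (fw' k t : ℂ) t := by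
  have hl := log_half ht
  have h1 : HasDerivAt (fun t : ℝ => Real.log t ^ k) (k * Real.log t ^ (k - 1) * t⁻¹) t :=
    (Real.hasDerivAt_log (by linarith)).pow k
  have h2 := h1.inv (by positivity)
  exact h2.ofReal_comp

theorem fw_deriv (k : ℕ) {t : ℝ} (ht : 2 ≤ t) : deriv (fw k) t = (fw' k t : ℂ) :=
  (fw_hasDerivAt k ht).deriv

theorem fw_deriv_norm (k : ℕ) (hk : 1 ≤ k) {t : ℝ} (ht : 2 ≤ t) :
    ‖deriv (fw k) t‖ = k * t⁻¹ * (Real.log t ^ (k + 1))⁻¹ := by
  have hl := log_half ht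
  rw [fw_deriv k ht, Complex.norm_real, fw', neg_div, norm_neg, Real.norm_of_nonneg (by positivity)]
  obtain ⟨j, rfl⟩ := Nat.exists_eq_add_of_le' hk
  simp only [Nat.add_sub_cancel]
  field_simp
  ring

theorem fw_deriv_cont (k : ℕ) (b : ℝ) : ContinuousOn (deriv (fw k)) (Icc 2 b) := by
  have h : ContinuousOn (fun t : ℝ => (fw' k t : ℂ)) (Icc 2 b) := by
    apply Complex.continuous_ofReal.comp_continuousOn
    unfold fw'
    have hlog : ContinuousOn (fun t : ℝ => Real.log t) (Icc 2 b) := by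
      apply ContinuousOn.log continuousOn_id
      intro t ht
      have : (2 : ℝ) ≤ t := ht.1
      simp only [id]
      linarith
    refine ContinuousOn.div ?_ ?_ ?_
    · refine ContinuousOn.neg (ContinuousOn.mul (ContinuousOn.mul continuousOn_const (hlog.pow _)) ?_)
      apply ContinuousOn.inv₀ continuousOn_id
      intro t ht
      have : (2 : ℝ) ≤ t := ht.1
      simp only [id]
      linarith
    · exact (hlog.pow _).pow _
    · intro t ht
      have := log_half ht.1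
      positivity
  exact h.congr fun t ht => fw_deriv k ht.1

theorem engine (m : ℕ) : ∃ C > 0, ∀ (a : ℕ → ℂ) (K : ℝ), 1 ≤ K →
    (∀ n : ℕ, 1 ≤ n → ‖a n‖ ≤ 1 + Real.log n) →
    (∀ s : ℂ, 1 < s.re → s.re ≤ 2 →
      ‖iteratedDeriv (2 * m + 1) (LSeries a) s‖ ≤ K * (1 + |s.im|) ^ (1 / 2 : ℝ)) →
    ∀ x : ℝ, 2 ≤ x → ‖∑ n ∈ Finset.Icc 1 ⌊x⌋₊, a n‖ ≤ C * K * x / Real.log x ^ m := by
  refine ⟨C3 m, C3_pos m, ?_⟩
  intro a K hK1 ha hK x hx
  have hx0 : 0 < x := by linarith
  have hC2 := C2_pos m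
  have hl0 := log_half hx
  rcases lt_or_ge x 4 with h4 | h4
  · have h1 : ‖∑ n ∈ Finset.Icc 1 ⌊x⌋₊, a n‖ ≤ 9 := by
      have hterm : ∀ n ∈ Finset.Icc 1 ⌊x⌋₊, ‖a n‖ ≤ 3 := by
        intro n hn
        rw [Finset.mem_Icc] at hn
        have hn1 : (n : ℝ) ≤ x := (Nat.le_floor_iff hx0.le).mp hn.2
        have hn0 : (1 : ℝ) ≤ n := by exact_mod_cast hn.1
        have h2 : Real.log n ≤ Real.log 4 := Real.log_le_log (by linarith) (by linarith)
        have h3 : Real.log 4 = 2 * Real.log 2 := by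
          rw [show (4 : ℝ) = 2 ^ 2 by norm_num, Real.log_pow]; norm_num
        have := Real.log_two_lt_d9
        have := ha n hn.1
        linarith
      refine (norm_sum_le_of_le _ hterm).trans ?_
      rw [Finset.sum_const, Nat.card_Icc, nsmul_eq_mul, Nat.add_sub_cancel]
      have : ⌊x⌋₊ ≤ 3 := by
        have : ⌊x⌋₊ < 4 := (Nat.floor_lt hx0.le).mpr (by exact_mod_cast h4)
        omega
      have : (⌊x⌋₊ : ℝ) ≤ 3 := by exact_mod_cast this
      linarith
    refine h1.trans ?_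
    have hlogx : Real.log x ≤ 2 := by
      have h2 : Real.log x ≤ Real.log 4 := Real.log_le_log hx0 h4.le
      have h3 : Real.log 4 = 2 * Real.log 2 := by
        rw [show (4 : ℝ) = 2 ^ 2 by norm_num, Real.log_pow]; norm_num
      have := Real.log_two_lt_d9
      linarith
    have h5 : Real.log x ^ m ≤ 2 ^ m := by gcongr
    have h6 : 6 * 2 ^ m ≤ C3 m := by
      unfold C3
      have : 0 ≤ C2 m + (2 ^ m * m.factorial) + (2 * m + 1) * C2 m * 2 ^ (m + 1) * (2 ^ m * m.factorial + 1) := by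
        positivity
      linarith
    rw [le_div_iff₀ (by positivity)]
    have hC3 := C3_pos m
    calc 9 * Real.log x ^ m ≤ 12 * 2 ^ m := by
          have : (0 : ℝ) < 2 ^ m := by positivity
          nlinarith
      _ = (6 * 2 ^ m) * 1 * 2 := by ring
      _ ≤ C3 m * K * x := by gcongr
  · have hl1 : 1 < Real.log x := by
      rw [Real.lt_log_iff_exp_lt hx0]
      exact lt_of_lt_of_le Real.exp_one_lt_three (by linarith)
    have habel := sum_mul_eq_sub_integral_mul₁ (𝕜 := ℂ) (bk a (2 * m + 1))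
      (f := fw (2 * m + 1)) (by simp [bk]) (by simp [bk]) x
      (fun t ht => (fw_hasDerivAt (2 * m + 1) ht.1).differentiableAt)
      ((fw_deriv_cont (2 * m + 1) x).integrableOn_Icc)
    -- the left side
    have hL : ∑ n ∈ Finset.Icc 0 ⌊x⌋₊, fw (2 * m + 1) n * bk a (2 * m + 1) n =
        ∑ n ∈ Finset.Icc 1 ⌊x⌋₊, a n - a 1 := by
      have hfl : 2 ≤ ⌊x⌋₊ := Nat.le_floor (by push_cast; linarith)
      have e1 : ∑ n ∈ Finset.Icc 1 ⌊x⌋₊, a n - a 1 = ∑ n ∈ Finset.Icc 2 ⌊x⌋₊, a n := by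
        rw [show Finset.Icc 1 ⌊x⌋₊ = insert 1 (Finset.Icc 2 ⌊x⌋₊) by
          ext n; simp only [Finset.mem_Icc, Finset.mem_insert]; omega]
        rw [Finset.sum_insert (by simp)]
        ring
      rw [e1]
      have e2 : ∑ n ∈ Finset.Icc 0 ⌊x⌋₊, fw (2 * m + 1) n * bk a (2 * m + 1) n =
          ∑ n ∈ Finset.Icc 2 ⌊x⌋₊, fw (2 * m + 1) n * bk a (2 * m + 1) n := by
        symm
        apply Finset.sum_subset
        · intro n hn
          rw [Finset.mem_Icc] at hn ⊢
          omega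
        · intro n hn hn'
          rw [Finset.mem_Icc] at hn hn'
          have : n = 0 ∨ n = 1 := by omega
          rcases this with rfl | rfl <;> simp [bk]
      rw [e2]
      apply Finset.sum_congr rfl
      intro n hn
      rw [Finset.mem_Icc] at hn
      have h2n : (2 : ℝ) ≤ n := by exact_mod_cast hn.1
      have := log_half h2n
      unfold fw bk
      rw [← mul_assoc]
      have h3 : (((Real.log n ^ (2 * m + 1))⁻¹ : ℝ) : ℂ) * (Real.log n : ℂ) ^ (2 * m + 1) = 1 := by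
        norm_cast
        field_simp
      rw [h3, one_mul]
    rw [hL] at habel
    have hS := S_bound' m a ha K hK1 hK
    -- boundary term
    have hb1 : ‖fw (2 * m + 1) x * ∑ n ∈ Finset.Icc 0 ⌊x⌋₊, bk a (2 * m + 1) n‖ ≤
        C2 m * K * (x / Real.log x ^ m) := by
      rw [norm_mul]
      have h1 : ‖fw (2 * m + 1) x‖ = (Real.log x ^ (2 * m + 1))⁻¹ := by
        unfold fw
        rw [Complex.norm_real, Real.norm_of_nonneg (by positivity)]
      rw [h1]
      calc (Real.log x ^ (2 * m + 1))⁻¹ * ‖∑ n ∈ Finset.Icc 0 ⌊x⌋₊, bk a (2 * m + 1) n‖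
          ≤ (Real.log x ^ (2 * m + 1))⁻¹ * (C2 m * K * x * Real.log x ^ (m + 1)) := by
            gcongr
            exact hS x hx
        _ = C2 m * K * (x / Real.log x ^ m) := by
            rw [show 2 * m + 1 = m + (m + 1) by ring, pow_add]
            field_simp
    -- the integrand
    have hint : ∀ t ∈ Icc (2 : ℝ) x, ‖deriv (fw (2 * m + 1)) t * ∑ n ∈ Finset.Icc 0 ⌊t⌋₊, bk a (2 * m + 1) n‖ ≤
        (2 * m + 1) * C2 m * K * (Real.log t ^ (m + 1))⁻¹ := by
      intro t ht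
      have ht2 : 2 ≤ t := ht.1
      have ht0 : 0 < t := by linarith
      have := log_half ht2
      rw [norm_mul, fw_deriv_norm (2 * m + 1) (by omega) ht2]
      calc ((2 * m + 1 : ℕ) : ℝ) * t⁻¹ * (Real.log t ^ (2 * m + 1 + 1))⁻¹ *
            ‖∑ n ∈ Finset.Icc 0 ⌊t⌋₊, bk a (2 * m + 1) n‖
          ≤ ((2 * m + 1 : ℕ) : ℝ) * t⁻¹ * (Real.log t ^ (2 * m + 1 + 1))⁻¹ *
            (C2 m * K * t * Real.log t ^ (m + 1)) := by
            gcongr
            exact hS t ht2
        _ = (2 * m + 1) * C2 m * K * (Real.log t ^ (m + 1))⁻¹ := by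
            rw [show 2 * m + 1 + 1 = (m + 1) + (m + 1) by ring, pow_add]
            push_cast
            field_simp
    have hsq2 : 2 ≤ Real.sqrt x := by
      rw [show (2 : ℝ) = Real.sqrt 4 by
        rw [show (4 : ℝ) = 2 ^ 2 by norm_num, Real.sqrt_sq (by norm_num)]]
      exact Real.sqrt_le_sqrt h4
    have hsqx : Real.sqrt x ≤ x := by
      rw [Real.sqrt_le_left hx0.le]
      nlinarith
    have hsplit : Ioc (2 : ℝ) x = Ioc 2 (Real.sqrt x) ∪ Ioc (Real.sqrt x) x :=
      (Ioc_union_Ioc_eq_Ioc hsq2 hsqx).symm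
    set g : ℝ → ℂ := fun t => deriv (fw (2 * m + 1)) t * ∑ n ∈ Finset.Icc 0 ⌊t⌋₊, bk a (2 * m + 1) n with hg
    have hsmall : ∀ t ∈ Ioc (2 : ℝ) (Real.sqrt x), ‖g t‖ ≤ (2 * m + 1) * C2 m * K * 2 ^ (m + 1) := by
      intro t ht
      refine (hint t ⟨ht.1.le, ht.2.trans hsqx⟩).trans ?_
      have h1 := log_half ht.1.le
      have h2 : (Real.log t ^ (m + 1))⁻¹ ≤ 2 ^ (m + 1) := by
        rw [inv_le_comm₀ (by positivity) (by positivity), ← inv_pow]
        have : (2 : ℝ)⁻¹ ≤ Real.log t := by linarith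
        gcongr
      gcongr
    have hbig : ∀ t ∈ Ioc (Real.sqrt x) x, ‖g t‖ ≤
        (2 * m + 1) * C2 m * K * 2 ^ (m + 1) * (Real.log x ^ (m + 1))⁻¹ := by
      intro t ht
      have ht2 : 2 ≤ t := hsq2.trans ht.1.le
      refine (hint t ⟨ht2, ht.2⟩).trans ?_
      have h1 := log_half ht2
      have h3 : Real.log x / 2 ≤ Real.log t := by
        have : Real.log (Real.sqrt x) = Real.log x / 2 := Real.log_sqrt hx0.le
        rw [← this]
        exact Real.log_le_log (by linarith) ht.1.le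
      have h2 : (Real.log t ^ (m + 1))⁻¹ ≤ 2 ^ (m + 1) * (Real.log x ^ (m + 1))⁻¹ := by
        calc (Real.log t ^ (m + 1))⁻¹ ≤ ((Real.log x / 2) ^ (m + 1))⁻¹ := by
              apply inv_anti₀ (by positivity)
              gcongr
          _ = 2 ^ (m + 1) * (Real.log x ^ (m + 1))⁻¹ := by
              rw [div_pow, inv_div]
              ring
      calc (2 * m + 1) * C2 m * K * (Real.log t ^ (m + 1))⁻¹ ≤
          (2 * m + 1) * C2 m * K * (2 ^ (m + 1) * (Real.log x ^ (m + 1))⁻¹) := by gcongr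
        _ = _ := by ring
    set c1 : ℝ := (2 * m + 1) * C2 m * K * 2 ^ (m + 1) with hc1
    have hc1pos : 0 ≤ c1 := by positivity
    set c2 : ℝ := c1 * (Real.log x ^ (m + 1))⁻¹ with hc2
    have hc2pos : 0 ≤ c2 := by positivity
    have hI : ‖∫ t in Ioc 2 x, g t‖ ≤ c1 * Real.sqrt x + c2 * x := by
      have h1 : ‖∫ t in Ioc 2 x, g t‖ ≤
          ∫ t in Ioc 2 x, ((Ioc 2 (Real.sqrt x)).indicator (fun _ => c1) t + c2) := by
        apply norm_integral_le_of_norm_le
        · refine Integrable.add ?_ (integrable_const c2)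
          exact (integrable_const c1).indicator measurableSet_Ioc
        · refine (ae_restrict_iff' measurableSet_Ioc).mpr (Eventually.of_forall fun t ht => ?_)
          by_cases h : t ≤ Real.sqrt x
          · rw [indicator_of_mem (show t ∈ Ioc 2 (Real.sqrt x) from ⟨ht.1, h⟩)]
            linarith [hsmall t ⟨ht.1, h⟩]
          · rw [indicator_of_notMem (show t ∉ Ioc 2 (Real.sqrt x) from fun h' => h h'.2), zero_add]
            exact hbig t ⟨not_le.mp h, ht.2⟩
      refine h1.trans ?_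
      rw [integral_add ((integrable_const c1).indicator measurableSet_Ioc) (integrable_const c2),
        setIntegral_indicator measurableSet_Ioc, setIntegral_const, setIntegral_const]
      have h2 : Ioc (2 : ℝ) x ∩ Ioc 2 (Real.sqrt x) = Ioc 2 (Real.sqrt x) := by
        apply inter_eq_self_of_subset_right
        exact Ioc_subset_Ioc_right hsqx
      rw [h2]
      simp only [Measure.real, Real.volume_Ioc, smul_eq_mul]
      rw [ENNReal.toReal_ofReal (by linarith), ENNReal.toReal_ofReal (by linarith)]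
      nlinarith
    have hfin : ∑ n ∈ Finset.Icc 1 ⌊x⌋₊, a n = a 1 +
        (fw (2 * m + 1) x * ∑ n ∈ Finset.Icc 0 ⌊x⌋₊, bk a (2 * m + 1) n) - ∫ t in Ioc 2 x, g t := by
      rw [eq_comm, ← sub_eq_zero] at habel
      rw [eq_comm, ← sub_eq_zero, ← habel]
      ring
    have ha1 : ‖a 1‖ ≤ 1 := by
      have := ha 1 le_rfl
      simpa using this
    have hLm : 0 < Real.log x ^ m := by positivity
    have hsq : Real.sqrt x ≤ 2 ^ m * m.factorial * (x / Real.log x ^ m) := by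
      have h1 := log_pow_le m (show 1 ≤ Real.sqrt x by linarith)
      rw [Real.log_sqrt hx0.le, div_pow, div_le_iff₀ (by positivity)] at h1
      rw [← mul_div_assoc, le_div_iff₀ hLm]
      calc Real.sqrt x * Real.log x ^ m ≤ Real.sqrt x * (m.factorial * Real.sqrt x * 2 ^ m) := by
            gcongr
        _ = 2 ^ m * m.factorial * (Real.sqrt x * Real.sqrt x) := by ring
        _ = 2 ^ m * m.factorial * x := by rw [Real.mul_self_sqrt hx0.le]
    have hx1 : c2 * x ≤ c1 * (x / Real.log x ^ m) := by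
      rw [hc2, pow_succ, mul_inv]
      have h1 : (Real.log x)⁻¹ ≤ 1 := inv_le_one_of_one_le₀ hl1.le
      calc c1 * ((Real.log x ^ m)⁻¹ * (Real.log x)⁻¹) * x
          ≤ c1 * ((Real.log x ^ m)⁻¹ * 1) * x := by gcongr
        _ = c1 * (x / Real.log x ^ m) := by ring
    set Y : ℝ := x / Real.log x ^ m with hY
    have hY0 : 0 < Y := by positivity
    have h1Y : 1 ≤ 2 ^ m * m.factorial * Y := le_trans (by linarith) hsq
    have hgoal : C3 m * K * x / Real.log x ^ m = C3 m * K * Y := by rw [hY]; ring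
    rw [hgoal, hfin]
    have htri : ‖a 1 + (fw (2 * m + 1) x * ∑ n ∈ Finset.Icc 0 ⌊x⌋₊, bk a (2 * m + 1) n) - ∫ t in Ioc 2 x, g t‖
        ≤ 1 + C2 m * K * Y + (c1 * Real.sqrt x + c2 * x) :=
      (norm_sub_le _ _).trans (add_le_add ((norm_add_le _ _).trans (add_le_add ha1 hb1)) hI)
    refine htri.trans ?_
    have h7 : c1 * Real.sqrt x ≤ c1 * (2 ^ m * m.factorial * Y) := by gcongr
    have h8 : 1 ≤ 2 ^ m * m.factorial * K * Y := by
      calc (1 : ℝ) ≤ 2 ^ m * m.factorial * Y := h1Y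
        _ = 2 ^ m * m.factorial * 1 * Y := by ring
        _ ≤ 2 ^ m * m.factorial * K * Y := by gcongr
    have h9 : 0 ≤ 6 * 2 ^ m * K * Y := by positivity
    have h10 : C3 m * K * Y = C2 m * K * Y + 2 ^ m * m.factorial * K * Y +
        (c1 * (2 ^ m * m.factorial * Y) + c1 * Y) + 6 * 2 ^ m * K * Y := by
      unfold C3
      rw [hc1]
      ring
    rw [h10]
    linarith

end

end Crest.Agent.SW
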