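import Crest.Agent.SW.ZetaDer
import Crest.Agent.SW.Engine3_259

/-!
# The prime number theorem with `(log x)^{-A}` saving

`mu_sum`: `|∑_{n ≤ x} μ(n)| ≤ C x/(log x)^m`
`psi_sum`: `|∑_{n ≤ x} Λ(n) - x| ≤ C x/(log x)^m`
-/

namespace Crest.Agent.SW.ZS

open Complex Finset Crest.Agent.R001.SW

lemma ht_half_le {s : ℂ} : ht s ^ (1 / 2 : ℝ) ≤ 2 * (1 + |s.im|) ^ (1 / 2 : ℝ) := by
  have h0 := abs_nonneg s.im
  have h1 : ht s ≤ 4 * (1 + |s.im|) := by unfold ht; linarith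
  calc ht s ^ (1 / 2 : ℝ) ≤ (4 * (1 + |s.im|)) ^ (1 / 2 : ℝ) :=
        Real.rpow_le_rpow (ht_pos s).le h1 (by norm_num)
    _ = 4 ^ (1 / 2 : ℝ) * (1 + |s.im|) ^ (1 / 2 : ℝ) :=
        Real.mul_rpow (by norm_num) (by linarith)
    _ = 2 * (1 + |s.im|) ^ (1 / 2 : ℝ) := by
        congr 1
        rw [show (4 : ℝ) = 2 ^ (2 : ℝ) by norm_num, ← Real.rpow_mul (by norm_num)]
        norm_num

lemma LSeries_mu {s : ℂ} (hs : 1 < s.re) :
    LSeries (fun n => ((ArithmeticFunction.moebius n : ℤ) : ℂ)) s = (riemannZeta s)⁻¹ := by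
  have h := ArithmeticFunction.LSeries_zeta_mul_Lseries_moebius hs
  rw [ArithmeticFunction.LSeries_zeta_eq_riemannZeta hs] at h
  exact eq_inv_of_mul_eq_one_right h

lemma LSeries_Lam_sub_one {s : ℂ} (hs : 1 < s.re) :
    LSeries (fun n => ((ArithmeticFunction.vonMangoldt n : ℝ) : ℂ) - 1) s =
      -deriv riemannZeta s / riemannZeta s - riemannZeta s := by
  have h1 := ArithmeticFunction.LSeries_vonMangoldt_eq_deriv_riemannZeta_div hs
  have h2 := LSeries_one_eq_riemannZeta hs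
  rw [← h1, ← h2]
  have h3 := LSeries_sub (f := fun n => ((ArithmeticFunction.vonMangoldt n : ℝ) : ℂ)) (g := 1)
    (s := s) (ArithmeticFunction.LSeriesSummable_vonMangoldt hs) (LSeriesSummable_one_iff.mpr hs)
  rw [← h3]
  rfl

lemma iteratedDeriv_congr_re {F G : ℂ → ℂ} (h : ∀ s : ℂ, 1 < s.re → F s = G s) (k : ℕ) {s : ℂ}
    (hs : 1 < s.re) : iteratedDeriv k F s = iteratedDeriv k G s := by
  apply Filter.EventuallyEq.iteratedDeriv_eq
  have : {z : ℂ | 1 < z.re} ∈ nhds s :=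
    (isOpen_lt continuous_const Complex.continuous_re).mem_nhds hs
  filter_upwards [this] with z hz
  exact h z hz

theorem mu_sum (m : ℕ) : ∃ C : ℝ, ∀ x : ℝ, 2 ≤ x →
    ‖∑ n ∈ Finset.Icc 1 ⌊x⌋₊, ((ArithmeticFunction.moebius n : ℤ) : ℂ)‖ ≤
      C * x / Real.log x ^ m := by
  obtain ⟨C, hC, h⟩ := engine m
  obtain ⟨D, hD1, hD⟩ := iteratedDeriv_inv_zeta (2 * m + 1) (δ := 1 / 2) (by norm_num)
    (by norm_num)
  refine ⟨C * (2 * D), fun x hx => ?_⟩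
  refine h _ (2 * D) (by linarith) (fun n hn => ?_) (fun s h1 h2 => ?_) x hx
  · have h1 : ‖((ArithmeticFunction.moebius n : ℤ) : ℂ)‖ ≤ 1 := by
      rw [Complex.norm_intCast]
      exact_mod_cast ArithmeticFunction.abs_moebius_le_one
    have h2 : 0 ≤ Real.log n := Real.log_natCast_nonneg n
    linarith
  · rw [iteratedDeriv_congr_re (G := fun z => (riemannZeta z)⁻¹) (fun s hs => LSeries_mu hs) _ h1]
    refine (hD s h1 h2).trans ?_
    calc D * ht s ^ (1 / 2 : ℝ) ≤ D * (2 * (1 + |s.im|) ^ (1 / 2 : ℝ)) := by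
          gcongr; exact ht_half_le
      _ = _ := by ring

theorem Lam_sub_one_sum (m : ℕ) : ∃ C : ℝ, ∀ x : ℝ, 2 ≤ x →
    ‖∑ n ∈ Finset.Icc 1 ⌊x⌋₊, (((ArithmeticFunction.vonMangoldt n : ℝ) : ℂ) - 1)‖ ≤
      C * x / Real.log x ^ m := by
  obtain ⟨C, hC, h⟩ := engine m
  obtain ⟨D, hD1, hD⟩ := iteratedDeriv_logDeriv_zeta (2 * m + 1) (δ := 1 / 2) (by norm_num)
    (by norm_num)
  refine ⟨C * (2 * D), fun x hx => ?_⟩
  refine h _ (2 * D) (by linarith) (fun n hn => ?_) (fun s h1 h2 => ?_) x hx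
  · have h2 : ‖((ArithmeticFunction.vonMangoldt n : ℝ) : ℂ)‖ ≤ Real.log n := by
      rw [Complex.norm_real, Real.norm_of_nonneg ArithmeticFunction.vonMangoldt_nonneg]
      exact ArithmeticFunction.vonMangoldt_le_log
    calc ‖((ArithmeticFunction.vonMangoldt n : ℝ) : ℂ) - 1‖
        ≤ ‖((ArithmeticFunction.vonMangoldt n : ℝ) : ℂ)‖ + ‖(1 : ℂ)‖ := norm_sub_le _ _
      _ ≤ 1 + Real.log n := by rw [norm_one]; linarith
  · rw [iteratedDeriv_congr_re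
      (G := fun z => -deriv riemannZeta z / riemannZeta z - riemannZeta z)
      (fun s hs => LSeries_Lam_sub_one hs) _ h1]
    refine (hD s h1 h2).trans ?_
    calc D * ht s ^ (1 / 2 : ℝ) ≤ D * (2 * (1 + |s.im|) ^ (1 / 2 : ℝ)) := by
          gcongr; exact ht_half_le
      _ = _ := by ring

/-- real form for the Möbius function -/
theorem mu_sum_real (m : ℕ) : ∃ C : ℝ, ∀ x : ℝ, 2 ≤ x →
    |∑ n ∈ Finset.Icc 1 ⌊x⌋₊, ((ArithmeticFunction.moebius n : ℤ) : ℝ)| ≤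
      C * x / Real.log x ^ m := by
  obtain ⟨C, hC⟩ := mu_sum m
  refine ⟨C, fun x hx => ?_⟩
  have := hC x hx
  have e : (∑ n ∈ Finset.Icc 1 ⌊x⌋₊, ((ArithmeticFunction.moebius n : ℤ) : ℂ)) =
      ((∑ n ∈ Finset.Icc 1 ⌊x⌋₊, ((ArithmeticFunction.moebius n : ℤ) : ℝ) : ℝ) : ℂ) := by
    push_cast; rfl
  rwa [e, Complex.norm_real, Real.norm_eq_abs] at this

/-- `ψ(x) = x + O(x/(log x)^m)` -/
theorem psi_sum (m : ℕ) : ∃ C : ℝ, ∀ x : ℝ, 2 ≤ x →
    |∑ n ∈ Finset.Icc 1 ⌊x⌋₊, ArithmeticFunction.vonMangoldt n - x| ≤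
      C * x / Real.log x ^ m := by
  obtain ⟨C, hC⟩ := Lam_sub_one_sum m
  refine ⟨C + m.factorial, fun x hx => ?_⟩
  have hx0 : 0 < x := by linarith
  have hl : 0 < Real.log x := Real.log_pos (by linarith)
  have h1 := hC x hx
  have e : (∑ n ∈ Finset.Icc 1 ⌊x⌋₊, (((ArithmeticFunction.vonMangoldt n : ℝ) : ℂ) - 1)) =
      ((∑ n ∈ Finset.Icc 1 ⌊x⌋₊, ArithmeticFunction.vonMangoldt n - ⌊x⌋₊ : ℝ) : ℂ) := by
    rw [Finset.sum_sub_distrib]
    push_cast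
    simp
  rw [e, Complex.norm_real, Real.norm_eq_abs] at h1
  have h2 : |(⌊x⌋₊ : ℝ) - x| ≤ 1 := by
    rw [abs_le]
    have := Nat.lt_floor_add_one x
    have := Nat.floor_le hx0.le
    constructor <;> linarith
  have h3 : (1 : ℝ) ≤ m.factorial * x / Real.log x ^ m := by
    rw [le_div_iff₀ (by positivity), one_mul]
    exact log_pow_le m (by linarith)
  calc |∑ n ∈ Finset.Icc 1 ⌊x⌋₊, ArithmeticFunction.vonMangoldt n - x|
      = |(∑ n ∈ Finset.Icc 1 ⌊x⌋₊, ArithmeticFunction.vonMangoldt n - ⌊x⌋₊) +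
          ((⌊x⌋₊ : ℝ) - x)| := by congr 1; ring
    _ ≤ _ := abs_add_le _ _
    _ ≤ C * x / Real.log x ^ m + m.factorial * x / Real.log x ^ m := by linarith
    _ = (C + m.factorial) * x / Real.log x ^ m := by ring

end Crest.Agent.SW.ZS
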