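import Crest.Agent.SW.SqBound
import Crest.Agent.SW.MuPsi

/-!
# Principal characters; Liouville function

Everything for the principal character follows from `q = 1`.
-/

namespace Crest.Agent.SW

open Finset Crest.Agent.R001.SW

lemma muR_cast (n : ℕ) : ((muR n : ℝ) : ℂ) = ((ArithmeticFunction.moebius n : ℤ) : ℂ) := by
  unfold muR; push_cast; rfl

theorem sav_lam_of_mu {P : ∀ q : ℕ, DirichletCharacter ℂ q → Prop}
    (h : Sav P (fun n => ((muR n : ℝ) : ℂ))) : Sav P (fun n => ((lam n : ℝ) : ℂ)) := by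
  refine sav_sq (f := fun n => ((muR n : ℝ) : ℂ)) (c := fun _ => 1) ?_ ?_ ?_ ?_ h
  · intro n; rw [Complex.norm_real]; exact abs_muR_le n
  · intro n; rw [Complex.norm_real]; exact abs_lam_le n
  · intro n; simp
  · intro n N hn hN
    rw [lam_eq_sum n N hn hN]
    push_cast
    simp

theorem sav_mu_of_lam {P : ∀ q : ℕ, DirichletCharacter ℂ q → Prop}
    (h : Sav P (fun n => ((lam n : ℝ) : ℂ))) : Sav P (fun n => ((muR n : ℝ) : ℂ)) := by
  refine sav_sq (f := fun n => ((lam n : ℝ) : ℂ)) (c := fun n => ((muR n : ℝ) : ℂ)) ?_ ?_ ?_ ?_ h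
  · intro n; rw [Complex.norm_real]; exact abs_lam_le n
  · intro n; rw [Complex.norm_real]; exact abs_muR_le n
  · intro n; rw [Complex.norm_real]; exact abs_muR_le n
  · intro n N hn hN
    rw [muR_eq_sum n N hn hN]
    push_cast
    rfl

/-- `q = 1` -/
theorem sav_mu_one : Sav (fun q _ => q = 1) (fun n => ((muR n : ℝ) : ℂ)) := by
  refine sav_of_large (fun n _ => ?_) fun A B hA _ => ?_
  · rw [Complex.norm_real]
    have := abs_muR_le n
    have h2 := Real.log_natCast_nonneg n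
    rw [Real.norm_eq_abs]; linarith
  · obtain ⟨C, hC⟩ := ZS.mu_sum ⌈A⌉₊
    refine ⟨|C|, 3, fun x _ hx3 q _ _ χ hq => ?_⟩
    subst hq
    have hl1 := one_le_log hx3
    have h1 := hC x (by linarith)
    have e : ∑ n ∈ Icc 1 ⌊x⌋₊, ((muR n : ℝ) : ℂ) * χ n =
        ∑ n ∈ Icc 1 ⌊x⌋₊, ((ArithmeticFunction.moebius n : ℤ) : ℂ) := by
      refine Finset.sum_congr rfl fun n _ => ?_
      have : χ (n : ZMod 1) = 1 := by
        rw [Subsingleton.elim (n : ZMod 1) 1, map_one]
      rw [this, mul_one, muR_cast]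
    rw [e]
    refine h1.trans ?_
    have h2 : Real.log x ^ A ≤ Real.log x ^ ⌈A⌉₊ := by
      rw [← Real.rpow_natCast]
      exact Real.rpow_le_rpow_of_exponent_le hl1 (Nat.le_ceil A)
    have hx0 : 0 ≤ x := by linarith
    calc C * x / Real.log x ^ ⌈A⌉₊ ≤ |C| * x / Real.log x ^ ⌈A⌉₊ := by
          gcongr; exact le_abs_self C
      _ ≤ |C| * x / Real.log x ^ A := by gcongr

theorem sav_lam_one : Sav (fun q _ => q = 1) (fun n => ((lam n : ℝ) : ℂ)) :=
  sav_lam_of_mu sav_mu_one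

/-- summatory function of `λ` -/
noncomputable def Lsum (x : ℝ) : ℝ := ∑ n ∈ Icc 1 ⌊x⌋₊, lam n

/-- saving for `∑_{n ≤ x} λ(n)` -/
theorem Lsum_bound (A : ℝ) : ∃ C : ℝ, ∀ x : ℝ, 2 ≤ x → |Lsum x| ≤ C * x / (Real.log x) ^ A := by
  obtain ⟨C, hC⟩ := sav_lam_one A 0
  refine ⟨C, fun x hx => ?_⟩
  have h := hC x hx 1 le_rfl (by simp) 1 rfl
  have e : ∑ n ∈ Icc 1 ⌊x⌋₊, ((lam n : ℝ) : ℂ) * (1 : DirichletCharacter ℂ 1) n =
      ((Lsum x : ℝ) : ℂ) := by
    unfold Lsum
    push_cast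
    refine Finset.sum_congr rfl fun n _ => ?_
    have : (1 : DirichletCharacter ℂ 1) (n : ZMod 1) = 1 := by
      rw [Subsingleton.elim (n : ZMod 1) 1, map_one]
    rw [this, mul_one]
  rwa [e, Complex.norm_real] at h

lemma Lsum_trivial {x : ℝ} (hx : 0 ≤ x) : |Lsum x| ≤ x := by
  unfold Lsum
  calc |∑ n ∈ Icc 1 ⌊x⌋₊, lam n| ≤ ∑ n ∈ Icc 1 ⌊x⌋₊, |lam n| := Finset.abs_sum_le_sum_abs _ _
    _ ≤ ∑ n ∈ Icc 1 ⌊x⌋₊, (1 : ℝ) := Finset.sum_le_sum fun n _ => abs_lam_le n
    _ = ⌊x⌋₊ := by simp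
    _ ≤ x := Nat.floor_le hx

lemma one_apply_coprime (q n : ℕ) :
    (1 : DirichletCharacter ℂ q) (n : ZMod q) = if n.Coprime q then 1 else 0 := by
  split_ifs with h
  · exact MulChar.one_apply ((ZMod.isUnit_iff_coprime n q).mpr h)
  · exact MulChar.map_nonunit _ (fun hu => h ((ZMod.isUnit_iff_coprime n q).mp hu))

/-- coprimality indicator -/
lemma coprime_indicator {n q : ℕ} (hq : q ≠ 0) :
    (if n.Coprime q then (1 : ℝ) else 0) = ∑ d ∈ q.divisors.filter (fun d => d ∣ n), muR d := by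
  have h1 : q.divisors.filter (fun d => d ∣ n) = (Nat.gcd n q).divisors := by
    ext d
    rw [mem_filter, Nat.mem_divisors, Nat.mem_divisors, Nat.dvd_gcd_iff]
    constructor
    · rintro ⟨⟨h1, h2⟩, h3⟩
      exact ⟨⟨h3, h1⟩, Nat.gcd_ne_zero_right h2⟩
    · rintro ⟨⟨h1, h2⟩, h3⟩
      exact ⟨⟨h2, hq⟩, h1⟩
  rw [h1, sum_muR_divisors]

/-- `λ χ₀` in terms of `λ` -/
lemma lam_principal (q : ℕ) (hq : q ≠ 0) (x : ℝ) :
    ∑ n ∈ Icc 1 ⌊x⌋₊, lam n * (if n.Coprime q then (1 : ℝ) else 0) =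
      ∑ d ∈ q.divisors, muR d * lam d * Lsum (x / d) := by
  have h1 : ∀ n ∈ Icc 1 ⌊x⌋₊, lam n * (if n.Coprime q then (1 : ℝ) else 0) =
      ∑ d ∈ q.divisors, if d ∣ n then lam n * muR d else 0 := by
    intro n _
    rw [coprime_indicator hq, Finset.mul_sum, Finset.sum_filter]
  rw [Finset.sum_congr rfl h1, Finset.sum_comm]
  refine Finset.sum_congr rfl fun d hd => ?_
  have hd1 : 1 ≤ d := Nat.pos_of_mem_divisors hd
  rw [← Finset.sum_filter]
  have h2 : ∀ n ∈ (Icc 1 ⌊x⌋₊).filter (fun n => d ∣ n), lam n * muR d =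
      muR d * lam d * lam (n / d) := by
    intro n hn
    obtain ⟨e, he⟩ := (mem_filter.mp hn).2
    rw [he, Nat.mul_div_cancel_left _ hd1, lam_mul]
    ring
  rw [Finset.sum_congr rfl h2, ← Finset.mul_sum, sum_multiples _ d hd1 (fun m => lam m), Lsum,
    Nat.floor_div_natCast]

lemma exists_log_le_sqrt (B : ℝ) : ∃ X0 : ℝ, ∀ x : ℝ, X0 ≤ x → (Real.log x) ^ B ≤ Real.sqrt x := by
  have h := (isLittleO_log_rpow_rpow_atTop B (show (0 : ℝ) < 1 / 2 by norm_num)).bound
    (show (0 : ℝ) < 1 by norm_num)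
  rw [Filter.eventually_atTop] at h
  obtain ⟨X0, hX0⟩ := h
  refine ⟨max X0 1, fun x hx => ?_⟩
  have h1 := hX0 x ((le_max_left _ _).trans hx)
  have hx1 : 1 ≤ x := (le_max_right _ _).trans hx
  have hx0 : 0 ≤ x := by linarith
  rw [one_mul, Real.norm_of_nonneg (Real.rpow_nonneg (Real.log_nonneg hx1) _),
    Real.norm_of_nonneg (Real.rpow_nonneg hx0 _)] at h1
  rwa [Real.sqrt_eq_rpow]

/-- **the principal characters, `λ`** -/
theorem sav_lam_principal : Sav (fun _ χ => χ = 1) (fun n => ((lam n : ℝ) : ℂ)) := by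
  refine sav_of_large (fun n _ => ?_) fun A B hA hB => ?_
  · rw [Complex.norm_real]
    have := abs_lam_le n
    have h2 := Real.log_natCast_nonneg n
    rw [Real.norm_eq_abs]; linarith
  · obtain ⟨C, hC⟩ := Lsum_bound (A + B)
    obtain ⟨X0, hX3, hX0⟩ := exists_large_log B (by linarith)
    obtain ⟨X1, hX1⟩ := exists_log_le_sqrt B
    refine ⟨|C| * 2 ^ (A + B), max X0 X1, fun x hx hx3 q hq hqB χ hχ => ?_⟩
    subst hχ
    have hx0 : 0 < x := by linarith
    have hl1 := one_le_log hx3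
    have hlpos : 0 < Real.log x := by linarith
    have hxX0 : X0 ≤ x := (le_max_left _ _).trans hx
    have hqs : (q : ℝ) ≤ Real.sqrt x := hqB.trans (hX1 x ((le_max_right _ _).trans hx))
    have e : ∑ n ∈ Icc 1 ⌊x⌋₊, ((lam n : ℝ) : ℂ) * (1 : DirichletCharacter ℂ q) n =
        ((∑ n ∈ Icc 1 ⌊x⌋₊, lam n * (if n.Coprime q then (1 : ℝ) else 0) : ℝ) : ℂ) := by
      push_cast
      refine Finset.sum_congr rfl fun n _ => ?_
      rw [one_apply_coprime]
      split_ifs <;> simp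
    rw [e, Complex.norm_real, lam_principal q (by omega), Real.norm_eq_abs]
    have hsum : ∀ d ∈ q.divisors, |muR d * lam d * Lsum (x / d)| ≤
        |C| * 2 ^ (A + B) * x / (Real.log x) ^ (A + B) := by
      intro d hd
      have hd1 : (1 : ℝ) ≤ d := by exact_mod_cast Nat.pos_of_mem_divisors hd
      have hd0 : (0 : ℝ) < d := by linarith
      have hdq : (d : ℝ) ≤ q := by exact_mod_cast Nat.divisor_le hd
      have hy : Real.sqrt x ≤ x / d := by
        rw [le_div_iff₀ hd0]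
        calc Real.sqrt x * d ≤ Real.sqrt x * Real.sqrt x := by
              gcongr; linarith
          _ = x := Real.mul_self_sqrt hx0.le
      obtain ⟨g1, g2, g3⟩ := hX0 x hxX0 _ hy
      have h1 := hC (x / d) g2
      have h2 : Real.log x / 2 ≤ Real.log (x / d) := by
        rw [← Real.log_sqrt hx0.le]
        exact Real.log_le_log (Real.sqrt_pos.mpr hx0) hy
      have h3 : (Real.log x / 2) ^ (A + B) ≤ (Real.log (x / d)) ^ (A + B) :=
        Real.rpow_le_rpow (by positivity) h2 (by linarith)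
      rw [Real.div_rpow hlpos.le (by norm_num) (A + B)] at h3
      have h2A : (0 : ℝ) < 2 ^ (A + B) := by positivity
      have hxd : x / d ≤ x := div_le_self hx0.le hd1
      rw [abs_mul, abs_mul]
      calc |muR d| * |lam d| * |Lsum (x / d)| ≤ 1 * 1 * (C * (x / d) / Real.log (x / d) ^ (A + B)) := by
            gcongr
            · exact abs_muR_le d
            · exact abs_lam_le d
        _ = C * (x / d) / Real.log (x / d) ^ (A + B) := by ring
        _ ≤ |C| * (x / d) / Real.log (x / d) ^ (A + B) := by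
            gcongr; exact le_abs_self C
        _ ≤ |C| * x / (Real.log x ^ (A + B) / 2 ^ (A + B)) := by gcongr
        _ = _ := by field_simp
    have hcard : (q.divisors.card : ℝ) ≤ q := by exact_mod_cast Nat.card_divisors_le_self q
    calc |∑ d ∈ q.divisors, muR d * lam d * Lsum (x / d)|
        ≤ ∑ d ∈ q.divisors, |muR d * lam d * Lsum (x / d)| := Finset.abs_sum_le_sum_abs _ _
      _ ≤ ∑ d ∈ q.divisors, |C| * 2 ^ (A + B) * x / (Real.log x) ^ (A + B) :=
          Finset.sum_le_sum hsum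
      _ = q.divisors.card * (|C| * 2 ^ (A + B) * x / (Real.log x) ^ (A + B)) := by
          rw [Finset.sum_const, nsmul_eq_mul]
      _ ≤ (Real.log x) ^ B * (|C| * 2 ^ (A + B) * x / (Real.log x) ^ (A + B)) := by
          gcongr; exact hcard.trans hqB
      _ = |C| * 2 ^ (A + B) * x / (Real.log x) ^ A := by
          rw [Real.rpow_add hlpos]
          have : (Real.log x) ^ B ≠ 0 := by positivity
          field_simp

theorem sav_mu_principal : Sav (fun _ χ => χ = 1) (fun n => ((muR n : ℝ) : ℂ)) :=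
  sav_mu_of_lam sav_lam_principal

lemma Sav.union {P Q : ∀ q : ℕ, DirichletCharacter ℂ q → Prop} {f : ℕ → ℂ}
    (h1 : Sav P f) (h2 : Sav Q f) : Sav (fun q χ => P q χ ∨ Q q χ) f := by
  intro A B
  obtain ⟨C1, hC1⟩ := h1 A B
  obtain ⟨C2, hC2⟩ := h2 A B
  refine ⟨max C1 C2, fun x hx q hq hqB χ hχ => ?_⟩
  have hl : 0 < Real.log x := Real.log_pos (by linarith)
  have hp : 0 < (Real.log x) ^ A := Real.rpow_pos_of_pos hl _
  have hx0 : 0 < x := by linarith
  rcases hχ with h | h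
  · refine (hC1 x hx q hq hqB χ h).trans ?_
    gcongr; exact le_max_left _ _
  · refine (hC2 x hx q hq hqB χ h).trans ?_
    gcongr; exact le_max_right _ _

lemma Sav.mono {P Q : ∀ q : ℕ, DirichletCharacter ℂ q → Prop} {f : ℕ → ℂ}
    (h1 : Sav P f) (h : ∀ q χ, Q q χ → P q χ) : Sav Q f := by
  intro A B
  obtain ⟨C1, hC1⟩ := h1 A B
  exact ⟨C1, fun x hx q hq hqB χ hχ => hC1 x hx q hq hqB χ (h q χ hχ)⟩

/-- all characters, Möbius -/
theorem sav_mu_all (h : MuNonpr) : Sav (fun _ _ => True) (fun n => ((muR n : ℝ) : ℂ)) := by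
  have h1 : Sav (fun _ χ => χ ≠ 1) (fun n => ((muR n : ℝ) : ℂ)) := by
    intro A B
    obtain ⟨C, hC⟩ := h A B
    refine ⟨C, fun x hx q hq hqB χ hχ => ?_⟩
    have := hC x hx q hq hqB χ hχ
    simpa only [muR_cast] using this
  refine (h1.union sav_mu_principal).mono fun q χ _ => ?_
  by_cases hχ : χ = 1
  · exact Or.inr hχ
  · exact Or.inl hχ

/-- all characters, Liouville -/
theorem sav_lam_all (h : MuNonpr) : Sav (fun _ _ => True) (fun n => ((lam n : ℝ) : ℂ)) :=
  sav_lam_of_mu (sav_mu_all h)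

end Crest.Agent.SW
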