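import Crest.Agent.SW.LamChi301

/-!
# Prime numbers in progressions (Siegel–Walfisz) from characters (helper301)
-/

set_option autoImplicit false

open Filter Finset

namespace Crest.Agent.SW

/-- the prime number theorem with logarithmic savings -/
def PsiOne : Prop := ∀ A : ℝ, ∃ C : ℝ, ∀ x : ℝ, 2 ≤ x →
  |∑ n ∈ Finset.Icc 1 ⌊x⌋₊, ArithmeticFunction.vonMangoldt n - x| ≤ C * x / (Real.log x) ^ A

/-- Siegel–Walfisz for `Λ` in progressions -/
def PsiAP : Prop := ∀ A B : ℝ, ∃ C : ℝ, ∀ x : ℝ, 2 ≤ x → ∀ q : ℕ, 1 ≤ q →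
  (q : ℝ) ≤ (Real.log x) ^ B → ∀ b : ℕ, b.Coprime q →
    |∑ n ∈ (Finset.Icc 1 ⌊x⌋₊).filter (fun n => n ≡ b [MOD q]), ArithmeticFunction.vonMangoldt n -
      x / (Nat.totient q : ℝ)| ≤ C * x / (Real.log x) ^ A

namespace AP301

/-- logarithms against powers, uniformly for `x ≥ 2` -/
lemma log_rpow_le (r : ℝ) : ∃ C : ℝ, 0 < C ∧ ∀ x : ℝ, 2 ≤ x → (Real.log x) ^ r ≤ C * x := by
  have hl2 : 0 < Real.log 2 := Real.log_pos (by norm_num)
  rcases lt_or_ge 0 r with hr | hr
  · refine ⟨r ^ r, by positivity, fun x hx => ?_⟩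
    have hx0 : 0 < x := by linarith
    have h1 := Real.log_le_rpow_div hx0.le (by positivity : (0 : ℝ) < 1 / r)
    have hlx : 0 ≤ Real.log x := Real.log_nonneg (by linarith)
    calc (Real.log x) ^ r ≤ (x ^ (1 / r) / (1 / r)) ^ r := Real.rpow_le_rpow hlx h1 hr.le
      _ = (r * x ^ (1 / r)) ^ r := by congr 1; field_simp
      _ = r ^ r * (x ^ (1 / r)) ^ r := Real.mul_rpow hr.le (by positivity)
      _ = r ^ r * x := by
          rw [← Real.rpow_mul hx0.le]
          field_simp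
          rw [Real.rpow_one]
  · refine ⟨(Real.log 2) ^ r, by positivity, fun x hx => ?_⟩
    have hlx : Real.log 2 ≤ Real.log x := Real.log_le_log (by norm_num) hx
    have h1 : (Real.log x) ^ r ≤ (Real.log 2) ^ r := Real.rpow_le_rpow_of_nonpos hl2 hlx hr
    have h2 : 0 < (Real.log 2) ^ r := by positivity
    nlinarith

/-- change of the exponent -/
lemma div_log_pow_le {A : ℝ} {m : ℕ} (hm : A ≤ m) {C x : ℝ} (hC : 0 ≤ C) (hx : 2 ≤ x) :
    C * x / (Real.log x) ^ m ≤ (C * (Real.log 2) ^ (A - m)) * x / (Real.log x) ^ A := by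
  have hl2 : 0 < Real.log 2 := Real.log_pos (by norm_num)
  have hlx2 : Real.log 2 ≤ Real.log x := Real.log_le_log (by norm_num) hx
  have hlx : 0 < Real.log x := by linarith
  have h1 : (Real.log x) ^ (A - m) ≤ (Real.log 2) ^ (A - m) :=
    Real.rpow_le_rpow_of_nonpos hl2 hlx2 (by linarith)
  have h2 : (Real.log x) ^ A = (Real.log x) ^ (A - m) * (Real.log x) ^ m := by
    rw [← Real.rpow_natCast, ← Real.rpow_add hlx]
    congr 1
    ring
  have h3 : 0 < (Real.log x) ^ (A - m) := Real.rpow_pos_of_pos hlx _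
  rw [h2, div_le_div_iff₀ (by positivity) (by positivity)]
  have hx0 : 0 < x := by linarith
  calc C * x * ((Real.log x) ^ (A - m) * (Real.log x) ^ m)
      ≤ C * x * ((Real.log 2) ^ (A - m) * (Real.log x) ^ m) := by gcongr
    _ = C * (Real.log 2) ^ (A - m) * x * (Real.log x) ^ m := by ring

/-- orthogonality -/
lemma progression_eq (a : ℕ → ℂ) (N : ℕ) {q : ℕ} [NeZero q] {b : ℕ} (hb : b.Coprime q) :
    (q.totient : ℂ) * ∑ n ∈ (Icc 1 N).filter (fun n => n ≡ b [MOD q]), a n =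
      ∑ χ : DirichletCharacter ℂ q, χ ((b : ZMod q)⁻¹) *
        ∑ n ∈ Icc 1 N, a n * χ (n : ZMod q) := by
  have hu : IsUnit (b : ZMod q) := (ZMod.isUnit_iff_coprime b q).mpr hb
  have h1 : ∀ n : ℕ, (if n ≡ b [MOD q] then (q.totient : ℂ) else 0) =
      ∑ χ : DirichletCharacter ℂ q, χ ((b : ZMod q)⁻¹) * χ (n : ZMod q) := by
    intro n
    rw [DirichletCharacter.sum_char_inv_mul_char_eq ℂ hu (n : ZMod q)]
    refine if_congr ?_ rfl rfl
    rw [← ZMod.natCast_eq_natCast_iff, eq_comm]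
  rw [Finset.mul_sum, Finset.sum_filter]
  have h2 : ∀ n ∈ Icc 1 N, (if n ≡ b [MOD q] then (q.totient : ℂ) * a n else 0) =
      ∑ χ : DirichletCharacter ℂ q, χ ((b : ZMod q)⁻¹) * (a n * χ (n : ZMod q)) := by
    intro n _
    have : (if n ≡ b [MOD q] then (q.totient : ℂ) * a n else 0) =
        (if n ≡ b [MOD q] then (q.totient : ℂ) else 0) * a n := by
      split_ifs <;> simp
    rw [this, h1 n, Finset.sum_mul]
    refine Finset.sum_congr rfl fun χ _ => ?_
    ring
  rw [Finset.sum_congr rfl h2, Finset.sum_comm]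
  refine Finset.sum_congr rfl fun χ _ => ?_
  rw [Finset.mul_sum]

/-- prime powers not coprime to `q` -/
lemma noncoprime_bound {q : ℕ} (hq : 1 ≤ q) {x : ℝ} (hx : 2 ≤ x) :
    ∑ n ∈ (Icc 1 ⌊x⌋₊).filter (fun n => ¬ n.Coprime q), ArithmeticFunction.vonMangoldt n ≤
      2 * q * (Real.log x) ^ 2 := by
  have hx0 : 0 < x := by linarith
  have hlx : 0 ≤ Real.log x := Real.log_nonneg (by linarith)
  obtain ⟨N, hN⟩ : ∃ N, N = ⌊x⌋₊ := ⟨_, rfl⟩
  have hN0 : N ≠ 0 := by
    rw [hN]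
    have : 1 ≤ ⌊x⌋₊ := Nat.le_floor (by push_cast; linarith)
    omega
  have hNx : (N : ℝ) ≤ x := by rw [hN]; exact Nat.floor_le hx0.le
  rw [← hN]
  have h1 : ∑ n ∈ (Icc 1 N).filter (fun n => ¬ n.Coprime q), ArithmeticFunction.vonMangoldt n =
      ∑ n ∈ ((Icc 1 N).filter (fun n => ¬ n.Coprime q)).filter (fun n => IsPrimePow n),
        ArithmeticFunction.vonMangoldt n := by
    symm
    refine Finset.sum_filter_of_ne fun n _ hn => ?_
    exact ArithmeticFunction.vonMangoldt_ne_zero_iff.mp hn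
  rw [h1]
  have h2 : ((Icc 1 N).filter (fun n => ¬ n.Coprime q)).filter (fun n => IsPrimePow n) ⊆
      (q.primeFactors ×ˢ Icc 1 (Nat.log 2 N)).image (fun y : ℕ × ℕ => y.1 ^ y.2) := by
    intro n hn
    rw [mem_filter, mem_filter, mem_Icc] at hn
    obtain ⟨⟨⟨hn1, hn2⟩, hn3⟩, hn4⟩ := hn
    obtain ⟨p, k, hp, hk, rfl⟩ := (isPrimePow_nat_iff n).mp hn4
    rw [mem_image]
    refine ⟨(p, k), ?_, rfl⟩
    rw [mem_product, mem_Icc, Nat.mem_primeFactors]
    refine ⟨⟨hp, ?_, by omega⟩, hk, ?_⟩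
    · by_contra h
      exact hn3 (Nat.Coprime.pow_left k ((Nat.Prime.coprime_iff_not_dvd hp).mpr h))
    · refine Nat.le_log_of_pow_le (by norm_num) ?_
      exact (Nat.pow_le_pow_left hp.two_le k).trans hn2
  have h3 : ∀ n ∈ ((Icc 1 N).filter (fun n => ¬ n.Coprime q)).filter (fun n => IsPrimePow n),
      ArithmeticFunction.vonMangoldt n ≤ Real.log x := by
    intro n hn
    rw [mem_filter, mem_filter, mem_Icc] at hn
    refine ArithmeticFunction.vonMangoldt_le_log.trans ?_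
    refine Real.log_le_log (by exact_mod_cast hn.1.1.1) ?_
    exact le_trans (by exact_mod_cast hn.1.1.2) hNx
  have h4 : ((Nat.log 2 N : ℕ) : ℝ) ≤ 2 * Real.log x := by
    have h5 : Real.log ((2 : ℝ) ^ (Nat.log 2 N)) ≤ Real.log x := by
      refine Real.log_le_log (by positivity) (le_trans ?_ hNx)
      exact_mod_cast Nat.pow_log_le_self 2 hN0
    rw [Real.log_pow] at h5
    have h6 : (1 : ℝ) / 2 ≤ Real.log 2 := by
      have := Real.one_sub_inv_le_log_of_pos (by norm_num : (0 : ℝ) < 2)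
      norm_num at this
      linarith
    have h7 : (0 : ℝ) ≤ (Nat.log 2 N : ℕ) := Nat.cast_nonneg _
    nlinarith
  have h8 : ((q.primeFactors.card : ℕ) : ℝ) ≤ q := by
    have h9 : q.primeFactors ⊆ Icc 1 q := by
      intro p hp
      rw [mem_Icc]
      exact ⟨(Nat.prime_of_mem_primeFactors hp).one_lt.le, Nat.le_of_mem_primeFactors hp⟩
    have := Finset.card_le_card h9
    rw [Nat.card_Icc, Nat.add_sub_cancel] at this
    exact_mod_cast this
  calc ∑ n ∈ ((Icc 1 N).filter (fun n => ¬ n.Coprime q)).filter (fun n => IsPrimePow n),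
        ArithmeticFunction.vonMangoldt n
      ≤ ((((Icc 1 N).filter (fun n => ¬ n.Coprime q)).filter
          (fun n => IsPrimePow n)).card : ℝ) * Real.log x := by
        refine (Finset.sum_le_sum h3).trans ?_
        rw [Finset.sum_const, nsmul_eq_mul]
    _ ≤ ((q : ℝ) * (2 * Real.log x)) * Real.log x := by
        refine mul_le_mul_of_nonneg_right ?_ hlx
        have h10 : (((Icc 1 N).filter (fun n => ¬ n.Coprime q)).filter
            (fun n => IsPrimePow n)).card ≤ q.primeFactors.card * Nat.log 2 N := by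
          refine ((Finset.card_le_card h2).trans Finset.card_image_le).trans (le_of_eq ?_)
          rw [Finset.card_product, Nat.card_Icc, Nat.add_sub_cancel]
        have h11 : ((((Icc 1 N).filter (fun n => ¬ n.Coprime q)).filter
            (fun n => IsPrimePow n)).card : ℝ) ≤ q.primeFactors.card * Nat.log 2 N := by
          exact_mod_cast h10
        refine h11.trans ?_
        gcongr
    _ = 2 * q * (Real.log x) ^ 2 := by ring

lemma principal_sum {q : ℕ} [NeZero q] (N : ℕ) :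
    ∑ n ∈ Icc 1 N, ((ArithmeticFunction.vonMangoldt n : ℝ) : ℂ) *
      (1 : DirichletCharacter ℂ q) (n : ZMod q) =
      ((∑ n ∈ Icc 1 N, ArithmeticFunction.vonMangoldt n -
        ∑ n ∈ (Icc 1 N).filter (fun n => ¬ n.Coprime q), ArithmeticFunction.vonMangoldt n : ℝ) :
          ℂ) := by
  rw [← Finset.sum_filter_add_sum_filter_not (Icc 1 N) (fun n => ¬ n.Coprime q)
    (fun n => (ArithmeticFunction.vonMangoldt n : ℝ)), add_sub_cancel_left,
    ← Finset.sum_filter_add_sum_filter_not (Icc 1 N) (fun n => ¬ n.Coprime q)]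
  have h1 : ∑ n ∈ (Icc 1 N).filter (fun n => ¬ n.Coprime q),
      ((ArithmeticFunction.vonMangoldt n : ℝ) : ℂ) *
        (1 : DirichletCharacter ℂ q) (n : ZMod q) = 0 := by
    refine Finset.sum_eq_zero fun n hn => ?_
    have h2 : ¬ IsUnit (n : ZMod q) := by
      rw [ZMod.isUnit_iff_coprime]
      exact (mem_filter.mp hn).2
    rw [MulChar.map_nonunit _ h2, mul_zero]
  rw [h1, zero_add]
  push_cast
  refine Finset.sum_congr rfl fun n hn => ?_
  have h2 : IsUnit (n : ZMod q) := by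
    rw [ZMod.isUnit_iff_coprime]
    have := (mem_filter.mp hn).2
    rwa [not_not] at this
  rw [MulChar.one_apply h2, mul_one]

end AP301

open AP301 in
/-- **Siegel–Walfisz for `Λ`** from the character sums -/
theorem psiAP (hpsi : PsiOne) (hlam : LamNonpr) : PsiAP := by
  intro A B
  obtain ⟨C₁, hC₁⟩ := hpsi A
  obtain ⟨C₂, hC₂⟩ := hlam A B
  obtain ⟨C₃, hC₃0, hC₃⟩ := log_rpow_le (A + B + 2)
  refine ⟨|C₁| + 2 * C₃ + |C₂|, ?_⟩
  intro x hx q hq hqB b hb
  have : NeZero q := ⟨by omega⟩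
  have hx0 : 0 < x := by linarith
  have hlx : 0 < Real.log x := Real.log_pos (by linarith)
  have hpow : 0 < (Real.log x) ^ A := Real.rpow_pos_of_pos hlx A
  obtain ⟨N, hN⟩ : ∃ N, N = ⌊x⌋₊ := ⟨_, rfl⟩
  have hφ : 0 < q.totient := Nat.totient_pos.mpr (by omega)
  have hφ1 : (1 : ℝ) ≤ q.totient := by exact_mod_cast hφ
  obtain ⟨E, hE⟩ : ∃ E, E = x / (Real.log x) ^ A := ⟨_, rfl⟩
  have hE0 : 0 < E := by rw [hE]; positivity
  -- the three bounds
  have b1 : |∑ n ∈ Icc 1 N, ArithmeticFunction.vonMangoldt n - x| ≤ |C₁| * E := by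
    rw [hN, hE]
    refine (hC₁ x hx).trans ?_
    rw [mul_div_assoc]
    exact mul_le_mul_of_nonneg_right (le_abs_self _) (by positivity)
  have b2 : ∑ n ∈ (Icc 1 N).filter (fun n => ¬ n.Coprime q), ArithmeticFunction.vonMangoldt n ≤
      2 * C₃ * E := by
    rw [hN]
    refine (noncoprime_bound hq hx).trans ?_
    have h1 : (Real.log x) ^ 2 = (Real.log x) ^ (2 : ℝ) := by
      rw [show (2 : ℝ) = ((2 : ℕ) : ℝ) by norm_num, Real.rpow_natCast]
    have h2 := hC₃ x hx
    have h3 : (Real.log x) ^ (A + B + 2) =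
        (Real.log x) ^ A * ((Real.log x) ^ B * (Real.log x) ^ (2 : ℝ)) := by
      rw [← Real.rpow_add hlx, ← Real.rpow_add hlx]
      congr 1
      ring
    rw [h3] at h2
    have h4 : (Real.log x) ^ B * (Real.log x) ^ (2 : ℝ) ≤ C₃ * E := by
      rw [hE, ← mul_div_assoc, le_div_iff₀ hpow]
      linarith
    rw [h1]
    calc 2 * (q : ℝ) * (Real.log x) ^ (2 : ℝ)
        ≤ 2 * (Real.log x) ^ B * (Real.log x) ^ (2 : ℝ) := by gcongr
      _ = 2 * ((Real.log x) ^ B * (Real.log x) ^ (2 : ℝ)) := by ring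
      _ ≤ 2 * (C₃ * E) := by linarith
      _ = 2 * C₃ * E := by ring
  have b2' : 0 ≤ ∑ n ∈ (Icc 1 N).filter (fun n => ¬ n.Coprime q),
      ArithmeticFunction.vonMangoldt n :=
    Finset.sum_nonneg fun n _ => ArithmeticFunction.vonMangoldt_nonneg
  have b3 : ∀ χ : DirichletCharacter ℂ q, χ ≠ 1 →
      ‖∑ n ∈ Icc 1 N, ((ArithmeticFunction.vonMangoldt n : ℝ) : ℂ) * χ (n : ZMod q)‖ ≤
        |C₂| * E := by
    intro χ hχ
    rw [hN, hE]
    refine (hC₂ x hx q hq hqB χ hχ).trans ?_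
    rw [mul_div_assoc]
    exact mul_le_mul_of_nonneg_right (le_abs_self _) (by positivity)
  -- orthogonality
  obtain ⟨T, hT⟩ : ∃ T, T = ∑ n ∈ (Icc 1 N).filter (fun n => n ≡ b [MOD q]),
    ArithmeticFunction.vonMangoldt n := ⟨_, rfl⟩
  have horth := progression_eq (fun n => ((ArithmeticFunction.vonMangoldt n : ℝ) : ℂ)) N hb
  rw [← Finset.add_sum_erase Finset.univ _ (Finset.mem_univ (1 : DirichletCharacter ℂ q)),
    principal_sum] at horth
  have hu : IsUnit ((b : ZMod q)⁻¹) := by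
    have hu' : IsUnit (b : ZMod q) := (ZMod.isUnit_iff_coprime b q).mpr hb
    obtain ⟨u, hu'⟩ := hu'
    rw [← hu', ZMod.inv_coe_unit]
    exact (u⁻¹).isUnit
  rw [MulChar.one_apply hu, one_mul] at horth
  have hTc : ∑ n ∈ (Icc 1 N).filter (fun n => n ≡ b [MOD q]),
      ((ArithmeticFunction.vonMangoldt n : ℝ) : ℂ) = (T : ℂ) := by
    rw [hT]; push_cast; rfl
  rw [hTc] at horth
  have hrest : ‖∑ χ ∈ Finset.univ.erase (1 : DirichletCharacter ℂ q), χ ((b : ZMod q)⁻¹) *
      ∑ n ∈ Icc 1 N, ((ArithmeticFunction.vonMangoldt n : ℝ) : ℂ) * χ (n : ZMod q)‖ ≤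
      q.totient * (|C₂| * E) := by
    refine (norm_sum_le _ _).trans ?_
    have h1 : ∀ χ ∈ Finset.univ.erase (1 : DirichletCharacter ℂ q),
        ‖χ ((b : ZMod q)⁻¹) * ∑ n ∈ Icc 1 N, ((ArithmeticFunction.vonMangoldt n : ℝ) : ℂ) *
          χ (n : ZMod q)‖ ≤ |C₂| * E := by
      intro χ hχ
      rw [norm_mul]
      calc ‖χ ((b : ZMod q)⁻¹)‖ * _ ≤ 1 * (|C₂| * E) :=
            mul_le_mul (χ.norm_le_one _) (b3 χ (Finset.ne_of_mem_erase hχ)) (norm_nonneg _)
              zero_le_one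
        _ = |C₂| * E := one_mul _
    refine (Finset.sum_le_sum h1).trans ?_
    rw [Finset.sum_const, nsmul_eq_mul]
    refine mul_le_mul_of_nonneg_right ?_ (by positivity)
    have h2 : (Finset.univ.erase (1 : DirichletCharacter ℂ q)).card ≤ q.totient := by
      refine (Finset.card_le_univ _).trans (le_of_eq ?_)
      rw [← Nat.card_eq_fintype_card]
      exact DirichletCharacter.card_eq_totient_of_hasEnoughRootsOfUnity ℂ q
    exact_mod_cast h2
  have hfin : |(q.totient : ℝ) * T - x| ≤ |C₁| * E + 2 * C₃ * E + q.totient * (|C₂| * E) := by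
    have h1 : (((q.totient : ℝ) * T - x : ℝ) : ℂ) =
        (((∑ n ∈ Icc 1 N, ArithmeticFunction.vonMangoldt n - x) -
          ∑ n ∈ (Icc 1 N).filter (fun n => ¬ n.Coprime q),
            ArithmeticFunction.vonMangoldt n : ℝ) : ℂ) +
        ∑ χ ∈ Finset.univ.erase (1 : DirichletCharacter ℂ q), χ ((b : ZMod q)⁻¹) *
          ∑ n ∈ Icc 1 N, ((ArithmeticFunction.vonMangoldt n : ℝ) : ℂ) * χ (n : ZMod q) := by
      push_cast at horth ⊢
      rw [horth]
      ring
    have h2 : |(q.totient : ℝ) * T - x| = ‖(((q.totient : ℝ) * T - x : ℝ) : ℂ)‖ := by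
      rw [Complex.norm_real, Real.norm_eq_abs]
    rw [h2, h1]
    refine (norm_add_le _ _).trans (add_le_add ?_ hrest)
    rw [Complex.norm_real, Real.norm_eq_abs]
    refine (abs_sub _ _).trans (add_le_add b1 ?_)
    rw [abs_of_nonneg b2']
    exact b2
  have hT' : T - x / q.totient = ((q.totient : ℝ) * T - x) / q.totient := by
    field_simp
  rw [← hN, ← hT, hT', abs_div, abs_of_pos (by linarith : (0 : ℝ) < q.totient),
    div_le_iff₀ (by linarith)]
  refine hfin.trans ?_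
  have h5 : (|C₁| + 2 * C₃ + |C₂|) * x / (Real.log x) ^ A = (|C₁| + 2 * C₃ + |C₂|) * E := by
    rw [hE, mul_div_assoc]
  rw [h5]
  have h6 : 0 ≤ |C₁| * E + 2 * C₃ * E := by positivity
  nlinarith

end Crest.Agent.SW
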