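import Mathlib

/-!
# Siegel–Walfisz library: the Perron engine

For `a : ℕ → ℂ` with `‖a n‖ ≤ 1 + log n`, a bound for the `k`-th derivative of the Dirichlet series
of `a` on `1 < Re s ≤ 2` gives a bound for the partial sums of `a`.
-/

set_option autoImplicit false
set_option maxHeartbeats 1000000

open Complex MeasureTheory Set Filter Topology

namespace Crest.Agent.SW

noncomputable section

/-- the kernel `(1-u)^+` -/
def kf (u : ℝ) : ℂ := ((max (1 - u) 0 : ℝ) : ℂ)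

theorem kf_eq {u : ℝ} (hu : 0 < u) :
    kf u = indicator (Ioc 0 1) (fun _ => 1 : ℝ → ℂ) u
      - indicator (Ioc 0 1) (fun t => (t : ℂ) ^ (1 : ℂ) : ℝ → ℂ) u := by
  unfold kf
  by_cases h : u ≤ 1
  · have hm : u ∈ Ioc (0 : ℝ) 1 := ⟨hu, h⟩
    rw [indicator_of_mem hm, indicator_of_mem hm, max_eq_left (by linarith)]
    simp
  · have hm : u ∉ Ioc (0 : ℝ) 1 := fun h' => h h'.2
    rw [indicator_of_notMem hm, indicator_of_notMem hm, max_eq_right (by linarith)]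
    simp

theorem kf_mellin {s : ℂ} (hs : 0 < s.re) : HasMellin kf s (1 / s - 1 / (s + 1)) := by
  have h1 := hasMellin_one_Ioc hs
  have h2 := hasMellin_cpow_Ioc (1 : ℂ) (s := s) (by simp; linarith)
  have h3 := hasMellin_sub h1.1 h2.1
  rw [h1.2, h2.2] at h3
  have hcongr : ∀ t ∈ Ioi (0 : ℝ), (t : ℂ) ^ (s - 1) • kf t = (t : ℂ) ^ (s - 1) •
      (indicator (Ioc 0 1) (fun _ => 1 : ℝ → ℂ) t
        - indicator (Ioc 0 1) (fun t => (t : ℂ) ^ (1 : ℂ) : ℝ → ℂ) t) := by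
    intro t ht
    rw [kf_eq ht]
  refine ⟨?_, ?_⟩
  · have := h3.1
    unfold MellinConvergent at this ⊢
    exact this.congr_fun (fun t ht => (hcongr t ht).symm) measurableSet_Ioi
  · have := h3.2
    rw [← this]
    unfold mellin
    exact setIntegral_congr_fun measurableSet_Ioi hcongr

theorem norm_sq_ge (c y : ℝ) (hc : 1 ≤ c) : 1 + y ^ 2 ≤ ‖((c : ℂ) + y * I) * ((c : ℂ) + y * I + 1)‖ := by
  rw [norm_mul]
  have h1 : Real.sqrt (1 + y ^ 2) ≤ ‖(c : ℂ) + y * I‖ := by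
    apply Real.sqrt_le_iff.mpr
    refine ⟨norm_nonneg _, ?_⟩
    rw [← Complex.normSq_eq_norm_sq, Complex.normSq_apply]
    simp
    nlinarith
  have h2 : Real.sqrt (1 + y ^ 2) ≤ ‖(c : ℂ) + y * I + 1‖ := by
    apply Real.sqrt_le_iff.mpr
    refine ⟨norm_nonneg _, ?_⟩
    rw [← Complex.normSq_eq_norm_sq, Complex.normSq_apply]
    simp
    nlinarith
  calc 1 + y ^ 2 = Real.sqrt (1 + y ^ 2) * Real.sqrt (1 + y ^ 2) := by
        rw [Real.mul_self_sqrt (by positivity)]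
    _ ≤ _ := mul_le_mul h1 h2 (Real.sqrt_nonneg _) (norm_nonneg _)

theorem kf_mellin_eq {s : ℂ} (hs : 0 < s.re) : mellin kf s = 1 / (s * (s + 1)) := by
  rw [(kf_mellin hs).2]
  have h1 : s ≠ 0 := by rintro rfl; simp at hs
  have h2 : s + 1 ≠ 0 := by
    intro h
    have := congrArg Complex.re h
    simp at this
    linarith
  field_simp
  ring

theorem kernel_ne (c y : ℝ) (hc : 1 ≤ c) : ((c : ℂ) + y * I) * ((c : ℂ) + y * I + 1) ≠ 0 := by
  intro h
  have := norm_sq_ge c y hc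
  rw [h, norm_zero] at this
  nlinarith [sq_nonneg y]

theorem kernel_cont (c : ℝ) (hc : 1 ≤ c) :
    Continuous (fun y : ℝ => 1 / (((c : ℂ) + y * I) * ((c : ℂ) + y * I + 1))) := by
  apply Continuous.div continuous_const (by fun_prop)
  intro y
  exact kernel_ne c y hc

theorem kernel_norm_le (c y : ℝ) (hc : 1 ≤ c) :
    ‖1 / (((c : ℂ) + y * I) * ((c : ℂ) + y * I + 1))‖ ≤ (1 + y ^ 2)⁻¹ := by
  rw [norm_div, norm_one, one_div]
  exact inv_anti₀ (by positivity) (norm_sq_ge c y hc)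

theorem kernel_int (c : ℝ) (hc : 1 ≤ c) :
    Integrable (fun y : ℝ => 1 / (((c : ℂ) + y * I) * ((c : ℂ) + y * I + 1))) := by
  refine Integrable.mono' (g := fun y : ℝ => (1 + y ^ 2)⁻¹) integrable_inv_one_add_sq
    (kernel_cont c hc).aestronglyMeasurable ?_
  filter_upwards with y
  exact kernel_norm_le c y hc

theorem kf_inv (c : ℝ) (hc : 1 ≤ c) {u : ℝ} (hu : 0 < u) :
    (1 / (2 * Real.pi) : ℝ) • ∫ y : ℝ, (u : ℂ) ^ (-((c : ℂ) + y * I)) *
      (1 / (((c : ℂ) + y * I) * ((c : ℂ) + y * I + 1))) = kf u := by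
  have hre : ∀ y : ℝ, 0 < ((c : ℂ) + y * I).re := by intro y; simp; linarith
  have h := mellinInv_mellin_eq c kf hu (kf_mellin (s := c) (by simp; linarith)).1 ?_ ?_
  · rw [← h]
    unfold mellinInv
    congr 1
    apply integral_congr_ae
    filter_upwards with y
    rw [smul_eq_mul, kf_mellin_eq (hre y)]
  · unfold VerticalIntegrable
    refine (kernel_int c hc).congr ?_
    filter_upwards with y
    rw [kf_mellin_eq (hre y)]
  · unfold kf
    fun_prop

theorem kf_le_zero {u : ℝ} (hu : 1 ≤ u) : kf u = 0 := by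
  unfold kf
  rw [max_eq_right (by linarith)]
  simp

theorem kf_of_le {u : ℝ} (hu : u ≤ 1) : kf u = 1 - u := by
  unfold kf
  rw [max_eq_left (by linarith)]
  push_cast
  rfl

theorem term_norm (b : ℕ → ℂ) (c y : ℝ) (n : ℕ) :
    ‖LSeries.term b ((c : ℂ) + y * I) n‖ = ‖LSeries.term b (c : ℂ) n‖ := by
  rw [LSeries.norm_term_eq, LSeries.norm_term_eq]
  simp

/-- the integrand attached to the `n`-th term -/
def Fint (b : ℕ → ℂ) (c x : ℝ) (n : ℕ) (y : ℝ) : ℂ :=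
  LSeries.term b ((c : ℂ) + y * I) n *
    ((x : ℂ) ^ ((c : ℂ) + y * I) * (1 / (((c : ℂ) + y * I) * ((c : ℂ) + y * I + 1))))

theorem norm_x_cpow {x : ℝ} (hx : 0 < x) (c y : ℝ) : ‖(x : ℂ) ^ ((c : ℂ) + y * I)‖ = x ^ c := by
  rw [Complex.norm_cpow_eq_rpow_re_of_pos hx]
  simp

theorem Fint_norm_le (b : ℕ → ℂ) (c : ℝ) (hc : 1 ≤ c) {x : ℝ} (hx : 0 < x) (n : ℕ) (y : ℝ) :
    ‖Fint b c x n y‖ ≤ ‖LSeries.term b (c : ℂ) n‖ * (x ^ c * (1 + y ^ 2)⁻¹) := by
  unfold Fint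
  rw [norm_mul, term_norm, norm_mul, norm_x_cpow hx]
  gcongr
  exact kernel_norm_le c y hc

theorem Fint_cont (b : ℕ → ℂ) (c : ℝ) (hc : 1 ≤ c) {x : ℝ} (hx : 0 < x) (n : ℕ) :
    Continuous (Fint b c x n) := by
  unfold Fint
  refine Continuous.mul ?_ (Continuous.mul ?_ (kernel_cont c hc))
  · rcases Nat.eq_zero_or_pos n with rfl | hn
    · simp only [LSeries.term_zero]
      exact continuous_const
    · have hn' : n ≠ 0 := hn.ne'
      simp only [LSeries.term_of_ne_zero hn']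
      refine Continuous.div continuous_const ?_ ?_
      · exact Continuous.const_cpow (by fun_prop) (Or.inl (by exact_mod_cast hn'))
      · intro y
        rw [Ne, Complex.cpow_eq_zero_iff]
        intro h
        exact hn' (by exact_mod_cast h.1)
  · exact Continuous.const_cpow (by fun_prop) (Or.inl (by exact_mod_cast hx.ne'))

theorem Fint_int (b : ℕ → ℂ) (c : ℝ) (hc : 1 ≤ c) {x : ℝ} (hx : 0 < x) (n : ℕ) :
    Integrable (Fint b c x n) := by
  refine Integrable.mono' (g := fun y : ℝ => ‖LSeries.term b (c : ℂ) n‖ * (x ^ c * (1 + y ^ 2)⁻¹))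
    ((integrable_inv_one_add_sq.const_mul _).const_mul _) (Fint_cont b c hc hx n).aestronglyMeasurable ?_
  filter_upwards with y
  exact Fint_norm_le b c hc hx n y

theorem Fint_integral (b : ℕ → ℂ) (c : ℝ) (hc : 1 ≤ c) {x : ℝ} (hx : 0 < x) (n : ℕ) :
    ∫ y : ℝ, Fint b c x n y = if n = 0 then 0 else (2 * Real.pi) * (b n * kf (n / x)) := by
  by_cases hn : n = 0
  · subst hn
    simp [Fint]
  · rw [if_neg hn]
    have hn' : 0 < (n : ℝ) := by positivity
    have h := kf_inv c hc (u := n / x) (by positivity)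
    have hpi : (2 * Real.pi : ℝ) ≠ 0 := by positivity
    have h2 : ∫ y : ℝ, ((n / x : ℝ) : ℂ) ^ (-((c : ℂ) + y * I)) *
      (1 / (((c : ℂ) + y * I) * ((c : ℂ) + y * I + 1))) = (2 * Real.pi : ℂ) * kf (n / x) := by
      have hc1 : (2 * Real.pi : ℂ) * ((1 / (2 * Real.pi) : ℝ) : ℂ) = 1 := by
        push_cast
        have : (Real.pi : ℂ) ≠ 0 := by exact_mod_cast Real.pi_ne_zero
        field_simp
      rw [← h, Complex.real_smul, ← mul_assoc, hc1, one_mul]
    have h3 : ∀ y : ℝ, Fint b c x n y = b n * (((n / x : ℝ) : ℂ) ^ (-((c : ℂ) + y * I)) *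
      (1 / (((c : ℂ) + y * I) * ((c : ℂ) + y * I + 1)))) := by
      intro y
      unfold Fint
      rw [LSeries.term_of_ne_zero hn]
      have h4 : ((n / x : ℝ) : ℂ) ^ (-((c : ℂ) + y * I)) =
          (x : ℂ) ^ ((c : ℂ) + y * I) / (n : ℂ) ^ ((c : ℂ) + y * I) := by
        rw [Complex.ofReal_div, Complex.div_cpow_ofReal_nonneg hn'.le hx.le, Complex.cpow_neg,
          Complex.cpow_neg]
        rw [inv_div_inv]
        norm_cast
      rw [h4]
      ring
    simp_rw [h3]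
    rw [integral_const_mul, h2]
    ring

theorem perron_hasSum (b : ℕ → ℂ) (c : ℝ) (hc : 1 ≤ c) (hb : LSeriesSummable b (c : ℂ)) {x : ℝ}
    (hx : 0 < x) :
    (2 * Real.pi : ℂ) * ∑ n ∈ Finset.Icc 1 ⌊x⌋₊, b n * (1 - n / x) =
      ∫ y : ℝ, LSeries b ((c : ℂ) + y * I) * ((x : ℂ) ^ ((c : ℂ) + y * I) *
        (1 / (((c : ℂ) + y * I) * ((c : ℂ) + y * I + 1)))) := by
  have hsum : Summable fun n => ∫ y : ℝ, ‖Fint b c x n y‖ := by
    refine Summable.of_nonneg_of_le (f := fun n => ‖LSeries.term b (c : ℂ) n‖ *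
      (x ^ c * ∫ y : ℝ, (1 + y ^ 2)⁻¹)) (fun n => integral_nonneg fun y => norm_nonneg _) ?_
      ((hb.norm).mul_right _)
    intro n
    rw [← integral_const_mul, ← integral_const_mul]
    exact integral_mono (Fint_int b c hc hx n).norm
      ((integrable_inv_one_add_sq.const_mul _).const_mul _) (fun y => Fint_norm_le b c hc hx n y)
  have h := hasSum_integral_of_summable_integral_norm (Fint_int b c hc hx) hsum
  have h1 : ∀ y : ℝ, ∑' n, Fint b c x n y = LSeries b ((c : ℂ) + y * I) *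
      ((x : ℂ) ^ ((c : ℂ) + y * I) * (1 / (((c : ℂ) + y * I) * ((c : ℂ) + y * I + 1)))) := by
    intro y
    unfold Fint
    rw [tsum_mul_right]
    rfl
  simp_rw [h1] at h
  rw [← h.tsum_eq]
  rw [tsum_eq_sum (s := Finset.Icc 1 ⌊x⌋₊)]
  · rw [Finset.mul_sum]
    apply Finset.sum_congr rfl
    intro n hn
    rw [Finset.mem_Icc] at hn
    rw [Fint_integral b c hc hx n, if_neg (by omega), kf_of_le]
    · push_cast
      rfl
    · rw [div_le_one hx]
      exact (Nat.le_floor_iff hx.le).mp hn.2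
  · intro n hn
    rw [Fint_integral b c hc hx n]
    by_cases h0 : n = 0
    · rw [if_pos h0]
    · rw [if_neg h0, kf_le_zero, mul_zero, mul_zero]
      rw [le_div_iff₀ hx, one_mul]
      rw [Finset.mem_Icc, not_and] at hn
      have := hn (by omega)
      rw [not_le, Nat.floor_lt hx.le] at this
      exact this.le

theorem perron_norm (b : ℕ → ℂ) (c : ℝ) (hc : 1 ≤ c) (hb : LSeriesSummable b (c : ℂ)) {x : ℝ}
    (hx : 0 < x) (G : ℝ → ℝ) (hG : ∀ y : ℝ, ‖LSeries b ((c : ℂ) + y * I)‖ ≤ G y)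
    (hGi : Integrable fun y : ℝ => G y * (1 + y ^ 2)⁻¹) :
    ‖∑ n ∈ Finset.Icc 1 ⌊x⌋₊, b n * (1 - n / x)‖ ≤ x ^ c * ∫ y : ℝ, G y * (1 + y ^ 2)⁻¹ := by
  have h := perron_hasSum b c hc hb hx
  have h1 : ‖(2 * Real.pi : ℂ) * ∑ n ∈ Finset.Icc 1 ⌊x⌋₊, b n * (1 - n / x)‖ ≤
      x ^ c * ∫ y : ℝ, G y * (1 + y ^ 2)⁻¹ := by
    rw [h, ← integral_const_mul]
    refine norm_integral_le_of_norm_le (hGi.const_mul _) ?_
    filter_upwards with y
    rw [norm_mul, norm_mul, norm_x_cpow hx]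
    have h2 := kernel_norm_le c y hc
    have h3 := hG y
    have h4 : 0 ≤ G y := le_trans (norm_nonneg _) h3
    calc ‖LSeries b ((c : ℂ) + y * I)‖ * (x ^ c * _) ≤ G y * (x ^ c * (1 + y ^ 2)⁻¹) := by
          gcongr
      _ = x ^ c * (G y * (1 + y ^ 2)⁻¹) := by ring
  rw [norm_mul] at h1
  have h2 : (1 : ℝ) ≤ ‖(2 * Real.pi : ℂ)‖ := by
    rw [norm_mul, Complex.norm_ofNat, Complex.norm_real, Real.norm_of_nonneg Real.pi_pos.le]
    linarith [Real.pi_gt_three]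
  calc _ = 1 * ‖∑ n ∈ Finset.Icc 1 ⌊x⌋₊, b n * (1 - n / x)‖ := (one_mul _).symm
    _ ≤ ‖(2 * Real.pi : ℂ)‖ * ‖∑ n ∈ Finset.Icc 1 ⌊x⌋₊, b n * (1 - n / x)‖ := by gcongr
    _ ≤ _ := h1

end

end Crest.Agent.SW
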