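import Crest.Agent.SW.Engine259

/-!
# Siegel–Walfisz library: the Perron engine, part 2
-/

set_option autoImplicit false
set_option maxHeartbeats 1000000

open Complex MeasureTheory Set Filter Topology

namespace Crest.Agent.SW

noncomputable section

theorem unsmooth (b : ℕ → ℂ) (x h M B : ℝ) (hx : 0 < x) (hh : 0 < h)
    (h1 : ‖∑ n ∈ Finset.Icc 1 ⌊x⌋₊, b n * (x - n)‖ ≤ M)
    (h2 : ‖∑ n ∈ Finset.Icc 1 ⌊x + h⌋₊, b n * (x + h - n)‖ ≤ M)
    (hB : ∀ n : ℕ, (n : ℝ) ≤ x + h → 1 ≤ n → ‖b n‖ ≤ B) (hB0 : 0 ≤ B) :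
    ‖∑ n ∈ Finset.Icc 1 ⌊x⌋₊, b n‖ ≤ 2 * M / h + (h + 1) * B := by
  have hfl : ⌊x⌋₊ ≤ ⌊x + h⌋₊ := Nat.floor_le_floor (by linarith)
  have hsplit : ∑ n ∈ Finset.Icc 1 ⌊x + h⌋₊, b n * (x + h - n) =
      ∑ n ∈ Finset.Icc 1 ⌊x⌋₊, b n * (x + h - n) +
        ∑ n ∈ Finset.Ioc ⌊x⌋₊ ⌊x + h⌋₊, b n * (x + h - n) := by
    rw [← Finset.sum_union]
    · congr 1
      ext n
      simp only [Finset.mem_Icc, Finset.mem_union, Finset.mem_Ioc]
      omega
    · rw [Finset.disjoint_left]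
      intro n hn hn'
      rw [Finset.mem_Icc] at hn
      rw [Finset.mem_Ioc] at hn'
      omega
  have hs2 : ∑ n ∈ Finset.Icc 1 ⌊x⌋₊, b n * ((x : ℂ) + h - n) =
      ∑ n ∈ Finset.Icc 1 ⌊x⌋₊, b n * (x - n) + h * ∑ n ∈ Finset.Icc 1 ⌊x⌋₊, b n := by
    rw [Finset.mul_sum, ← Finset.sum_add_distrib]
    apply Finset.sum_congr rfl
    intro n _
    ring
  have hlast : ‖∑ n ∈ Finset.Ioc ⌊x⌋₊ ⌊x + h⌋₊, b n * ((x : ℂ) + h - n)‖ ≤ h * ((h + 1) * B) := by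
    have hterm : ∀ n ∈ Finset.Ioc ⌊x⌋₊ ⌊x + h⌋₊, ‖b n * ((x : ℂ) + h - n)‖ ≤ B * h := by
      intro n hn
      rw [Finset.mem_Ioc] at hn
      have hn1 : x < n := (Nat.floor_lt hx.le).mp hn.1
      have hn2 : (n : ℝ) ≤ x + h := (Nat.le_floor_iff (by linarith)).mp hn.2
      have hn3 : 1 ≤ n := by omega
      rw [norm_mul]
      have : ‖(x : ℂ) + h - n‖ = |x + h - n| := by
        rw [← Real.norm_eq_abs, ← Complex.norm_real]
        push_cast
        rfl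
      rw [this, abs_of_nonneg (by linarith)]
      exact mul_le_mul (hB n hn2 hn3) (by linarith) (by linarith) hB0
    refine (norm_sum_le_of_le _ hterm).trans ?_
    rw [Finset.sum_const, Nat.card_Ioc, nsmul_eq_mul]
    have hcard : ((⌊x + h⌋₊ - ⌊x⌋₊ : ℕ) : ℝ) ≤ h + 1 := by
      rw [Nat.cast_sub hfl]
      have h3 := Nat.floor_le (show 0 ≤ x + h by linarith)
      have h4 := Nat.lt_floor_add_one x
      linarith
    calc ((⌊x + h⌋₊ - ⌊x⌋₊ : ℕ) : ℝ) * (B * h) ≤ (h + 1) * (B * h) := by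
          apply mul_le_mul_of_nonneg_right hcard (by positivity)
      _ = h * ((h + 1) * B) := by ring
  have hmain : (h : ℂ) * ∑ n ∈ Finset.Icc 1 ⌊x⌋₊, b n =
      ∑ n ∈ Finset.Icc 1 ⌊x + h⌋₊, b n * (x + h - n) - ∑ n ∈ Finset.Icc 1 ⌊x⌋₊, b n * (x - n)
        - ∑ n ∈ Finset.Ioc ⌊x⌋₊ ⌊x + h⌋₊, b n * ((x : ℂ) + h - n) := by
    rw [hsplit, hs2]
    ring
  have hn : h * ‖∑ n ∈ Finset.Icc 1 ⌊x⌋₊, b n‖ ≤ M + M + h * ((h + 1) * B) := by
    calc h * ‖∑ n ∈ Finset.Icc 1 ⌊x⌋₊, b n‖ = ‖(h : ℂ) * ∑ n ∈ Finset.Icc 1 ⌊x⌋₊, b n‖ := by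
          rw [norm_mul, Complex.norm_real, Real.norm_of_nonneg hh.le]
      _ ≤ M + M + h * ((h + 1) * B) := by
          rw [hmain]
          refine (norm_sub_le _ _).trans (add_le_add ((norm_sub_le _ _).trans (add_le_add h2 h1)) hlast)
  have h5 : ‖∑ n ∈ Finset.Icc 1 ⌊x⌋₊, b n‖ ≤ (M + M + h * ((h + 1) * B)) / h := by
    rw [le_div_iff₀ hh]
    linarith
  refine h5.trans (le_of_eq ?_)
  field_simp
  ring

/-- `(log n)^k a n` -/
def bk (a : ℕ → ℂ) (k : ℕ) (n : ℕ) : ℂ := (Real.log n : ℂ) ^ k * a n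

theorem logMul_iter (a : ℕ → ℂ) (k : ℕ) : LSeries.logMul^[k] a = bk a k := by
  induction k with
  | zero =>
    ext n
    simp [bk]
  | succ k ih =>
    rw [Function.iterate_succ', Function.comp_apply, ih]
    ext n
    simp only [LSeries.logMul, bk, ← Complex.natCast_log]
    ring

theorem one_add_log_le {δ : ℝ} (hδ : 0 < δ) {n : ℕ} (hn : 1 ≤ n) :
    1 + Real.log n ≤ (1 + 1 / δ) * (n : ℝ) ^ δ := by
  have h1 : (1 : ℝ) ≤ n := by exact_mod_cast hn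
  have h2 : (1 : ℝ) ≤ (n : ℝ) ^ δ := Real.one_le_rpow h1 hδ.le
  have h3 := Real.log_le_rpow_div (show (0 : ℝ) ≤ n by linarith) hδ
  calc 1 + Real.log n ≤ (n : ℝ) ^ δ + (n : ℝ) ^ δ / δ := add_le_add h2 h3
    _ = _ := by ring

theorem summable_of_log (a : ℕ → ℂ) (ha : ∀ n : ℕ, 1 ≤ n → ‖a n‖ ≤ 1 + Real.log n) {s : ℂ}
    (hs : 1 < s.re) : LSeriesSummable a s := by
  refine LSeriesSummable_of_le_const_mul_rpow (x := 1 + (s.re - 1) / 2) (by linarith)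
    ⟨1 + 1 / ((s.re - 1) / 2), fun n hn => ?_⟩
  have hn1 : 1 ≤ n := Nat.one_le_iff_ne_zero.mpr hn
  refine (ha n hn1).trans ?_
  have := one_add_log_le (δ := (s.re - 1) / 2) (by linarith) hn1
  simpa using this

theorem abscissa_le (a : ℕ → ℂ) (ha : ∀ n : ℕ, 1 ≤ n → ‖a n‖ ≤ 1 + Real.log n) :
    LSeries.abscissaOfAbsConv a ≤ 1 := by
  apply LSeries.abscissaOfAbsConv_le_of_forall_lt_LSeriesSummable' (x := (1 : EReal))
  intro y hy
  apply summable_of_log a ha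
  have : ((1 : ℝ) : EReal) < y := by simpa using hy
  simpa using (EReal.coe_lt_coe_iff.mp this)

theorem abscissa_lt (a : ℕ → ℂ) (ha : ∀ n : ℕ, 1 ≤ n → ‖a n‖ ≤ 1 + Real.log n) {s : ℂ}
    (hs : 1 < s.re) : LSeries.abscissaOfAbsConv a < s.re :=
  lt_of_le_of_lt (abscissa_le a ha) (by exact_mod_cast hs)

theorem bk_summable (a : ℕ → ℂ) (ha : ∀ n : ℕ, 1 ≤ n → ‖a n‖ ≤ 1 + Real.log n) (k : ℕ) {s : ℂ}
    (hs : 1 < s.re) : LSeriesSummable (bk a k) s := by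
  apply LSeriesSummable_of_abscissaOfAbsConv_lt_re
  rw [← logMul_iter, LSeries.absicssaOfAbsConv_logPowMul]
  exact abscissa_lt a ha hs

theorem bk_LSeries_norm (a : ℕ → ℂ) (ha : ∀ n : ℕ, 1 ≤ n → ‖a n‖ ≤ 1 + Real.log n) (k : ℕ) {s : ℂ}
    (hs : 1 < s.re) : ‖LSeries (bk a k) s‖ = ‖iteratedDeriv k (LSeries a) s‖ := by
  rw [LSeries_iteratedDeriv k (abscissa_lt a ha hs), logMul_iter, norm_mul, norm_pow, norm_neg,
    norm_one, one_pow, one_mul]

/-- the growth constant -/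
def Jc : ℝ := ∫ y : ℝ, (1 + |y|) ^ (1 / 2 : ℝ) * (1 + y ^ 2)⁻¹

theorem Jc_int : Integrable fun y : ℝ => (1 + |y|) ^ (1 / 2 : ℝ) * (1 + y ^ 2)⁻¹ := by
  have h := integrable_one_add_norm (E := ℝ) (μ := volume) (r := 3 / 2)
    (by simp; norm_num)
  refine Integrable.mono' (h.const_mul 2) ?_ ?_
  · apply Continuous.aestronglyMeasurable
    refine Continuous.mul ?_ ?_
    · exact Continuous.rpow_const (by fun_prop) (fun y => Or.inl (by positivity))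
    · refine Continuous.inv₀ (by fun_prop) (fun y => by positivity)
  · filter_upwards with y
    rw [Real.norm_of_nonneg (by positivity)]
    have h1 : (1 + |y|) ^ 2 ≤ 2 * (1 + y ^ 2) := by
      have := sq_abs y
      nlinarith [sq_nonneg (1 - |y|)]
    have h2 : (1 + y ^ 2)⁻¹ ≤ 2 * ((1 + |y|) ^ 2)⁻¹ := by
      rw [inv_eq_one_div, div_le_iff₀ (by positivity)]
      have h3 : 0 < (1 + |y|) ^ 2 := by positivity
      rw [mul_assoc, ← div_eq_inv_mul, ← mul_div_assoc, le_div_iff₀ h3]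
      linarith
    calc (1 + |y|) ^ (1 / 2 : ℝ) * (1 + y ^ 2)⁻¹
        ≤ (1 + |y|) ^ (1 / 2 : ℝ) * (2 * ((1 + |y|) ^ 2)⁻¹) := by gcongr
      _ = 2 * (1 + ‖y‖) ^ (-(3 / 2 : ℝ)) := by
          rw [Real.norm_eq_abs, show (-(3 / 2 : ℝ)) = 1 / 2 - 2 by norm_num,
            Real.rpow_sub (by positivity)]
          rw [show ((2 : ℝ)) = ((2 : ℕ) : ℝ) by norm_num, Real.rpow_natCast]
          push_cast
          ring

theorem Jc_nonneg : 0 ≤ Jc := integral_nonneg fun y => by positivity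

/-- the smoothed sums -/
theorem smooth_bound (a : ℕ → ℂ) (ha : ∀ n : ℕ, 1 ≤ n → ‖a n‖ ≤ 1 + Real.log n) (k : ℕ) (K : ℝ)
    (hK : ∀ s : ℂ, 1 < s.re → s.re ≤ 2 →
      ‖iteratedDeriv k (LSeries a) s‖ ≤ K * (1 + |s.im|) ^ (1 / 2 : ℝ))
    (x : ℝ) (hx : 3 ≤ x) :
    ‖∑ n ∈ Finset.Icc 1 ⌊x⌋₊, bk a k n * (x - n)‖ ≤ 3 * Jc * K * x ^ 2 := by
  have hx0 : 0 < x := by linarith
  have hl1 : 1 < Real.log x := by
    rw [Real.lt_log_iff_exp_lt hx0]
    exact lt_of_lt_of_le Real.exp_one_lt_three hx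
  set c : ℝ := 1 + 1 / Real.log x with hc
  have hc1 : 1 < c := by
    have : 0 < 1 / Real.log x := by positivity
    linarith
  have hc2 : c ≤ 2 := by
    have : 1 / Real.log x ≤ 1 := by rw [div_le_one (by linarith)]; exact hl1.le
    linarith
  have h := perron_norm (bk a k) c hc1.le (bk_summable a ha k (by simpa using hc1)) hx0
    (fun y => K * (1 + |y|) ^ (1 / 2 : ℝ)) ?_ ?_
  · have h1 : ∑ n ∈ Finset.Icc 1 ⌊x⌋₊, bk a k n * ((x : ℂ) - n) =
        x * ∑ n ∈ Finset.Icc 1 ⌊x⌋₊, bk a k n * (1 - n / x) := by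
      rw [Finset.mul_sum]
      apply Finset.sum_congr rfl
      intro n _
      have : (x : ℂ) ≠ 0 := by exact_mod_cast hx0.ne'
      field_simp
    rw [h1, norm_mul, Complex.norm_real, Real.norm_of_nonneg hx0.le]
    have h2 : ∫ y : ℝ, K * (1 + |y|) ^ (1 / 2 : ℝ) * (1 + y ^ 2)⁻¹ = K * Jc := by
      unfold Jc
      rw [← integral_const_mul]
      congr 1
      ext y
      ring
    rw [h2] at h
    have h3 : x ^ c = x * Real.exp 1 := by
      rw [hc, Real.rpow_add hx0, Real.rpow_one, Real.rpow_def_of_pos hx0]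
      congr 2
      field_simp
    have hK0 : 0 ≤ K := by
      have := (norm_nonneg _).trans (hK 2 (by norm_num) (by norm_num))
      simp at this
      linarith
    calc x * ‖∑ n ∈ Finset.Icc 1 ⌊x⌋₊, bk a k n * (1 - n / x)‖ ≤ x * (x ^ c * (K * Jc)) := by
          gcongr
      _ = Real.exp 1 * (Jc * K * x ^ 2) := by rw [h3]; ring
      _ ≤ 3 * (Jc * K * x ^ 2) := by
          apply mul_le_mul_of_nonneg_right Real.exp_one_lt_three.le
          have := Jc_nonneg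
          positivity
      _ = _ := by ring
  · intro y
    rw [bk_LSeries_norm a ha k (by simp; linarith)]
    have := hK ((c : ℂ) + y * I) (by simp; linarith) (by simp; linarith)
    simpa using this
  · have := Jc_int.const_mul K
    simpa only [mul_assoc] using this

end

end Crest.Agent.SW
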