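import Crest.Agent.SW.SiegelA

/-!
# `Σ Λ(n) χ(n)` from `Σ μ(n) χ(n)` for non-principal characters (helper301)

Hyperbola method: `Λ = μ * log`, and the sums `Σ χ(e) log e` are `≤ 4 q log`.
-/

set_option autoImplicit false

open Filter Finset

namespace Crest.Agent.SW

/-- Siegel–Walfisz for `μ χ`, `χ` non-principal -/
def MuNonpr : Prop := ∀ A B : ℝ, ∃ C : ℝ, ∀ x : ℝ, 2 ≤ x → ∀ q : ℕ, 1 ≤ q →
  (q : ℝ) ≤ (Real.log x) ^ B → ∀ χ : DirichletCharacter ℂ q, χ ≠ 1 →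
    ‖∑ n ∈ Finset.Icc 1 ⌊x⌋₊, ((ArithmeticFunction.moebius n : ℤ) : ℂ) * χ n‖ ≤
      C * x / (Real.log x) ^ A

/-- Siegel–Walfisz for `Λ χ`, `χ` non-principal -/
def LamNonpr : Prop := ∀ A B : ℝ, ∃ C : ℝ, ∀ x : ℝ, 2 ≤ x → ∀ q : ℕ, 1 ≤ q →
  (q : ℝ) ≤ (Real.log x) ^ B → ∀ χ : DirichletCharacter ℂ q, χ ≠ 1 →
    ‖∑ n ∈ Finset.Icc 1 ⌊x⌋₊, (ArithmeticFunction.vonMangoldt n : ℂ) * χ n‖ ≤
      C * x / (Real.log x) ^ A

namespace LamChi

lemma abel_bound {f : ℕ → ℂ} {w : ℕ → ℝ} {B : ℝ} {a : ℕ} (hw : Monotone w)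
    (hB : ∀ c, a ≤ c → ‖∑ e ∈ Ioc a c, f e‖ ≤ B) {b : ℕ} (hab : a ≤ b) :
    ‖∑ e ∈ Ioc a b, (w e : ℂ) * f e - w b * ∑ e ∈ Ioc a b, f e‖ ≤ B * (w b - w a) := by
  induction b, hab using Nat.le_induction with
  | base => simp
  | succ b hab ih =>
    rw [Finset.sum_Ioc_succ_top hab, Finset.sum_Ioc_succ_top hab]
    have h1 : ∑ e ∈ Ioc a b, (w e : ℂ) * f e + (w (b + 1) : ℂ) * f (b + 1) -
        w (b + 1) * (∑ e ∈ Ioc a b, f e + f (b + 1)) =
        (∑ e ∈ Ioc a b, (w e : ℂ) * f e - w b * ∑ e ∈ Ioc a b, f e) -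
          (((w (b + 1) - w b : ℝ)) : ℂ) * ∑ e ∈ Ioc a b, f e := by
      push_cast
      ring
    rw [h1]
    have h2 : 0 ≤ w (b + 1) - w b := sub_nonneg.mpr (hw (Nat.le_succ b))
    refine (norm_sub_le _ _).trans ?_
    rw [norm_mul, Complex.norm_real, Real.norm_of_nonneg h2]
    calc _ ≤ B * (w b - w a) + (w (b + 1) - w b) * B :=
          add_le_add ih (mul_le_mul_of_nonneg_left (hB b hab) h2)
      _ = B * (w (b + 1) - w a) := by ring

lemma monotone_log_nat : Monotone fun n : ℕ => Real.log n := by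
  intro a b hab
  rcases Nat.eq_zero_or_pos a with rfl | ha
  · simp only [Nat.cast_zero, Real.log_zero]
    exact Real.log_natCast_nonneg b
  · exact Real.log_le_log (by exact_mod_cast ha) (by exact_mod_cast hab)

lemma norm_sum_Ioc_chi_le {q : ℕ} [NeZero q] {χ : DirichletCharacter ℂ q} (hχ : χ ≠ 1) {a c : ℕ}
    (hac : a ≤ c) : ‖∑ e ∈ Ioc a c, χ (e : ZMod q)‖ ≤ 2 * q := by
  have h1 : ∑ e ∈ Ioc a c, χ (e : ZMod q) =
      ∑ e ∈ Icc 1 c, χ (e : ZMod q) - ∑ e ∈ Icc 1 a, χ (e : ZMod q) := by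
    rw [eq_sub_iff_add_eq, add_comm]
    have e1 : Icc 1 a = Ioc 0 a := rfl
    have e2 : Icc 1 c = Ioc 0 c := rfl
    rw [e1, e2]
    exact Finset.sum_Ioc_consecutive _ (Nat.zero_le a) hac
  rw [h1]
  refine (norm_sub_le _ _).trans ?_
  have h2 := Siegel.norm_sum_Icc_le hχ c
  have h3 := Siegel.norm_sum_Icc_le hχ a
  linarith

lemma norm_sum_chi_log_le {q : ℕ} [NeZero q] {χ : DirichletCharacter ℂ q} (hχ : χ ≠ 1)
    (a b : ℕ) :
    ‖∑ e ∈ Ioc a b, (Real.log e : ℂ) * χ (e : ZMod q)‖ ≤ 4 * q * Real.log b := by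
  have hlb : 0 ≤ Real.log b := Real.log_natCast_nonneg b
  have hla : 0 ≤ Real.log a := Real.log_natCast_nonneg a
  rcases lt_or_ge b a with hab | hab
  · rw [Finset.Ioc_eq_empty (by omega), Finset.sum_empty, norm_zero]
    positivity
  have h1 := abel_bound (f := fun e : ℕ => χ (e : ZMod q)) (B := 2 * q) monotone_log_nat
    (fun c hc => norm_sum_Ioc_chi_le hχ hc) hab
  have h2 := norm_sum_Ioc_chi_le hχ hab
  have h3 : ‖(Real.log b : ℂ) * ∑ e ∈ Ioc a b, χ (e : ZMod q)‖ ≤ Real.log b * (2 * q) := by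
    rw [norm_mul, Complex.norm_real, Real.norm_of_nonneg hlb]
    exact mul_le_mul_of_nonneg_left h2 hlb
  have h4 := norm_le_norm_sub_add (∑ e ∈ Ioc a b, (Real.log e : ℂ) * χ (e : ZMod q))
    ((Real.log b : ℂ) * ∑ e ∈ Ioc a b, χ (e : ZMod q))
  have h5 : (2 * (q : ℝ)) * (Real.log b - Real.log a) ≤ 2 * q * Real.log b := by
    have : (0 : ℝ) ≤ q := Nat.cast_nonneg q
    nlinarith
  linarith

/-- the hyperbola identity -/
lemma hyper (F G : ℕ → ℂ) {N Y : ℕ} (hY : Y ≤ N) :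
    ∑ x ∈ (Ioc 0 N ×ˢ Ioc 0 N) with x.1 * x.2 ≤ N, F x.1 * G x.2 =
      ∑ e ∈ Ioc 0 Y, G e * ∑ d ∈ Ioc 0 (N / e), F d +
        ∑ d ∈ Ioc 0 (N / (Y + 1)), F d * ∑ e ∈ Ioc Y (N / d), G e := by
  rw [← Finset.sum_filter_add_sum_filter_not _ (fun x : ℕ × ℕ => x.2 ≤ Y)]
  congr 1
  · simp_rw [Finset.mul_sum]
    rw [Finset.sum_sigma']
    refine Finset.sum_nbij' (fun x : ℕ × ℕ => (⟨x.2, x.1⟩ : (_ : ℕ) × ℕ))
      (fun x : (_ : ℕ) × ℕ => (x.2, x.1)) ?_ ?_ ?_ ?_ ?_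
    · rintro ⟨d, e⟩ h
      simp only [mem_filter, mem_product, mem_Ioc, mem_sigma] at h ⊢
      obtain ⟨⟨⟨⟨h1, h2⟩, h3, h4⟩, h5⟩, h6⟩ := h
      exact ⟨⟨h3, h6⟩, h1, (Nat.le_div_iff_mul_le h3).mpr h5⟩
    · rintro ⟨e, d⟩ h
      simp only [mem_filter, mem_product, mem_Ioc, mem_sigma] at h ⊢
      obtain ⟨⟨h1, h2⟩, h3, h4⟩ := h
      have h5 := (Nat.le_div_iff_mul_le h1).mp h4
      refine ⟨⟨⟨⟨h3, ?_⟩, h1, h2.trans hY⟩, h5⟩, h2⟩
      exact h4.trans (Nat.div_le_self _ _)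
    · rintro ⟨d, e⟩ _; rfl
    · rintro ⟨e, d⟩ _; rfl
    · rintro ⟨d, e⟩ _; exact mul_comm _ _
  · simp_rw [Finset.mul_sum]
    rw [Finset.sum_sigma']
    refine Finset.sum_nbij' (fun x : ℕ × ℕ => (⟨x.1, x.2⟩ : (_ : ℕ) × ℕ))
      (fun x : (_ : ℕ) × ℕ => (x.1, x.2)) ?_ ?_ ?_ ?_ ?_
    · rintro ⟨d, e⟩ h
      simp only [mem_filter, mem_product, mem_Ioc, mem_sigma, not_le] at h ⊢
      obtain ⟨⟨⟨⟨h1, h2⟩, h3, h4⟩, h5⟩, h6⟩ := h
      refine ⟨⟨h1, ?_⟩, h6, ?_⟩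
      · rw [Nat.le_div_iff_mul_le (Nat.succ_pos Y)]
        exact (Nat.mul_le_mul_left d h6).trans h5
      · rw [Nat.le_div_iff_mul_le h1, mul_comm]
        exact h5
    · rintro ⟨d, e⟩ h
      simp only [mem_filter, mem_product, mem_Ioc, mem_sigma, not_le] at h ⊢
      obtain ⟨⟨h1, h2⟩, h3, h4⟩ := h
      have h5 : e * d ≤ N := (Nat.le_div_iff_mul_le h1).mp h4
      rw [mul_comm] at h5
      refine ⟨⟨⟨⟨h1, h2.trans (Nat.div_le_self _ _)⟩, by omega,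
        h4.trans (Nat.div_le_self _ _)⟩, h5⟩, h3⟩
    · rintro ⟨d, e⟩ _; rfl
    · rintro ⟨e, d⟩ _; rfl
    · rintro ⟨d, e⟩ _; rfl

/-- `Λ χ = (μ χ) * (χ log)` summed -/
lemma sum_Lambda_chi {q : ℕ} (χ : DirichletCharacter ℂ q) (N : ℕ) :
    ∑ n ∈ Icc 1 N, (ArithmeticFunction.vonMangoldt n : ℂ) * χ (n : ZMod q) =
      ∑ x ∈ (Ioc 0 N ×ˢ Ioc 0 N) with x.1 * x.2 ≤ N,
        (((ArithmeticFunction.moebius x.1 : ℤ) : ℂ) * χ (x.1 : ZMod q)) *
          ((Real.log x.2 : ℂ) * χ (x.2 : ZMod q)) := by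
  have e1 : Icc 1 N = Ioc 0 N := rfl
  rw [e1]
  have h1 : ∀ n ∈ Ioc 0 N, (ArithmeticFunction.vonMangoldt n : ℂ) * χ (n : ZMod q) =
      ∑ x ∈ (Ioc 0 N ×ˢ Ioc 0 N) with x.1 * x.2 = n,
        (((ArithmeticFunction.moebius x.1 : ℤ) : ℂ) * χ (x.1 : ZMod q)) *
          ((Real.log x.2 : ℂ) * χ (x.2 : ZMod q)) := by
    intro n hn
    rw [mem_Ioc] at hn
    rw [← Nat.divisorsAntidiagonal_eq_prod_filter_of_le hn.1.ne' hn.2]
    have h2 : (ArithmeticFunction.vonMangoldt n : ℝ) = ∑ x ∈ n.divisorsAntidiagonal,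
        ((ArithmeticFunction.moebius x.1 : ℤ) : ℝ) * Real.log x.2 := by
      rw [← ArithmeticFunction.moebius_mul_log_eq_vonMangoldt, ArithmeticFunction.mul_apply]
      rfl
    rw [h2]
    push_cast
    rw [Finset.sum_mul]
    refine Finset.sum_congr rfl fun x hx => ?_
    have h3 := (Nat.mem_divisorsAntidiagonal.mp hx).1
    rw [← h3]
    push_cast
    rw [map_mul]
    ring
  rw [Finset.sum_congr rfl h1]
  simp_rw [Finset.sum_filter]
  rw [Finset.sum_comm]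
  refine Finset.sum_congr rfl fun x hx => ?_
  rw [mem_product, mem_Ioc, mem_Ioc] at hx
  rw [Finset.sum_ite_eq]
  refine if_congr ?_ rfl rfl
  rw [mem_Ioc]
  constructor
  · exact fun h => h.2
  · exact fun h => ⟨Nat.mul_pos hx.1.1 hx.2.1, h⟩

lemma trivial_bound {q : ℕ} (χ : DirichletCharacter ℂ q) {x : ℝ} (hx : 2 ≤ x) :
    ‖∑ n ∈ Icc 1 ⌊x⌋₊, (ArithmeticFunction.vonMangoldt n : ℂ) * χ (n : ZMod q)‖ ≤
      x * Real.log x := by
  have hlog : 0 ≤ Real.log x := Real.log_nonneg (by linarith)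
  refine (norm_sum_le _ _).trans ?_
  have h1 : ∀ n ∈ Icc 1 ⌊x⌋₊,
      ‖(ArithmeticFunction.vonMangoldt n : ℂ) * χ (n : ZMod q)‖ ≤ Real.log x := by
    intro n hn
    rw [mem_Icc] at hn
    rw [norm_mul, Complex.norm_real, Real.norm_of_nonneg ArithmeticFunction.vonMangoldt_nonneg]
    have h2 : (n : ℝ) ≤ x := (Nat.le_floor_iff (by linarith)).mp hn.2
    have h3 : Real.log n ≤ Real.log x := Real.log_le_log (by exact_mod_cast hn.1) h2
    calc ArithmeticFunction.vonMangoldt n * ‖χ (n : ZMod q)‖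
        ≤ Real.log n * 1 := mul_le_mul ArithmeticFunction.vonMangoldt_le_log (χ.norm_le_one _)
          (norm_nonneg _) (Real.log_natCast_nonneg n)
      _ ≤ Real.log x := by rw [mul_one]; exact h3
  refine (Finset.sum_le_sum h1).trans ?_
  rw [Finset.sum_const, Nat.card_Icc, nsmul_eq_mul, Nat.add_sub_cancel]
  exact mul_le_mul_of_nonneg_right (Nat.floor_le (by linarith)) hlog

lemma sum_inv_le {x : ℝ} (hx : 1 ≤ x) {Y : ℕ} (hY : (Y : ℝ) ≤ x) :
    ∑ e ∈ Ioc 0 Y, (e : ℝ)⁻¹ ≤ 1 + Real.log x := by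
  have h1 : ∑ e ∈ Ioc 0 Y, (e : ℝ)⁻¹ = (harmonic Y : ℝ) := by
    rw [harmonic_eq_sum_Icc]
    push_cast
    rfl
  rw [h1]
  refine (harmonic_le_one_add_log Y).trans ?_
  rcases Nat.eq_zero_or_pos Y with rfl | h
  · simp only [Nat.cast_zero, Real.log_zero, add_zero]
    linarith [Real.log_nonneg hx]
  · have := Real.log_le_log (by exact_mod_cast h) hY
    linarith

/-- the conditions for large `x` -/
lemma exists_large (A B : ℝ) : ∃ x₀ : ℝ, 2 ≤ x₀ ∧ ∀ x, x₀ ≤ x →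
    2 * 2 ^ B + 2 ≤ Real.log x ∧ (Real.log x) ^ (A + B + 1) ≤ x ^ (1 / 2 : ℝ) := by
  have h1 : ∀ᶠ x in atTop, 2 * (2 : ℝ) ^ B + 2 ≤ Real.log x :=
    Real.tendsto_log_atTop.eventually_ge_atTop _
  have h2 : ∀ᶠ x : ℝ in atTop, (Real.log x) ^ (A + B + 1) ≤ x ^ (1 / 2 : ℝ) := by
    have h3 := (isLittleO_log_rpow_rpow_atTop (A + B + 1) (by norm_num : (0 : ℝ) < 1 / 2)).def
      one_pos
    filter_upwards [h3, eventually_ge_atTop (1 : ℝ)] with x hx hx1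
    rw [one_mul, Real.norm_of_nonneg (Real.rpow_nonneg (Real.log_nonneg hx1) _),
      Real.norm_of_nonneg (by positivity)] at hx
    exact hx
  obtain ⟨x₀, hx₀⟩ := (h1.and h2).exists_forall_of_atTop
  exact ⟨max x₀ 2, le_max_right _ _, fun x hx => hx₀ x ((le_max_left _ _).trans hx)⟩

lemma large (hmu : MuNonpr) {A B : ℝ} (hA : 0 ≤ A) (hB : 0 ≤ B) : ∃ C x₀ : ℝ, 0 ≤ C ∧ 2 ≤ x₀ ∧
    (∀ x, x₀ ≤ x → 1 ≤ Real.log x) ∧
    ∀ x : ℝ, x₀ ≤ x → ∀ q : ℕ, 1 ≤ q →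
    (q : ℝ) ≤ (Real.log x) ^ B → ∀ χ : DirichletCharacter ℂ q, χ ≠ 1 →
    ‖∑ n ∈ Finset.Icc 1 ⌊x⌋₊, (ArithmeticFunction.vonMangoldt n : ℂ) * χ n‖ ≤
      C * x / (Real.log x) ^ A := by
  obtain ⟨C₁, hC₁⟩ := hmu (A + 2) (B + 1)
  obtain ⟨x₀, hx₀, hlarge⟩ := exists_large A B
  obtain ⟨C', hC'⟩ : ∃ C', C' = max C₁ 0 := ⟨_, rfl⟩
  have hC'0 : 0 ≤ C' := by rw [hC']; exact le_max_right _ _
  have hC'1 : C₁ ≤ C' := by rw [hC']; exact le_max_left _ _
  have h2B : (0 : ℝ) < 2 ^ B := by positivity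
  refine ⟨C' * 2 ^ (A + 2) * 2 + 4, x₀, by positivity, hx₀, ?_, ?_⟩
  · intro x hx
    have := (hlarge x hx).1
    linarith
  intro x hx q hq hqB χ hχ
  have : NeZero q := ⟨by omega⟩
  obtain ⟨hl1, hl2⟩ := hlarge x hx
  have hx2 : 2 ≤ x := hx₀.trans hx
  have hx0 : 0 < x := by linarith
  obtain ⟨L, hL⟩ : ∃ L, L = Real.log x := ⟨_, rfl⟩
  rw [← hL] at hl1 hl2 hqB ⊢
  have hL1 : 1 ≤ L := by linarith
  have hL0 : 0 < L := by linarith
  obtain ⟨N, hN⟩ : ∃ N, N = ⌊x⌋₊ := ⟨_, rfl⟩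
  have hNx : (N : ℝ) ≤ x := by rw [hN]; exact Nat.floor_le hx0.le
  have hq0 : (0 : ℝ) < q := by exact_mod_cast hq
  obtain ⟨Y, hY⟩ : ∃ Y, Y = ⌊q * L ^ (A + 1)⌋₊ := ⟨_, rfl⟩
  have hY1 : (Y : ℝ) ≤ q * L ^ (A + 1) := by rw [hY]; exact Nat.floor_le (by positivity)
  have hY2 : q * L ^ (A + 1) < Y + 1 := by rw [hY]; exact Nat.lt_floor_add_one _
  have hYs : (Y : ℝ) ≤ x ^ (1 / 2 : ℝ) := by
    refine hY1.trans ?_
    calc (q : ℝ) * L ^ (A + 1) ≤ L ^ B * L ^ (A + 1) := by gcongr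
      _ = L ^ (A + B + 1) := by rw [← Real.rpow_add hL0]; congr 1; ring
      _ ≤ x ^ (1 / 2 : ℝ) := hl2
  have hsx : x ^ (1 / 2 : ℝ) ≤ x := by
    calc x ^ (1 / 2 : ℝ) ≤ x ^ (1 : ℝ) :=
          Real.rpow_le_rpow_of_exponent_le (by linarith) (by norm_num)
      _ = x := Real.rpow_one x
  have hYN : Y ≤ N := by rw [hN]; exact Nat.le_floor (hYs.trans hsx)
  have hYx : (Y : ℝ) ≤ x := hYs.trans hsx
  rw [← hN, sum_Lambda_chi,
    hyper (fun d => ((ArithmeticFunction.moebius d : ℤ) : ℂ) * χ (d : ZMod q))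
    (fun e => (Real.log e : ℂ) * χ (e : ZMod q)) hYN]
  refine (norm_add_le _ _).trans ?_
  -- the first sum
  have hS1 : ‖∑ e ∈ Ioc 0 Y, (Real.log e : ℂ) * χ (e : ZMod q) *
      ∑ d ∈ Ioc 0 (N / e), ((ArithmeticFunction.moebius d : ℤ) : ℂ) * χ (d : ZMod q)‖ ≤
      C' * 2 ^ (A + 2) * 2 * x / L ^ A := by
    have hterm : ∀ e ∈ Ioc 0 Y, ‖(Real.log e : ℂ) * χ (e : ZMod q) *
        ∑ d ∈ Ioc 0 (N / e), ((ArithmeticFunction.moebius d : ℤ) : ℂ) * χ (d : ZMod q)‖ ≤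
        (L * (C' * x * (2 ^ (A + 2) / L ^ (A + 2)))) * (e : ℝ)⁻¹ := by
      intro e he
      rw [mem_Ioc] at he
      have he1 : (1 : ℝ) ≤ e := by exact_mod_cast he.1
      have he2 : (e : ℝ) ≤ Y := by exact_mod_cast he.2
      have hxe : x ^ (1 / 2 : ℝ) ≤ x / e := by
        rw [le_div_iff₀ (by linarith)]
        calc x ^ (1 / 2 : ℝ) * e ≤ x ^ (1 / 2 : ℝ) * x ^ (1 / 2 : ℝ) := by
              gcongr
              exact he2.trans hYs
          _ = x := by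
              rw [← Real.rpow_add hx0]
              norm_num
      have hlxe : L / 2 ≤ Real.log (x / e) := by
        have h1 : Real.log (x ^ (1 / 2 : ℝ)) ≤ Real.log (x / e) :=
          Real.log_le_log (by positivity) hxe
        rw [Real.log_rpow hx0, ← hL] at h1
        linarith
      have hl0 : 0 < Real.log (x / e) := by linarith
      have h2xe : 2 ≤ x / e := by
        -- since `log (x / e) ≥ 1`
        have h1 : 1 ≤ Real.log (x / e) := by linarith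
        have h2 : 0 < x / e := by positivity
        have h3 := Real.add_one_le_exp 1
        have h4 : Real.exp 1 ≤ x / e := (Real.le_log_iff_exp_le h2).mp h1
        linarith
      have hqle : (q : ℝ) ≤ Real.log (x / e) ^ (B + 1) := by
        calc (q : ℝ) ≤ L ^ B := hqB
          _ ≤ (2 * Real.log (x / e)) ^ B := by gcongr; linarith
          _ = 2 ^ B * Real.log (x / e) ^ B := Real.mul_rpow (by norm_num) hl0.le
          _ ≤ Real.log (x / e) * Real.log (x / e) ^ B := by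
              gcongr
              linarith
          _ = Real.log (x / e) ^ (B + 1) := by
              rw [Real.rpow_add hl0, Real.rpow_one, mul_comm]
      have hbd := hC₁ (x / e) h2xe q hq hqle χ hχ
      rw [Nat.floor_div_natCast, ← hN] at hbd
      have e1 : Ioc 0 (N / e) = Icc 1 (N / e) := rfl
      rw [e1, norm_mul, norm_mul, Complex.norm_real,
        Real.norm_of_nonneg (Real.log_natCast_nonneg e)]
      have hle : Real.log e ≤ L := by
        rw [hL]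
        exact Real.log_le_log (by linarith) (he2.trans hYx)
      have h5 : C₁ * (x / e) / Real.log (x / e) ^ (A + 2) ≤
          (C' * x * (2 ^ (A + 2) / L ^ (A + 2))) * (e : ℝ)⁻¹ := by
        calc C₁ * (x / e) / Real.log (x / e) ^ (A + 2)
            ≤ C' * (x / e) / Real.log (x / e) ^ (A + 2) := by gcongr
          _ ≤ C' * (x / e) / (L / 2) ^ (A + 2) := by gcongr
          _ = (C' * x * (2 ^ (A + 2) / L ^ (A + 2))) * (e : ℝ)⁻¹ := by
              rw [Real.div_rpow hL0.le (by norm_num)]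
              field_simp
      calc Real.log e * ‖χ (e : ZMod q)‖ * ‖∑ d ∈ Icc 1 (N / e),
            ((ArithmeticFunction.moebius d : ℤ) : ℂ) * χ (d : ZMod q)‖
          ≤ L * 1 * ((C' * x * (2 ^ (A + 2) / L ^ (A + 2))) * (e : ℝ)⁻¹) := by
            refine mul_le_mul ?_ (hbd.trans h5) (norm_nonneg _) (by linarith)
            exact mul_le_mul hle (χ.norm_le_one _) (norm_nonneg _) hL0.le
        _ = _ := by ring
    refine (norm_sum_le _ _).trans ((Finset.sum_le_sum hterm).trans ?_)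
    rw [← Finset.mul_sum]
    have h6 := sum_inv_le (by linarith : (1 : ℝ) ≤ x) hYx
    rw [← hL] at h6
    calc (L * (C' * x * (2 ^ (A + 2) / L ^ (A + 2)))) * ∑ e ∈ Ioc 0 Y, (e : ℝ)⁻¹
        ≤ (L * (C' * x * (2 ^ (A + 2) / L ^ (A + 2)))) * (2 * L) := by
          gcongr
          linarith
      _ = C' * 2 ^ (A + 2) * 2 * x / L ^ A := by
          have h8 : L ^ (2 : ℝ) = L * L := by
            rw [show (2 : ℝ) = ((2 : ℕ) : ℝ) by norm_num, Real.rpow_natCast]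
            ring
          have h7 : L ^ (A + 2) = L ^ A * (L * L) := by
            rw [Real.rpow_add hL0, h8]
          rw [h7]
          field_simp
  have hS2 : ‖∑ d ∈ Ioc 0 (N / (Y + 1)), (((ArithmeticFunction.moebius d : ℤ) : ℂ) *
      χ (d : ZMod q)) * ∑ e ∈ Ioc Y (N / d), (Real.log e : ℂ) * χ (e : ZMod q)‖ ≤
      4 * x / L ^ A := by
    have hterm : ∀ d ∈ Ioc 0 (N / (Y + 1)), ‖(((ArithmeticFunction.moebius d : ℤ) : ℂ) *
        χ (d : ZMod q)) * ∑ e ∈ Ioc Y (N / d), (Real.log e : ℂ) * χ (e : ZMod q)‖ ≤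
        4 * q * L := by
      intro d _
      rw [norm_mul, norm_mul]
      have h1 : ‖((ArithmeticFunction.moebius d : ℤ) : ℂ)‖ ≤ 1 := by
        rw [Complex.norm_intCast]
        exact_mod_cast ArithmeticFunction.abs_moebius_le_one
      have h2 := norm_sum_chi_log_le hχ Y (N / d)
      have h3 : Real.log ((N / d : ℕ) : ℝ) ≤ L := by
        refine (monotone_log_nat (Nat.div_le_self N d)).trans ?_
        rcases Nat.eq_zero_or_pos N with h | h
        · rw [h]; simp only [Nat.cast_zero, Real.log_zero]; exact hL0.le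
        · rw [hL]
          exact Real.log_le_log (by exact_mod_cast h) hNx
      calc ‖((ArithmeticFunction.moebius d : ℤ) : ℂ)‖ * ‖χ (d : ZMod q)‖ *
            ‖∑ e ∈ Ioc Y (N / d), (Real.log e : ℂ) * χ (e : ZMod q)‖
          ≤ 1 * 1 * (4 * q * L) := by
            refine mul_le_mul ?_ (h2.trans ?_) (norm_nonneg _) (by norm_num)
            · exact mul_le_mul h1 (χ.norm_le_one _) (norm_nonneg _) (by norm_num)
            · gcongr
        _ = 4 * q * L := by ring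
    refine (norm_sum_le _ _).trans ((Finset.sum_le_sum hterm).trans ?_)
    rw [Finset.sum_const, Nat.card_Ioc, nsmul_eq_mul, Nat.sub_zero]
    have h4 : ((N / (Y + 1) : ℕ) : ℝ) ≤ x / (q * L ^ (A + 1)) := by
      refine (Nat.cast_div_le).trans ?_
      push_cast
      gcongr
    calc ((N / (Y + 1) : ℕ) : ℝ) * (4 * q * L) ≤ x / (q * L ^ (A + 1)) * (4 * q * L) := by gcongr
      _ = 4 * x / L ^ A := by
          rw [Real.rpow_add hL0, Real.rpow_one]
          field_simp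
  calc _ ≤ C' * 2 ^ (A + 2) * 2 * x / L ^ A + 4 * x / L ^ A := add_le_add hS1 hS2
    _ = (C' * 2 ^ (A + 2) * 2 + 4) * x / L ^ A := by ring

end LamChi

/-- **`Λ χ` from `μ χ`** -/
theorem lam_nonpr (hmu : MuNonpr) : LamNonpr := by
  intro A B
  obtain ⟨C, x₀, hC, hx₀, hlog, hmain⟩ := LamChi.large hmu (le_max_right A 0) (le_max_right B 0)
  obtain ⟨D, hD⟩ : ∃ D, D = (Real.log 2) ^ A + (Real.log x₀) ^ A := ⟨_, rfl⟩
  have hl2 : 0 < Real.log 2 := Real.log_pos (by norm_num)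
  have hlx₀ : 0 < Real.log x₀ := Real.log_pos (by linarith)
  have hD0 : 0 ≤ D := by rw [hD]; positivity
  refine ⟨C + Real.log x₀ * D, ?_⟩
  intro x hx q hq hqB χ hχ
  have hx0 : 0 < x := by linarith
  have hlx : 0 < Real.log x := Real.log_pos (by linarith)
  have hpow : 0 < Real.log x ^ A := Real.rpow_pos_of_pos hlx A
  rcases le_total x₀ x with h | h
  · have h1 := hlog x h
    have h2 : (q : ℝ) ≤ (Real.log x) ^ (max B 0) :=
      hqB.trans (Real.rpow_le_rpow_of_exponent_le h1 (le_max_left _ _))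
    refine (hmain x h q hq h2 χ hχ).trans ?_
    have h3 : (Real.log x) ^ A ≤ (Real.log x) ^ (max A 0) :=
      Real.rpow_le_rpow_of_exponent_le h1 (le_max_left _ _)
    calc C * x / (Real.log x) ^ (max A 0) ≤ C * x / (Real.log x) ^ A := by gcongr
      _ ≤ (C + Real.log x₀ * D) * x / (Real.log x) ^ A := by
          gcongr
          nlinarith [mul_nonneg hlx₀.le hD0]
  · refine (LamChi.trivial_bound χ hx).trans ?_
    rw [le_div_iff₀ hpow]
    have h1 : Real.log x ≤ Real.log x₀ := Real.log_le_log hx0 h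
    have h2 : Real.log x ^ A ≤ D := by
      rw [hD]
      rcases le_total 0 A with hA | hA
      · have h3 : Real.log x ^ A ≤ Real.log x₀ ^ A := Real.rpow_le_rpow hlx.le h1 hA
        have h4 : 0 ≤ Real.log 2 ^ A := by positivity
        linarith
      · have h3 : Real.log x ^ A ≤ Real.log 2 ^ A :=
          Real.rpow_le_rpow_of_nonpos hl2 (Real.log_le_log (by norm_num) hx) hA
        have h4 : 0 ≤ Real.log x₀ ^ A := by positivity
        linarith
    calc x * Real.log x * Real.log x ^ A ≤ x * Real.log x₀ * D := by gcongr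
      _ ≤ (C + Real.log x₀ * D) * x := by nlinarith

end Crest.Agent.SW
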