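import Crest.Agent.SW.SiegelC

/-!
# Siegel's theorem (helper301)

`L(1,χ) ≥ c(ε) q^{-ε}` for all real non-principal characters `χ` mod `q`.
-/

set_option autoImplicit false

open Complex Filter Set Metric
open scoped Topology Nat ComplexOrder

namespace Crest.Agent.SW.Siegel

section single

variable {N : ℕ} [NeZero N]

/-- `L(2,χ) > 0` -/
lemma LFunction_two_pos {χ : DirichletCharacter ℂ N} (hχ : χ ≠ 1) (hχ2 : χ ^ 2 = 1) :
    0 < (DirichletCharacter.LFunction χ 2).re := by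
  have hs2 : (1 : ℝ) < (((2 : ℝ) : ℂ)).re := by norm_num
  have hsum : LSeriesSummable (fun n => χ.zetaMul n) ((3 / 2 : ℝ) : ℂ) :=
    χ.LSeriesSummable_zetaMul (by norm_num)
  have habs : LSeries.abscissaOfAbsConv (fun n => χ.zetaMul n) < ((2 : ℝ) : EReal) := by
    have h : LSeries.abscissaOfAbsConv (fun n => χ.zetaMul n) ≤ ((3 / 2 : ℝ) : EReal) := by
      have := hsum.abscissaOfAbsConv_le
      simpa using this
    refine lt_of_le_of_lt h ?_
    exact_mod_cast (by norm_num : (3 / 2 : ℝ) < 2)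
  have h1 : 0 < LSeries (fun n => χ.zetaMul n) ((2 : ℝ) : ℂ) := by
    refine LSeries.positive (fun n => DirichletCharacter.zetaMul_nonneg hχ2 n) ?_ habs
    have : χ.zetaMul 1 = 1 := χ.isMultiplicative_zetaMul.map_one
    show (0 : ℂ) < χ.zetaMul 1
    rw [this]
    exact zero_lt_one
  rw [LSeries_zetaMul χ hs2, ← DirichletCharacter.LFunction_eq_LSeries χ hs2] at h1
  have h2 : ((2 : ℝ) : ℂ) = 2 := by norm_num
  rw [h2, riemannZeta_two] at h1
  have h3 : (Real.pi : ℂ) ^ 2 / 6 = ((Real.pi ^ 2 / 6 : ℝ) : ℂ) := by push_cast; ring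
  rw [h3] at h1
  have h4 := (Complex.lt_def.mp h1).1
  rw [Complex.zero_re, Complex.re_ofReal_mul] at h4
  have h5 : (0 : ℝ) < Real.pi ^ 2 / 6 := by positivity
  exact pos_of_mul_pos_right h4 h5.le

/-- positivity to the right of all real zeros -/
lemma LFunction_pos_of {χ : DirichletCharacter ℂ N} (hχ : χ ≠ 1) (hχ2 : χ ^ 2 = 1) {x : ℝ}
    (hx : 0 < x) (hx2 : x ≤ 2)
    (hne : ∀ y : ℝ, x ≤ y → y < 1 → DirichletCharacter.LFunction χ y ≠ 0) :
    0 < (DirichletCharacter.LFunction χ x).re := by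
  by_contra hcon
  push Not at hcon
  have hcont : ContinuousOn (fun y : ℝ => (DirichletCharacter.LFunction χ y).re) (Icc x 2) := by
    refine Continuous.continuousOn ?_
    exact Complex.continuous_re.comp
      ((DirichletCharacter.differentiable_LFunction hχ).continuous.comp Complex.continuous_ofReal)
  have h2 : 0 < (DirichletCharacter.LFunction χ ((2 : ℝ) : ℂ)).re := by
    have := LFunction_two_pos hχ hχ2
    simpa using this
  have hmem : (0 : ℝ) ∈ Icc ((DirichletCharacter.LFunction χ x).re)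
      ((DirichletCharacter.LFunction χ ((2 : ℝ) : ℂ)).re) := ⟨hcon, h2.le⟩
  obtain ⟨y, ⟨hy1, hy2⟩, hy⟩ := intermediate_value_Icc hx2 hcont hmem
  have hy0 : DirichletCharacter.LFunction χ y = 0 :=
    Complex.ext (by simpa using hy) (by simpa using LFunction_im hχ hχ2 (lt_of_lt_of_le hx hy1))
  rcases lt_or_ge y 1 with h | h
  · exact hne y hy1 h hy0
  · exact DirichletCharacter.LFunction_ne_zero_of_one_le_re χ (s := y) (.inl hχ) (by simpa using h)
      hy0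

theorem LFunction_one_pos {χ : DirichletCharacter ℂ N} (hχ : χ ≠ 1) (hχ2 : χ ^ 2 = 1) :
    0 < (DirichletCharacter.LFunction χ 1).re := by
  have := LFunction_pos_of hχ hχ2 zero_lt_one (by norm_num) (fun y h1 h2 => absurd h1 (by linarith))
  simpa using this

theorem LFunction_one_im {χ : DirichletCharacter ℂ N} (hχ : χ ≠ 1) (hχ2 : χ ^ 2 = 1) :
    (DirichletCharacter.LFunction χ 1).im = 0 := by
  have := LFunction_im hχ hχ2 zero_lt_one
  simpa using this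

end single

/-! ### change of level -/

lemma exists_two_pow_omega_le (η : ℝ) (hη : 0 < η) :
    ∃ C : ℝ, 1 ≤ C ∧ ∀ N : ℕ, N ≠ 0 → (2 : ℝ) ^ N.primeFactors.card ≤ C * (N : ℝ) ^ η := by
  obtain ⟨T, hT⟩ : ∃ T : ℕ, (2 : ℝ) ^ (1 / η) ≤ T := exists_nat_ge _
  refine ⟨2 ^ T, one_le_pow₀ (by norm_num), ?_⟩
  intro N hN
  have h1 : (2 : ℝ) ^ N.primeFactors.card = ∏ p ∈ N.primeFactors, (2 : ℝ) := by
    rw [Finset.prod_const]
  have h2 : ∏ p ∈ N.primeFactors, (2 : ℝ) ≤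
      ∏ p ∈ N.primeFactors, ((if p < T then 2 else 1) * (p : ℝ) ^ η) := by
    refine Finset.prod_le_prod (fun p _ => by norm_num) fun p hp => ?_
    have hp1 : (1 : ℝ) ≤ p := by
      exact_mod_cast (Nat.prime_of_mem_primeFactors hp).one_lt.le
    have hp2 : 1 ≤ (p : ℝ) ^ η := Real.one_le_rpow hp1 hη.le
    split_ifs with h
    · linarith
    · push Not at h
      rw [one_mul]
      have h3 : (2 : ℝ) ^ (1 / η) ≤ p := hT.trans (by exact_mod_cast h)
      calc (2 : ℝ) = ((2 : ℝ) ^ (1 / η)) ^ η := by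
            rw [← Real.rpow_mul (by norm_num)]
            field_simp
            rw [Real.rpow_one]
        _ ≤ (p : ℝ) ^ η := Real.rpow_le_rpow (by positivity) h3 hη.le
  rw [Finset.prod_mul_distrib] at h2
  have h3 : ∏ p ∈ N.primeFactors, (if p < T then (2 : ℝ) else 1) ≤ 2 ^ T := by
    rw [Finset.prod_ite, Finset.prod_const_one, mul_one, Finset.prod_const]
    refine pow_le_pow_right₀ (by norm_num) ?_
    calc (N.primeFactors.filter (· < T)).card ≤ (Finset.range T).card := by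
          refine Finset.card_le_card fun p hp => ?_
          exact Finset.mem_range.mpr (Finset.mem_filter.mp hp).2
      _ = T := Finset.card_range T
  have h4 : ∏ p ∈ N.primeFactors, (p : ℝ) ^ η ≤ (N : ℝ) ^ η := by
    rw [Real.finsetProd_rpow _ _ (fun p _ => Nat.cast_nonneg p)]
    refine Real.rpow_le_rpow (Finset.prod_nonneg fun p _ => Nat.cast_nonneg p) ?_ hη.le
    have := Nat.le_of_dvd (Nat.pos_of_ne_zero hN) (Nat.prod_primeFactors_dvd N)
    rw [← Nat.cast_prod]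
    exact_mod_cast this
  rw [h1]
  refine h2.trans ?_
  refine mul_le_mul h3 h4 ?_ (by positivity)
  exact Finset.prod_nonneg fun p _ => by positivity

section level

variable {q N : ℕ} [NeZero q] [NeZero N]

lemma changeLevel_one_re (h : q ∣ N) {χ : DirichletCharacter ℂ q} (hχ : χ ≠ 1)
    (hχ2 : χ ^ 2 = 1) :
    ∃ R : ℝ, ((2 : ℝ) ^ N.primeFactors.card)⁻¹ ≤ R ∧ R ≤ 2 ^ N.primeFactors.card ∧
    (DirichletCharacter.LFunction (DirichletCharacter.changeLevel h χ) 1).re =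
      (DirichletCharacter.LFunction χ 1).re * R := by
  have hval : ∀ p : ℕ, χ p = (((χ p).re : ℝ) : ℂ) := fun p =>
    (Complex.conj_eq_iff_re.mp (conj_char hχ2 _)).symm
  refine ⟨∏ p ∈ N.primeFactors, (1 - (χ p).re * (p : ℝ)⁻¹), ?_, ?_, ?_⟩
  · rw [← inv_pow, ← Finset.prod_const]
    refine Finset.prod_le_prod (fun p _ => by norm_num) fun p hp => ?_
    have hp2 : (2 : ℝ) ≤ p := by exact_mod_cast (Nat.prime_of_mem_primeFactors hp).two_le
    have h1 : (χ p).re ≤ 1 := (Complex.re_le_norm _).trans (χ.norm_le_one _)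
    have h2 : (p : ℝ)⁻¹ ≤ 2⁻¹ := inv_anti₀ (by norm_num) hp2
    have h3 : (0 : ℝ) < (p : ℝ)⁻¹ := by positivity
    nlinarith
  · rw [← Finset.prod_const]
    refine Finset.prod_le_prod (fun p hp => ?_) fun p hp => ?_
    · have hp2 : (2 : ℝ) ≤ p := by exact_mod_cast (Nat.prime_of_mem_primeFactors hp).two_le
      have h1 : (χ p).re ≤ 1 := (Complex.re_le_norm _).trans (χ.norm_le_one _)
      have h2 : (p : ℝ)⁻¹ ≤ 2⁻¹ := inv_anti₀ (by norm_num) hp2
      have h3 : (0 : ℝ) < (p : ℝ)⁻¹ := by positivity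
      nlinarith
    · have hp2 : (2 : ℝ) ≤ p := by exact_mod_cast (Nat.prime_of_mem_primeFactors hp).two_le
      have h1 : -1 ≤ (χ p).re := by
        have := (abs_le.mp ((Complex.abs_re_le_norm (χ p)).trans (χ.norm_le_one _))).1
        exact this
      have h2 : (p : ℝ)⁻¹ ≤ 2⁻¹ := inv_anti₀ (by norm_num) hp2
      have h3 : (0 : ℝ) < (p : ℝ)⁻¹ := by positivity
      nlinarith
  · rw [DirichletCharacter.LFunction_changeLevel h χ (.inl hχ)]
    have h4 : ∏ p ∈ N.primeFactors, (1 - χ p * (p : ℂ) ^ (-(1 : ℂ))) =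
        ((∏ p ∈ N.primeFactors, (1 - (χ p).re * (p : ℝ)⁻¹) : ℝ) : ℂ) := by
      rw [Complex.ofReal_prod]
      refine Finset.prod_congr rfl fun p _ => ?_
      rw [Complex.cpow_neg_one]
      push_cast
      rw [← hval p]
    rw [h4, Complex.re_mul_ofReal]

lemma changeLevel_sq (h : q ∣ N) {χ : DirichletCharacter ℂ q} (hχ2 : χ ^ 2 = 1) :
    (DirichletCharacter.changeLevel h χ) ^ 2 = 1 := by
  rw [← map_pow, hχ2, map_one]

lemma changeLevel_ne_one (h : q ∣ N) {χ : DirichletCharacter ℂ q} (hχ : χ ≠ 1) :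
    DirichletCharacter.changeLevel h χ ≠ 1 :=
  hχ ∘ (DirichletCharacter.changeLevel_eq_one_iff h).mp

end level

/-- the auxiliary character -/
lemma exists_base (δ : ℝ) (hδ : 0 < δ) (hδ8 : δ ≤ 1 / 8) :
    (∀ (q : ℕ) [NeZero q] (χ : DirichletCharacter ℂ q), χ ^ 2 = 1 → χ = 1) ∨
    ∃ (q₁ : ℕ) (_ : NeZero q₁) (χ₁ : DirichletCharacter ℂ q₁) (x : ℝ), χ₁ ^ 2 = 1 ∧ χ₁ ≠ 1 ∧
      1 - δ < x ∧ x < 1 ∧ ∀ (N : ℕ) [NeZero N] (h : q₁ ∣ N) (β : DirichletCharacter ℂ N),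
        β ^ 2 = 1 → β ≠ 1 → DirichletCharacter.changeLevel h χ₁ * β ≠ 1 →
        (riemannZeta x * P3 (DirichletCharacter.changeLevel h χ₁) β x).re ≤ 0 := by
  by_cases hall : ∀ (q : ℕ) [NeZero q] (χ : DirichletCharacter ℂ q), χ ^ 2 = 1 → χ = 1
  · exact Or.inl hall
  right
  by_cases hex : ∃ (q₁ : ℕ) (_ : NeZero q₁) (χ₁ : DirichletCharacter ℂ q₁) (x : ℝ), χ₁ ^ 2 = 1 ∧
      χ₁ ≠ 1 ∧ 1 - δ < x ∧ x < 1 ∧ DirichletCharacter.LFunction χ₁ x = 0
  · obtain ⟨q₁, hq₁, χ₁, x, h1, h2, h3, h4, h5⟩ := hex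
    refine ⟨q₁, hq₁, χ₁, x, h1, h2, h3, h4, ?_⟩
    intro N _ h β _ _ _
    unfold P3
    rw [DirichletCharacter.LFunction_changeLevel h χ₁ (.inl h2), h5]
    simp
  · push Not at hall hex
    obtain ⟨q₁, hq₁, χ₁, h1, h2⟩ := hall
    -- a point where `ζ` is negative
    obtain ⟨x, hx1, hx2, hx3⟩ : ∃ x : ℝ, 1 - δ < x ∧ x < 1 ∧ (riemannZeta x).re ≤ 0 := by
      obtain ⟨B, hB⟩ := (isCompact_closedBall (1 : ℂ) 1).exists_bound_of_continuousOn
        differentiable_riemannZeta₀.continuous.continuousOn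
      have hB0 : 0 ≤ B := (norm_nonneg _).trans (hB 1 (by simp))
      obtain ⟨t, ht⟩ : ∃ t : ℝ, t = min (δ / 2) (1 / (B + 1)) := ⟨_, rfl⟩
      have ht0 : 0 < t := by rw [ht]; positivity
      have ht1 : t ≤ δ / 2 := by rw [ht]; exact min_le_left _ _
      have ht2 : t ≤ 1 / (B + 1) := by rw [ht]; exact min_le_right _ _
      refine ⟨1 - t, by linarith, by linarith, ?_⟩
      have hne : ((1 - t : ℝ) : ℂ) ≠ 1 := by
        intro h
        have : (1 - t : ℝ) = 1 := by exact_mod_cast h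
        linarith
      rw [riemannZeta_eq_inv_sub_add hne, Complex.add_re]
      have h5 : (((1 - t : ℝ) : ℂ) - 1)⁻¹ = ((-(t⁻¹) : ℝ) : ℂ) := by
        push_cast
        rw [show (1 - (t : ℂ) - 1) = -(t : ℂ) by ring, inv_neg]
      rw [h5, Complex.ofReal_re]
      have h6 : (riemannZeta₀ ((1 - t : ℝ) : ℂ)).re ≤ B := by
        refine (Complex.re_le_norm _).trans (hB _ ?_)
        rw [mem_closedBall, dist_eq_norm]
        have : ((1 - t : ℝ) : ℂ) - 1 = ((-t : ℝ) : ℂ) := by push_cast; ring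
        rw [this, Complex.norm_real, Real.norm_eq_abs, abs_neg, abs_of_pos ht0]
        linarith
      have h7 : B + 1 ≤ t⁻¹ := by
        rw [le_inv_comm₀ (by linarith) ht0]
        simpa using ht2
      linarith
    have hpos : ∀ (N : ℕ) [NeZero N] (β : DirichletCharacter ℂ N), β ^ 2 = 1 → β ≠ 1 →
        0 < (DirichletCharacter.LFunction β x).re ∧
          (DirichletCharacter.LFunction β x).im = 0 := by
      intro N hN β hβ2 hβ
      refine ⟨?_, LFunction_im hβ hβ2 (by linarith)⟩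
      refine LFunction_pos_of hβ hβ2 (by linarith) (by linarith) ?_
      intro y hy1 hy2
      exact hex N hN β y hβ2 hβ (by linarith) hy2
    refine ⟨q₁, hq₁, χ₁, x, h1, h2, hx1, hx2, ?_⟩
    intro N _ h β hβ2 hβ hαβ
    have hα2 := changeLevel_sq h h1
    have hα := changeLevel_ne_one h h2
    have hαβ2 : (DirichletCharacter.changeLevel h χ₁ * β) ^ 2 = 1 := by
      rw [mul_pow, hα2, hβ2, one_mul]
    obtain ⟨p1, i1⟩ := hpos N _ hα2 hα
    obtain ⟨p2, i2⟩ := hpos N β hβ2 hβ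
    obtain ⟨p3, i3⟩ := hpos N _ hαβ2 hαβ
    unfold P3
    have e1 : ∀ z : ℂ, z.im = 0 → z = ((z.re : ℝ) : ℂ) := fun z hz =>
      Complex.ext (by simp) (by simp [hz])
    rw [e1 _ i1, e1 _ i2, e1 _ i3, ← Complex.ofReal_mul, ← Complex.ofReal_mul,
      Complex.re_mul_ofReal]
    exact mul_nonpos_of_nonpos_of_nonneg hx3 (by positivity)

lemma P3_one_re {N : ℕ} [NeZero N] {α β : DirichletCharacter ℂ N} (hα2 : α ^ 2 = 1)
    (hβ2 : β ^ 2 = 1) (hα : α ≠ 1) (hβ : β ≠ 1) (hαβ : α * β ≠ 1) :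
    (P3 α β 1).re = (DirichletCharacter.LFunction α 1).re *
      (DirichletCharacter.LFunction β 1).re * (DirichletCharacter.LFunction (α * β) 1).re := by
  have e1 : ∀ z : ℂ, z.im = 0 → z = ((z.re : ℝ) : ℂ) := fun z hz =>
    Complex.ext (by simp) (by simp [hz])
  have hαβ2 : (α * β) ^ 2 = 1 := by rw [mul_pow, hα2, hβ2, one_mul]
  unfold P3
  rw [e1 _ (LFunction_one_im hα hα2), e1 _ (LFunction_one_im hβ hβ2),
    e1 _ (LFunction_one_im hαβ hαβ2), ← Complex.ofReal_mul, ← Complex.ofReal_mul]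
  simp only [Complex.ofReal_re]

/-- Siegel's theorem for `0 < e ≤ 1` -/
lemma siegel_aux (e : ℝ) (he : 0 < e) (he1 : e ≤ 1) :
    ∃ c > 0, ∀ (q : ℕ) [NeZero q] (χ : DirichletCharacter ℂ q), χ ^ 2 = 1 → χ ≠ 1 →
      c * (q : ℝ) ^ (-e) ≤ (DirichletCharacter.LFunction χ 1).re := by
  rcases exists_base (e / 24) (by positivity) (by linarith) with hno | hbase
  · exact ⟨1, one_pos, fun q _ χ h1 h2 => absurd (hno q χ h1) h2⟩
  obtain ⟨q₁, hq₁, χ₁, x, h1, h2, hx1, hx2, hbase⟩ := hbase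
  obtain ⟨C1, hC1, hprod⟩ := product_lower
  obtain ⟨η, hη⟩ : ∃ η : ℝ, η = e / 12 := ⟨_, rfl⟩
  have hη0 : 0 < η := by rw [hη]; positivity
  have hη1 : η ≤ 1 := by rw [hη]; linarith
  obtain ⟨C2, hC2, hom⟩ := exists_two_pow_omega_le η hη0
  have hL1 := LFunction_one_pos h2 h1
  obtain ⟨L1, hL1'⟩ : ∃ L1, L1 = (DirichletCharacter.LFunction χ₁ 1).re := ⟨_, rfl⟩
  rw [← hL1'] at hL1
  have hq1 : (0 : ℝ) < q₁ := by exact_mod_cast NeZero.pos q₁
  have hx' : 0 < 1 - x := by linarith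
  obtain ⟨c1, hc1⟩ : ∃ c1 : ℝ, c1 = (1 - x) / (C1 * (C2 / η ^ 2) * (q₁ : ℝ) ^ e) := ⟨_, rfl⟩
  obtain ⟨c2, hc2⟩ : ∃ c2 : ℝ, c2 = L1 / (C2 ^ 2 * (q₁ : ℝ) ^ e) := ⟨_, rfl⟩
  have hc1p : 0 < c1 := by rw [hc1]; positivity
  have hc2p : 0 < c2 := by rw [hc2]; positivity
  refine ⟨min c1 c2, lt_min hc1p hc2p, ?_⟩
  intro q _ χ hχ2 hχ
  have hq0 : (0 : ℝ) < q := by exact_mod_cast NeZero.pos q
  obtain ⟨N, hN⟩ : ∃ N, N = q₁ * q := ⟨_, rfl⟩
  have hNne : N ≠ 0 := by rw [hN]; exact mul_ne_zero (NeZero.ne q₁) (NeZero.ne q)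
  have : NeZero N := ⟨hNne⟩
  have hN1 : (1 : ℝ) ≤ N := by exact_mod_cast NeZero.one_le
  have hN0 : (0 : ℝ) < N := by linarith
  have hd1 : q₁ ∣ N := ⟨q, hN⟩
  have hd2 : q ∣ N := ⟨q₁, by rw [hN, mul_comm]⟩
  have hNcast : (N : ℝ) = q₁ * q := by rw [hN]; push_cast; ring
  obtain ⟨α, hα⟩ : ∃ α, α = DirichletCharacter.changeLevel hd1 χ₁ := ⟨_, rfl⟩
  obtain ⟨β, hβ⟩ : ∃ β, β = DirichletCharacter.changeLevel hd2 χ := ⟨_, rfl⟩
  have hα2 : α ^ 2 = 1 := by rw [hα]; exact changeLevel_sq hd1 h1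
  have hβ2 : β ^ 2 = 1 := by rw [hβ]; exact changeLevel_sq hd2 hχ2
  have hα1 : α ≠ 1 := by rw [hα]; exact changeLevel_ne_one hd1 h2
  have hβ1 : β ≠ 1 := by rw [hβ]; exact changeLevel_ne_one hd2 hχ
  obtain ⟨R1, hR1, hR1', hR1''⟩ := changeLevel_one_re hd1 h2 h1
  obtain ⟨R2, hR2, hR2', hR2''⟩ := changeLevel_one_re hd2 hχ hχ2
  rw [← hα, ← hL1'] at hR1''
  rw [← hβ] at hR2''
  obtain ⟨L2, hL2'⟩ : ∃ L2, L2 = (DirichletCharacter.LFunction χ 1).re := ⟨_, rfl⟩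
  have hL2 : 0 < L2 := by rw [hL2']; exact LFunction_one_pos hχ hχ2
  rw [← hL2'] at hR2'' ⊢
  have hW := hom N hNne
  have hW0 : (0 : ℝ) < 2 ^ N.primeFactors.card := by positivity
  have hqe : 0 < (q : ℝ) ^ e := Real.rpow_pos_of_pos hq0 e
  have hq1e : 0 < (q₁ : ℝ) ^ e := Real.rpow_pos_of_pos hq1 e
  have hNe : (N : ℝ) ^ e = (q₁ : ℝ) ^ e * (q : ℝ) ^ e := by
    rw [hNcast, Real.mul_rpow hq1.le hq0.le]
  rw [Real.rpow_neg hq0.le]
  by_cases hαβ : α * β = 1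
  · -- the two characters agree
    have hab : α = β := by
      calc α = α * (β * β) := by rw [← sq, hβ2, mul_one]
        _ = (α * β) * β := (mul_assoc α β β).symm
        _ = β := by rw [hαβ, one_mul]
    have h3 : L1 * R1 = L2 * R2 := by rw [← hR1'', ← hR2'', hab]
    have h4 : L1 ≤ L2 * (C2 ^ 2 * (N : ℝ) ^ e) := by
      have h5 : L1 * (2 ^ N.primeFactors.card)⁻¹ ≤ L2 * 2 ^ N.primeFactors.card := by
        calc L1 * (2 ^ N.primeFactors.card)⁻¹ ≤ L1 * R1 := by gcongr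
          _ = L2 * R2 := h3
          _ ≤ L2 * 2 ^ N.primeFactors.card := by gcongr
      have h6 : L1 ≤ L2 * (2 ^ N.primeFactors.card * 2 ^ N.primeFactors.card) := by
        rw [← div_eq_mul_inv, div_le_iff₀ hW0] at h5
        linarith
      refine h6.trans ?_
      have h7 : (2 : ℝ) ^ N.primeFactors.card * 2 ^ N.primeFactors.card ≤
          (C2 * (N : ℝ) ^ η) * (C2 * (N : ℝ) ^ η) := by gcongr
      have h8 : (C2 * (N : ℝ) ^ η) * (C2 * (N : ℝ) ^ η) ≤ C2 ^ 2 * (N : ℝ) ^ e := by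
        have h9 : (N : ℝ) ^ η * (N : ℝ) ^ η ≤ (N : ℝ) ^ e := by
          rw [← Real.rpow_add hN0]
          exact Real.rpow_le_rpow_of_exponent_le hN1 (by rw [hη]; linarith)
        calc (C2 * (N : ℝ) ^ η) * (C2 * (N : ℝ) ^ η) = C2 ^ 2 * ((N : ℝ) ^ η * (N : ℝ) ^ η) := by
              ring
          _ ≤ C2 ^ 2 * (N : ℝ) ^ e := by gcongr
      exact mul_le_mul_of_nonneg_left (h7.trans h8) hL2.le
    have h10 : min c1 c2 * ((q : ℝ) ^ e)⁻¹ ≤ c2 * ((q : ℝ) ^ e)⁻¹ := by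
      gcongr
      exact min_le_right _ _
    refine h10.trans ?_
    rw [hc2, ← div_eq_mul_inv, div_div, div_le_iff₀ (by positivity)]
    rw [hNe] at h4
    linarith
  · -- two different characters
    have hαβ2 : (α * β) ^ 2 = 1 := by rw [mul_pow, hα2, hβ2, one_mul]
    have h3 := hbase N hd1 β hβ2 hβ1 (by rw [← hα]; exact hαβ)
    rw [← hα] at h3
    have h4 := hprod N α β hα2 hβ2 hα1 hβ1 hαβ x (by linarith) hx2 h3
    rw [P3_one_re hα2 hβ2 hα1 hβ1 hαβ, hR2''] at h4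
    have h5 : ∀ γ : DirichletCharacter ℂ N, γ ≠ 1 →
        (DirichletCharacter.LFunction γ 1).re ≤ (N : ℝ) ^ η / η := fun γ hγ =>
      (Complex.re_le_norm _).trans (norm_LFunction_one_le hγ hη0 hη1)
    have h6 := h5 α hα1
    have h7 := h5 (α * β) hαβ
    have h6' := LFunction_one_pos hα1 hα2
    have h7' := LFunction_one_pos hαβ hαβ2
    have hR20 : 0 < R2 := lt_of_lt_of_le (by positivity) hR2
    have h8 : 1 - x ≤ C1 * (N : ℝ) ^ (e / 2) *
        (((N : ℝ) ^ η / η) * (L2 * (C2 * (N : ℝ) ^ η)) * ((N : ℝ) ^ η / η)) := by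
      refine h4.trans ?_
      have h9 : (N : ℝ) ^ (12 * (1 - x)) ≤ (N : ℝ) ^ (e / 2) :=
        Real.rpow_le_rpow_of_exponent_le hN1 (by linarith)
      gcongr
      exact hR2'.trans hW
    have h9 : C1 * (N : ℝ) ^ (e / 2) *
        (((N : ℝ) ^ η / η) * (L2 * (C2 * (N : ℝ) ^ η)) * ((N : ℝ) ^ η / η)) =
        L2 * (C1 * (C2 / η ^ 2) * ((N : ℝ) ^ (e / 2) * (N : ℝ) ^ η * (N : ℝ) ^ η *
          (N : ℝ) ^ η)) := by
      field_simp
    rw [h9] at h8
    have h10 : (N : ℝ) ^ (e / 2) * (N : ℝ) ^ η * (N : ℝ) ^ η * (N : ℝ) ^ η ≤ (N : ℝ) ^ e := by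
      rw [← Real.rpow_add hN0, ← Real.rpow_add hN0, ← Real.rpow_add hN0]
      exact Real.rpow_le_rpow_of_exponent_le hN1 (by rw [hη]; linarith)
    have h11 : 1 - x ≤ L2 * (C1 * (C2 / η ^ 2) * (N : ℝ) ^ e) := by
      refine h8.trans ?_
      gcongr
    have h12 : min c1 c2 * ((q : ℝ) ^ e)⁻¹ ≤ c1 * ((q : ℝ) ^ e)⁻¹ := by
      gcongr
      exact min_le_left _ _
    refine h12.trans ?_
    rw [hc1, ← div_eq_mul_inv, div_div, div_le_iff₀ (by positivity)]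
    rw [hNe] at h11
    linarith

/-- **Siegel's theorem** -/
theorem siegel (e : ℝ) (he : 0 < e) :
    ∃ c > 0, ∀ (q : ℕ) [NeZero q] (χ : DirichletCharacter ℂ q), χ ^ 2 = 1 → χ ≠ 1 →
      c * (q : ℝ) ^ (-e) ≤ (DirichletCharacter.LFunction χ 1).re := by
  rcases le_total e 1 with h | h
  · exact siegel_aux e he h
  · obtain ⟨c, hc, hmain⟩ := siegel_aux 1 one_pos le_rfl
    refine ⟨c, hc, fun q _ χ h1 h2 => le_trans ?_ (hmain q χ h1 h2)⟩
    have hq1 : (1 : ℝ) ≤ q := by exact_mod_cast NeZero.one_le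
    have : (q : ℝ) ^ (-e) ≤ (q : ℝ) ^ (-(1 : ℝ)) :=
      Real.rpow_le_rpow_of_exponent_le hq1 (by linarith)
    gcongr

/-- the value `L(1,χ)` of a real character is real -/
theorem siegel_im {q : ℕ} [NeZero q] {χ : DirichletCharacter ℂ q} (hχ2 : χ ^ 2 = 1)
    (hχ : χ ≠ 1) : (DirichletCharacter.LFunction χ 1).im = 0 :=
  LFunction_one_im hχ hχ2

/-- **Siegel's theorem**, norm form -/
theorem siegel_norm (e : ℝ) (he : 0 < e) :
    ∃ c > 0, ∀ (q : ℕ) [NeZero q] (χ : DirichletCharacter ℂ q), χ ^ 2 = 1 → χ ≠ 1 →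
      c * (q : ℝ) ^ (-e) ≤ ‖DirichletCharacter.LFunction χ 1‖ := by
  obtain ⟨c, hc, h⟩ := siegel e he
  exact ⟨c, hc, fun q _ χ h1 h2 => (h q χ h1 h2).trans (Complex.re_le_norm _)⟩

end Crest.Agent.SW.Siegel
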