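import Crest.Agent.SW.LInv259
import Crest.Agent.SW.Engine3_259
import Crest.Agent.SW.SiegelMain
import Crest.Agent.SW.LamChi301

/-!
# Siegel–Walfisz for non-principal characters (helper259)
-/

set_option autoImplicit false
set_option maxHeartbeats 1000000

open Complex

namespace Crest.Agent.SW

noncomputable section

open DirichletCharacter

theorem siegelProp : SiegelProp := fun e he => Siegel.siegel e he

theorem Qc_half_le {q : ℕ} (s : ℂ) :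
    Qc q s ^ (1 / 2 : ℝ) ≤ 2 * (q : ℝ) ^ (1 / 2 : ℝ) * (1 + |s.im|) ^ (1 / 2 : ℝ) := by
  have h0 : 0 ≤ |s.im| := abs_nonneg _
  have hq : (0 : ℝ) ≤ q := Nat.cast_nonneg q
  calc Qc q s ^ (1 / 2 : ℝ) ≤ ((q : ℝ) * (2 * (1 + |s.im|))) ^ (1 / 2 : ℝ) := by
        unfold Qc
        gcongr
        linarith
    _ = (q : ℝ) ^ (1 / 2 : ℝ) * (2 ^ (1 / 2 : ℝ) * (1 + |s.im|) ^ (1 / 2 : ℝ)) := by
        rw [Real.mul_rpow hq (by positivity), Real.mul_rpow (by norm_num) (by positivity)]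
    _ ≤ (q : ℝ) ^ (1 / 2 : ℝ) * (2 * (1 + |s.im|) ^ (1 / 2 : ℝ)) := by
        have : (2 : ℝ) ^ (1 / 2 : ℝ) ≤ 2 ^ (1 : ℝ) :=
          Real.rpow_le_rpow_of_exponent_le (by norm_num) (by norm_num)
        rw [Real.rpow_one] at this
        gcongr
    _ = _ := by ring

/-- general transfer: if the `L`-series of `a q χ` agrees with `G q χ` for `Re s > 1` -/
theorem transfer (G : ∀ (q : ℕ) [NeZero q], DirichletCharacter ℂ q → ℂ → ℂ)
    (a : ∀ (q : ℕ), DirichletCharacter ℂ q → ℕ → ℂ)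
    (hG : ∀ k : ℕ, ∃ C : ℝ, 0 < C ∧ ∀ (q : ℕ) [NeZero q] (χ : DirichletCharacter ℂ q), χ ≠ 1 →
      ∀ (s : ℂ), 1 < s.re → s.re ≤ 2 → ‖iteratedDeriv k (G q χ) s‖ ≤ C * Qc q s ^ (1 / 2 : ℝ))
    (ha : ∀ (q : ℕ) [NeZero q] (χ : DirichletCharacter ℂ q), χ ≠ 1 → ∀ s : ℂ, 1 < s.re →
      LSeries (a q χ) s = G q χ s)
    (hb : ∀ (q : ℕ) (χ : DirichletCharacter ℂ q) (n : ℕ), 1 ≤ n → ‖a q χ n‖ ≤ 1 + Real.log n)
    (m : ℕ) : ∃ C : ℝ, 0 < C ∧ ∀ (q : ℕ) [NeZero q] (χ : DirichletCharacter ℂ q), χ ≠ 1 →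
      ∀ x : ℝ, 2 ≤ x → ‖∑ n ∈ Finset.Icc 1 ⌊x⌋₊, a q χ n‖ ≤
        C * (q : ℝ) ^ (1 / 2 : ℝ) * x / Real.log x ^ m := by
  obtain ⟨C1, hC1, h1⟩ := hG (2 * m + 1)
  obtain ⟨C2, hC2, h2⟩ := engine m
  refine ⟨C2 * (2 * max C1 1), by positivity, fun q _ χ hχ x hx => ?_⟩
  have hq : 1 ≤ q := Nat.one_le_iff_ne_zero.mpr (NeZero.ne q)
  have hqR : (1 : ℝ) ≤ q := by exact_mod_cast hq
  have hqh : 1 ≤ (q : ℝ) ^ (1 / 2 : ℝ) := Real.one_le_rpow hqR (by norm_num)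
  have h := h2 (a q χ) (2 * max C1 1 * (q : ℝ) ^ (1 / 2 : ℝ)) ?_ (hb q χ) ?_ x hx
  · refine h.trans (le_of_eq ?_)
    ring
  · have : 1 ≤ max C1 1 := le_max_right _ _
    nlinarith
  · intro s hs1 hs2
    have heq : iteratedDeriv (2 * m + 1) (LSeries (a q χ)) s =
        iteratedDeriv (2 * m + 1) (G q χ) s := by
      apply Filter.EventuallyEq.iteratedDeriv_eq
      have hopen : IsOpen {z : ℂ | 1 < z.re} := isOpen_lt continuous_const Complex.continuous_re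
      filter_upwards [hopen.mem_nhds hs1] with z hz
      exact ha q χ hχ z hz
    rw [heq]
    refine (h1 q χ hχ s hs1 hs2).trans ?_
    calc C1 * Qc q s ^ (1 / 2 : ℝ) ≤
        max C1 1 * (2 * (q : ℝ) ^ (1 / 2 : ℝ) * (1 + |s.im|) ^ (1 / 2 : ℝ)) := by
          have h0 : 0 ≤ Qc q s := by unfold Qc; positivity
          gcongr
          · exact le_max_left _ _
          · exact Qc_half_le s
      _ = _ := by ring

/-- from the form with `q^{1/2}` to the Siegel–Walfisz form -/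
theorem to_SW (a : ∀ (q : ℕ), DirichletCharacter ℂ q → ℕ → ℂ)
    (h : ∀ m : ℕ, ∃ C : ℝ, 0 < C ∧ ∀ (q : ℕ) [NeZero q] (χ : DirichletCharacter ℂ q), χ ≠ 1 →
      ∀ x : ℝ, 2 ≤ x → ‖∑ n ∈ Finset.Icc 1 ⌊x⌋₊, a q χ n‖ ≤
        C * (q : ℝ) ^ (1 / 2 : ℝ) * x / Real.log x ^ m) (A B : ℝ) :
    ∃ C : ℝ, ∀ x : ℝ, 2 ≤ x → ∀ q : ℕ, 1 ≤ q → (q : ℝ) ≤ Real.log x ^ B →
      ∀ χ : DirichletCharacter ℂ q, χ ≠ 1 →
      ‖∑ n ∈ Finset.Icc 1 ⌊x⌋₊, a q χ n‖ ≤ C * x / Real.log x ^ A := by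
  obtain ⟨m, hm⟩ := exists_nat_ge (A + B / 2)
  obtain ⟨C, hC, h1⟩ := h m
  refine ⟨C * (1 / 2) ^ (A + B / 2 - m), fun x hx q hq hqB χ hχ => ?_⟩
  have : NeZero q := ⟨by omega⟩
  have hL := log_half hx
  set L := Real.log x with hLd
  have hL0 : 0 < L := by linarith
  have hx0 : 0 < x := by linarith
  refine (h1 q χ hχ x hx).trans ?_
  have hq2 : (q : ℝ) ^ (1 / 2 : ℝ) ≤ L ^ (B / 2) := by
    calc (q : ℝ) ^ (1 / 2 : ℝ) ≤ (L ^ B) ^ (1 / 2 : ℝ) := by gcongr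
      _ = L ^ (B / 2) := by rw [← Real.rpow_mul hL0.le]; ring_nf
  have e1 : L ^ (A + B / 2 - m) ≤ (1 / 2) ^ (A + B / 2 - m) :=
    Real.rpow_le_rpow_of_nonpos (by norm_num) hL (by linarith)
  have e2 : L ^ (A + B / 2 - m) = L ^ A * L ^ (B / 2) / L ^ m := by
    rw [Real.rpow_sub hL0, Real.rpow_add hL0, Real.rpow_natCast]
  have hLA : 0 < L ^ A := by positivity
  rw [le_div_iff₀ hLA]
  calc C * (q : ℝ) ^ (1 / 2 : ℝ) * x / L ^ m * L ^ A ≤ C * L ^ (B / 2) * x / L ^ m * L ^ A := by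
        gcongr
    _ = C * x * (L ^ A * L ^ (B / 2) / L ^ m) := by ring
    _ ≤ C * x * (1 / 2) ^ (A + B / 2 - m) := by
        rw [← e2]
        gcongr
    _ = _ := by ring

/-- the twisted Möbius function -/
def muchi (q : ℕ) (χ : DirichletCharacter ℂ q) (n : ℕ) : ℂ :=
  ((ArithmeticFunction.moebius n : ℤ) : ℂ) * χ (n : ZMod q)

/-- the twisted von Mangoldt function -/
def lamchi (q : ℕ) (χ : DirichletCharacter ℂ q) (n : ℕ) : ℂ :=
  (ArithmeticFunction.vonMangoldt n : ℂ) * χ (n : ZMod q)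

theorem moebius_norm_le (n : ℕ) : ‖((ArithmeticFunction.moebius n : ℤ) : ℂ)‖ ≤ 1 := by
  rw [Complex.norm_intCast]
  exact_mod_cast ArithmeticFunction.abs_moebius_le_one

theorem mu_nonpr' (m : ℕ) : ∃ C : ℝ, 0 < C ∧ ∀ (q : ℕ) [NeZero q] (χ : DirichletCharacter ℂ q),
    χ ≠ 1 → ∀ x : ℝ, 2 ≤ x → ‖∑ n ∈ Finset.Icc 1 ⌊x⌋₊, muchi q χ n‖ ≤
      C * (q : ℝ) ^ (1 / 2 : ℝ) * x / Real.log x ^ m := by
  refine transfer (fun q _ χ s => (LFunction χ s)⁻¹) muchi (fun k => inv_deriv_bound siegelProp k)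
    ?_ ?_ m
  · intro q _ χ hχ s hs
    have h := DirichletCharacter.LSeries.mul_mu_eq_one χ hs
    rw [← LFunction_eq_LSeries χ hs] at h
    have e : muchi q χ = (fun n : ℕ => χ (n : ZMod q)) * (fun n : ℕ => ((ArithmeticFunction.moebius n : ℤ) : ℂ)) := by
      ext n
      simp [muchi, mul_comm]
    rw [e]
    exact eq_inv_of_mul_eq_one_right h
  · intro q χ n hn
    unfold muchi
    rw [norm_mul]
    have h1 : (1 : ℝ) ≤ n := by exact_mod_cast hn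
    have h2 := Real.log_nonneg h1
    calc _ ≤ (1 : ℝ) * 1 := by
          apply mul_le_mul (moebius_norm_le n) (χ.norm_le_one _) (norm_nonneg _) (by norm_num)
      _ ≤ _ := by linarith

theorem lam_nonpr' (m : ℕ) : ∃ C : ℝ, 0 < C ∧ ∀ (q : ℕ) [NeZero q] (χ : DirichletCharacter ℂ q),
    χ ≠ 1 → ∀ x : ℝ, 2 ≤ x → ‖∑ n ∈ Finset.Icc 1 ⌊x⌋₊, lamchi q χ n‖ ≤
      C * (q : ℝ) ^ (1 / 2 : ℝ) * x / Real.log x ^ m := by
  refine transfer (fun q _ χ s => -(deriv (LFunction χ) s / LFunction χ s)) lamchi ?_ ?_ ?_ m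
  · intro k
    obtain ⟨C, hC, h⟩ := logDeriv_deriv_bound siegelProp k
    refine ⟨C, hC, fun q _ χ hχ s h1 h2 => ?_⟩
    rw [iteratedDeriv_fun_neg, norm_neg]
    exact h q χ hχ s h1 h2
  · intro q _ χ hχ s hs
    have h := LSeries_twist_vonMangoldt_eq χ hs
    have e : lamchi q χ = (fun n : ℕ => χ (n : ZMod q)) * (fun n : ℕ => (ArithmeticFunction.vonMangoldt n : ℂ)) := by
      ext n
      simp [lamchi, mul_comm]
    rw [e, h, ← deriv_LFunction_eq_deriv_LSeries χ hs, ← LFunction_eq_LSeries χ hs, neg_div]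
  · intro q χ n hn
    unfold lamchi
    rw [norm_mul, Complex.norm_real, Real.norm_of_nonneg ArithmeticFunction.vonMangoldt_nonneg]
    have h2 := ArithmeticFunction.vonMangoldt_le_log (n := n)
    have h3 : (0 : ℝ) ≤ ArithmeticFunction.vonMangoldt n := ArithmeticFunction.vonMangoldt_nonneg
    have h4 := χ.norm_le_one (n : ZMod q)
    nlinarith [norm_nonneg (χ (n : ZMod q))]

/-- **Siegel–Walfisz for the Möbius function, non-principal characters** -/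
theorem muNonpr_holds : MuNonpr := fun A B => to_SW muchi mu_nonpr' A B

/-- **Siegel–Walfisz for the von Mangoldt function, non-principal characters** -/
theorem lamNonpr_holds : LamNonpr := fun A B => to_SW lamchi lam_nonpr' A B

end

end Crest.Agent.SW
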