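import Crest.Agent.SW.Princ
import Crest.Agent.SW.Nonpr259
import Crest.Agent.SW.PsiAP301

/-!
# Siegel–Walfisz, unconditional final forms

* `psiOne_holds : PsiOne`, `psiAP_holds : PsiAP` (primes),
* `sav_mu`, `sav_lam` : all characters,
* `lamAP`, `muAP` : all residue classes.
-/

namespace Crest.Agent.SW

open Finset

theorem psiOne_holds : PsiOne := by
  intro A
  obtain ⟨C, hC⟩ := ZS.psi_sum ⌈A⌉₊
  refine ⟨|C| * (Real.log 2) ^ (A - ⌈A⌉₊), fun x hx => ?_⟩
  have hl : 0 < Real.log x := Real.log_pos (by linarith)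
  have hx0 : 0 < x := by linarith
  refine (hC x hx).trans ?_
  calc C * x / Real.log x ^ ⌈A⌉₊ ≤ |C| * x / Real.log x ^ ⌈A⌉₊ := by
        gcongr; exact le_abs_self C
    _ ≤ _ := AP301.div_log_pow_le (Nat.le_ceil A) (abs_nonneg C) hx

theorem psiAP_holds : PsiAP := psiAP psiOne_holds lamNonpr_holds

theorem sav_mu : Sav (fun _ _ => True) (fun n => ((muR n : ℝ) : ℂ)) := sav_mu_all muNonpr_holds

theorem sav_lam : Sav (fun _ _ => True) (fun n => ((lam n : ℝ) : ℂ)) := sav_lam_all muNonpr_holds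

end Crest.Agent.SW
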