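import Crest.Agent.SW.SqConv
import Crest.Agent.SW.LamChi301

/-!
# Siegel–Walfisz: forms of the statements

`Sav P f`: for all real `A B` there is `C` such that for all `x ≥ 2`, all `1 ≤ q ≤ (log x)^B` and
all characters `χ mod q` with `P q χ`: `|∑_{n ≤ x} f(n) χ(n)| ≤ C x/(log x)^A`.
-/

namespace Crest.Agent.SW

open Finset

/-- saving of an arbitrary power of `log` in character sums -/
def Sav (P : ∀ q : ℕ, DirichletCharacter ℂ q → Prop) (f : ℕ → ℂ) : Prop :=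
  ∀ A B : ℝ, ∃ C : ℝ, ∀ x : ℝ, 2 ≤ x → ∀ q : ℕ, 1 ≤ q → (q : ℝ) ≤ (Real.log x) ^ B →
    ∀ χ : DirichletCharacter ℂ q, P q χ →
      ‖∑ n ∈ Finset.Icc 1 ⌊x⌋₊, f n * χ n‖ ≤ C * x / (Real.log x) ^ A

lemma norm_char_sum_trivial {f : ℕ → ℂ} (hf : ∀ n : ℕ, 1 ≤ n → ‖f n‖ ≤ 1 + Real.log n) {q : ℕ}
    (χ : DirichletCharacter ℂ q) {x : ℝ} (hx : 1 ≤ x) :
    ‖∑ n ∈ Finset.Icc 1 ⌊x⌋₊, f n * χ n‖ ≤ x * (1 + Real.log x) := by
  have hx0 : 0 ≤ x := by linarith
  have hl : 0 ≤ Real.log x := Real.log_nonneg hx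
  calc ‖∑ n ∈ Finset.Icc 1 ⌊x⌋₊, f n * χ n‖ ≤ ∑ n ∈ Finset.Icc 1 ⌊x⌋₊, ‖f n * χ n‖ :=
        norm_sum_le _ _
    _ ≤ ∑ n ∈ Finset.Icc 1 ⌊x⌋₊, (1 + Real.log x) := by
        refine Finset.sum_le_sum fun n hn => ?_
        rw [mem_Icc] at hn
        rw [norm_mul]
        have h1 := hf n hn.1
        have h2 : Real.log n ≤ Real.log x := by
          apply Real.log_le_log (by exact_mod_cast hn.1)
          exact (Nat.le_floor_iff hx0).mp hn.2
        have h3 : ‖χ n‖ ≤ 1 := χ.norm_le_one _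
        calc ‖f n‖ * ‖χ n‖ ≤ (1 + Real.log x) * 1 := by
              gcongr; linarith
          _ = _ := mul_one _
    _ = ⌊x⌋₊ * (1 + Real.log x) := by
        rw [Finset.sum_const, Nat.card_Icc, nsmul_eq_mul, Nat.add_sub_cancel]
    _ ≤ x * (1 + Real.log x) := by
        gcongr; exact Nat.floor_le hx0

lemma one_le_log {x : ℝ} (hx : 3 ≤ x) : 1 ≤ Real.log x := by
  rw [Real.le_log_iff_exp_le (by linarith)]
  exact (Real.exp_one_lt_d9.le.trans (by norm_num)).trans hx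

lemma exists_bound_range (A X0 : ℝ) : ∃ M : ℝ, 0 ≤ M ∧ ∀ x : ℝ, 2 ≤ x → x ≤ X0 →
    x * (1 + Real.log x) ≤ M * x / (Real.log x) ^ A := by
  have hcont : ContinuousOn (fun x : ℝ => (1 + Real.log x) * (Real.log x) ^ A) (Set.Icc 2 X0) := by
    intro x hx
    have hx0 : x ≠ 0 := by have := hx.1; intro h; rw [h] at this; linarith
    have hl : Real.log x ≠ 0 := (Real.log_pos (by linarith [hx.1])).ne'
    have h1 : ContinuousAt Real.log x := Real.continuousAt_log hx0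
    exact ((continuousAt_const.add h1).mul (h1.rpow_const (Or.inl hl))).continuousWithinAt
  obtain ⟨M, hM⟩ := isCompact_Icc.exists_bound_of_continuousOn hcont
  refine ⟨max M 0, le_max_right _ _, fun x hx hx1 => ?_⟩
  have hl : 0 < Real.log x := Real.log_pos (by linarith)
  have hp : 0 < (Real.log x) ^ A := Real.rpow_pos_of_pos hl _
  have h1 := hM x ⟨hx, hx1⟩
  rw [Real.norm_eq_abs] at h1
  have h2 := (le_abs_self _).trans h1
  rw [le_div_iff₀ hp]
  calc x * (1 + Real.log x) * Real.log x ^ A = x * ((1 + Real.log x) * Real.log x ^ A) := by ring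
    _ ≤ x * max M 0 := by
        have : (1 + Real.log x) * Real.log x ^ A ≤ max M 0 := h2.trans (le_max_left _ _)
        gcongr
    _ = max M 0 * x := by ring

/-- it suffices to prove savings for large `x` and exponents `≥ 1` -/
lemma sav_of_large {P : ∀ q : ℕ, DirichletCharacter ℂ q → Prop} {f : ℕ → ℂ}
    (hf : ∀ n : ℕ, 1 ≤ n → ‖f n‖ ≤ 1 + Real.log n)
    (h : ∀ A B : ℝ, 1 ≤ A → 1 ≤ B → ∃ C X0 : ℝ, ∀ x : ℝ, X0 ≤ x → 3 ≤ x → ∀ q : ℕ, 1 ≤ q →
      (q : ℝ) ≤ (Real.log x) ^ B → ∀ χ : DirichletCharacter ℂ q, P q χ →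
        ‖∑ n ∈ Finset.Icc 1 ⌊x⌋₊, f n * χ n‖ ≤ C * x / (Real.log x) ^ A) : Sav P f := by
  intro A B
  obtain ⟨C, X0, hC⟩ := h (max A 1) (max B 1) (le_max_right _ _) (le_max_right _ _)
  obtain ⟨M, hM0, hM⟩ := exists_bound_range A (max X0 3)
  refine ⟨max |C| M, fun x hx q hq hqB χ hχ => ?_⟩
  have hx0 : 0 < x := by linarith
  have hl : 0 < Real.log x := Real.log_pos (by linarith)
  have hp : 0 < (Real.log x) ^ A := Real.rpow_pos_of_pos hl _
  rcases le_total x (max X0 3) with hle | hge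
  · refine (norm_char_sum_trivial hf χ (by linarith)).trans ((hM x hx hle).trans ?_)
    gcongr
    exact le_max_right _ _
  · have hx3 : 3 ≤ x := (le_max_right _ _).trans hge
    have hl1 := one_le_log hx3
    have h1 : (q : ℝ) ≤ (Real.log x) ^ (max B 1) :=
      hqB.trans (Real.rpow_le_rpow_of_exponent_le hl1 (le_max_left _ _))
    refine (hC x ((le_max_left _ _).trans hge) hx3 q hq h1 χ hχ).trans ?_
    have h2 : (Real.log x) ^ A ≤ (Real.log x) ^ (max A 1) :=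
      Real.rpow_le_rpow_of_exponent_le hl1 (le_max_left _ _)
    calc C * x / Real.log x ^ max A 1 ≤ |C| * x / Real.log x ^ max A 1 := by
          gcongr; exact le_abs_self _
      _ ≤ |C| * x / Real.log x ^ A := by gcongr
      _ ≤ max |C| M * x / Real.log x ^ A := by gcongr; exact le_max_left _ _

/-- multiples of `k` -/
lemma sum_multiples {M : Type*} [AddCommMonoid M] (N k : ℕ) (hk : 1 ≤ k) (g : ℕ → M) :
    ∑ n ∈ (Icc 1 N).filter (fun n => k ∣ n), g (n / k) = ∑ m ∈ Icc 1 (N / k), g m := by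
  refine Finset.sum_nbij' (fun n => n / k) (fun m => k * m) ?_ ?_ ?_ ?_ ?_
  · intro n hn
    rw [mem_filter, mem_Icc] at hn
    rw [mem_Icc]
    exact ⟨Nat.div_pos (Nat.le_of_dvd (by omega) hn.2) hk, Nat.div_le_div_right hn.1.2⟩
  · intro m hm
    rw [mem_Icc] at hm
    rw [mem_filter, mem_Icc]
    refine ⟨⟨Nat.mul_pos hk hm.1, ?_⟩, dvd_mul_right _ _⟩
    calc k * m ≤ k * (N / k) := Nat.mul_le_mul_left k hm.2
      _ ≤ N := Nat.mul_div_le N k
  · intro n hn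
    rw [mem_filter] at hn
    exact Nat.mul_div_cancel' hn.2
  · intro m _
    exact Nat.mul_div_cancel_left m hk
  · intro n _; rfl

/-- exchange of summation for the convolution with squares -/
lemma sum_sq_exchange {M : Type*} [AddCommMonoid M] (N : ℕ) (h : ℕ → ℕ → M) :
    ∑ n ∈ Icc 1 N, ∑ d ∈ (Icc 1 N).filter (fun d => d ^ 2 ∣ n), h d (n / d ^ 2) =
      ∑ d ∈ Icc 1 N, ∑ m ∈ Icc 1 (N / d ^ 2), h d m := by
  have h1 : ∀ n ∈ Icc 1 N, ∑ d ∈ (Icc 1 N).filter (fun d => d ^ 2 ∣ n), h d (n / d ^ 2) =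
      ∑ d ∈ Icc 1 N, if d ^ 2 ∣ n then h d (n / d ^ 2) else 0 := fun n _ => Finset.sum_filter _ _
  rw [Finset.sum_congr rfl h1, Finset.sum_comm]
  refine Finset.sum_congr rfl fun d hd => ?_
  rw [← Finset.sum_filter]
  exact sum_multiples N (d ^ 2) (Nat.one_le_pow _ _ (mem_Icc.mp hd).1) (h d)

end Crest.Agent.SW
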