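import Mathlib

/-!
# Siegel's theorem, part A (helper301)

Integral representation of `L(s, χ)`, `χ ≠ 1`, on `Re s > 0`, upper bounds and reality on the real
axis.
-/

set_option autoImplicit false

open Complex Filter MeasureTheory Set Asymptotics
open scoped Real Topology

namespace Crest.Agent.SW.Siegel

variable {q : ℕ} [NeZero q]

lemma sum_range_char_eq_zero (ψ : DirichletCharacter ℂ q) (hψ : ψ ≠ 1) :
    ∑ a ∈ Finset.range q, ψ (a : ZMod q) = 0 := by
  have h := MulChar.sum_eq_zero_of_ne_one hψ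
  rw [← h]
  symm
  refine Finset.sum_nbij' (fun a : ZMod q => a.val) (fun n : ℕ => (n : ZMod q)) ?_ ?_ ?_ ?_ ?_
  · intro a _
    rw [Finset.mem_range]
    exact ZMod.val_lt a
  · intro n _
    exact Finset.mem_univ _
  · intro a _
    exact ZMod.natCast_zmod_val a
  · intro n hn
    rw [Finset.mem_range] at hn
    exact ZMod.val_cast_of_lt hn
  · intro a _
    rw [ZMod.natCast_zmod_val]

lemma norm_partial_le (χ : DirichletCharacter ℂ q) (hχ : χ ≠ 1) (k : ℕ) :
    ‖∑ n ∈ Finset.range k, χ (n : ZMod q)‖ ≤ q := by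
  have h0 := sum_range_char_eq_zero χ hχ
  have hq : 0 < q := NeZero.pos q
  have h2 := Nat.mod_lt k hq
  have key : ∀ m r : ℕ, ∑ n ∈ Finset.range (q * m + r), χ (n : ZMod q) =
      ∑ n ∈ Finset.range r, χ (n : ZMod q) := by
    intro m r
    induction m with
    | zero => simp
    | succ m ih =>
      rw [show q * (m + 1) + r = q + (q * m + r) by ring, Finset.sum_range_add, h0, zero_add, ← ih]
      refine Finset.sum_congr rfl fun a _ => ?_
      push_cast
      rw [ZMod.natCast_self, zero_add]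
  have h1 := Nat.div_add_mod k q
  rw [← h1, key]
  refine (norm_sum_le _ _).trans ?_
  refine (Finset.sum_le_sum (fun i _ => χ.norm_le_one _)).trans ?_
  rw [Finset.sum_const, Finset.card_range, nsmul_eq_mul, mul_one]
  exact_mod_cast h2.le

/-- the summatory function of `χ` -/
noncomputable def Sf (χ : DirichletCharacter ℂ q) (t : ℝ) : ℂ :=
  ∑ k ∈ Finset.Icc 1 ⌊t⌋₊, χ (k : ZMod q)

lemma q_ne_one {χ : DirichletCharacter ℂ q} (hχ : χ ≠ 1) : q ≠ 1 := by
  rintro rfl
  exact hχ (Subsingleton.elim _ _)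

lemma sum_Icc_eq {χ : DirichletCharacter ℂ q} (hχ : χ ≠ 1) (n : ℕ) :
    ∑ k ∈ Finset.Icc 1 n, χ (k : ZMod q) = ∑ k ∈ Finset.range (n + 1), χ (k : ZMod q) := by
  have h0 : χ ((0 : ℕ) : ZMod q) = 0 := by
    rw [Nat.cast_zero]
    have : Nontrivial (ZMod q) := ZMod.nontrivial_iff.mpr (q_ne_one hχ)
    exact χ.map_nonunit not_isUnit_zero
  rw [Finset.sum_range_succ', h0, add_zero]
  have e1 : Finset.Icc 1 n = (Finset.range n).image (· + 1) := by
    ext a
    simp only [Finset.mem_Icc, Finset.mem_image, Finset.mem_range]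
    constructor
    · rintro ⟨h3, h4⟩; exact ⟨a - 1, by omega, by omega⟩
    · rintro ⟨b, h3, rfl⟩; omega
  rw [e1, Finset.sum_image (fun a _ b _ h => by simpa using h)]

lemma norm_sum_Icc_le {χ : DirichletCharacter ℂ q} (hχ : χ ≠ 1) (n : ℕ) :
    ‖∑ k ∈ Finset.Icc 1 n, χ (k : ZMod q)‖ ≤ q := by
  rw [sum_Icc_eq hχ]
  exact norm_partial_le χ hχ _

lemma norm_Sf_le {χ : DirichletCharacter ℂ q} (hχ : χ ≠ 1) (t : ℝ) : ‖Sf χ t‖ ≤ q :=
  norm_sum_Icc_le hχ _

lemma norm_Sf_le' (χ : DirichletCharacter ℂ q) {t : ℝ} (ht : 0 ≤ t) : ‖Sf χ t‖ ≤ t := by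
  unfold Sf
  refine (norm_sum_le _ _).trans ?_
  refine (Finset.sum_le_sum (fun i _ => χ.norm_le_one _)).trans ?_
  rw [Finset.sum_const, Nat.card_Icc, nsmul_eq_mul, mul_one, Nat.add_sub_cancel]
  exact Nat.floor_le ht

lemma measurable_Sf (χ : DirichletCharacter ℂ q) : Measurable (Sf χ) := by
  unfold Sf
  exact (measurable_from_nat (f := fun n : ℕ => ∑ k ∈ Finset.Icc 1 n, χ (k : ZMod q))).comp
    Nat.measurable_floor

/-- the integral in the representation of `L(s, χ)` -/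
noncomputable def I (χ : DirichletCharacter ℂ q) (s : ℂ) : ℂ :=
  ∫ t in Ioi (1 : ℝ), Sf χ t * (t : ℂ) ^ (-(s + 1))

lemma I_eq_mellin (χ : DirichletCharacter ℂ q) (s : ℂ) :
    I χ s = mellin (indicator (Ioi (1 : ℝ)) (Sf χ)) (-s) := by
  unfold I mellin
  rw [← integral_indicator measurableSet_Ioi, ← integral_indicator measurableSet_Ioi]
  congr 1
  funext t
  by_cases ht : t ∈ Ioi (1 : ℝ)
  · have ht0 : t ∈ Ioi (0 : ℝ) := mem_Ioi.mpr (lt_trans zero_lt_one (mem_Ioi.mp ht))
    rw [indicator_of_mem ht, indicator_of_mem ht0, indicator_of_mem ht, smul_eq_mul, mul_comm]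
    congr 2
    ring
  · rw [indicator_of_notMem ht]
    by_cases ht0 : t ∈ Ioi (0 : ℝ)
    · rw [indicator_of_mem ht0, indicator_of_notMem ht, smul_zero]
    · rw [indicator_of_notMem ht0]

lemma differentiableAt_I {χ : DirichletCharacter ℂ q} (hχ : χ ≠ 1) {s : ℂ} (hs : 0 < s.re) :
    DifferentiableAt ℂ (I χ) s := by
  have h1 : I χ = (mellin (indicator (Ioi (1 : ℝ)) (Sf χ))) ∘ (fun s : ℂ => -s) := by
    funext s
    exact I_eq_mellin χ s
  rw [h1]
  refine DifferentiableAt.comp s ?_ differentiableAt_fun_id.neg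
  have hb : ∀ t, ‖indicator (Ioi (1 : ℝ)) (Sf χ) t‖ ≤ q := by
    intro t
    refine (norm_indicator_le_norm_self _ _).trans (norm_Sf_le hχ t)
  have hm : Measurable (indicator (Ioi (1 : ℝ)) (Sf χ)) :=
    (measurable_Sf χ).indicator measurableSet_Ioi
  refine mellin_differentiableAt_of_isBigO_rpow (a := 0) (b := -s.re - 1) ?_ ?_ ?_ ?_ ?_
  · refine LocallyIntegrable.locallyIntegrableOn ?_ _
    refine (locallyIntegrable_const (q : ℝ)).mono hm.aestronglyMeasurable ?_
    refine Filter.Eventually.of_forall fun t => ?_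
    rw [Real.norm_of_nonneg (Nat.cast_nonneg q)]
    exact hb t
  · refine IsBigO.of_bound (q : ℝ) (Filter.Eventually.of_forall fun t => ?_)
    simpa using hb t
  · simpa using hs
  · refine IsBigO.of_bound 1 ?_
    have : ∀ᶠ t : ℝ in 𝓝[>] 0, t < 1 := by
      have : ∀ᶠ t : ℝ in 𝓝 0, t < 1 := eventually_lt_nhds zero_lt_one
      exact this.filter_mono nhdsWithin_le_nhds
    filter_upwards [this] with t ht
    rw [indicator_of_notMem (by simpa using ht.le), norm_zero]
    positivity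
  · simp

lemma LFunction_eq_of_one_lt {χ : DirichletCharacter ℂ q} (hχ : χ ≠ 1) {s : ℂ} (hs : 1 < s.re) :
    DirichletCharacter.LFunction χ s = s * I χ s := by
  rw [DirichletCharacter.LFunction_eq_LSeries χ hs]
  refine LSeries_eq_mul_integral (fun n : ℕ => χ (n : ZMod q)) (r := 0) le_rfl (by linarith)
    (DirichletCharacter.LSeriesSummable_of_one_lt_re χ hs) ?_
  refine IsBigO.of_bound (q : ℝ) (Filter.Eventually.of_forall fun n => ?_)
  simpa using norm_sum_Icc_le hχ n

/-- integral representation of `L(s, χ)` on the right half plane -/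
theorem LFunction_eq {χ : DirichletCharacter ℂ q} (hχ : χ ≠ 1) {s : ℂ} (hs : 0 < s.re) :
    DirichletCharacter.LFunction χ s = s * I χ s := by
  have hopen : IsOpen {z : ℂ | 0 < z.re} := isOpen_lt continuous_const Complex.continuous_re
  have hconn : IsPreconnected {z : ℂ | 0 < z.re} :=
    (convex_halfSpace_re_gt 0).isPreconnected
  have h1 : AnalyticOnNhd ℂ (DirichletCharacter.LFunction χ) {z : ℂ | 0 < z.re} :=
    (DirichletCharacter.differentiable_LFunction hχ).differentiableOn.analyticOnNhd hopen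
  have h2 : AnalyticOnNhd ℂ (fun z => z * I χ z) {z : ℂ | 0 < z.re} := by
    refine DifferentiableOn.analyticOnNhd ?_ hopen
    intro z hz
    exact (differentiableAt_id.mul (differentiableAt_I hχ hz)).differentiableWithinAt
  have h3 : DirichletCharacter.LFunction χ =ᶠ[𝓝 (2 : ℂ)] fun z => z * I χ z := by
    have : {z : ℂ | 1 < z.re} ∈ 𝓝 (2 : ℂ) :=
      (isOpen_lt continuous_const Complex.continuous_re).mem_nhds (by simp)
    filter_upwards [this] with z hz
    exact LFunction_eq_of_one_lt hχ hz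
  exact h1.eqOn_of_preconnected_of_eventuallyEq h2 hconn (by simp : (2 : ℂ) ∈ {z : ℂ | 0 < z.re})
    h3 hs

lemma norm_I_le_of {χ : DirichletCharacter ℂ q} {s : ℂ} {B a : ℝ} (ha : 0 < a)
    (hB : ∀ t : ℝ, 1 < t → ‖Sf χ t‖ ≤ B * t ^ (s.re - a)) : ‖I χ s‖ ≤ B / a := by
  unfold I
  have hint : IntegrableOn (fun t : ℝ => B * t ^ (-(a + 1))) (Ioi 1) :=
    (integrableOn_Ioi_rpow_of_lt (by linarith) zero_lt_one).const_mul B
  have h1 : ‖∫ t in Ioi (1 : ℝ), Sf χ t * (t : ℂ) ^ (-(s + 1))‖ ≤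
      ∫ t in Ioi (1 : ℝ), B * t ^ (-(a + 1)) := by
    refine norm_integral_le_of_norm_le hint ?_
    refine (ae_restrict_iff' measurableSet_Ioi).mpr (Filter.Eventually.of_forall fun t ht => ?_)
    have ht0 : (0 : ℝ) < t := lt_trans zero_lt_one ht
    rw [norm_mul, norm_cpow_eq_rpow_re_of_pos ht0]
    calc ‖Sf χ t‖ * t ^ (-(s + 1)).re ≤ (B * t ^ (s.re - a)) * t ^ (-(s + 1)).re := by
          gcongr
          exact hB t ht
      _ = B * t ^ (-(a + 1)) := by
          rw [mul_assoc, ← Real.rpow_add ht0]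
          congr 2
          simp
          ring
  refine h1.trans (le_of_eq ?_)
  rw [integral_const_mul, integral_Ioi_rpow_of_lt (by linarith) zero_lt_one]
  rw [Real.one_rpow]
  have : -(a + 1) + 1 = -a := by ring
  rw [this]
  field_simp

/-- `‖L(s, χ)‖ ≤ ‖s‖ q / Re s` -/
theorem norm_LFunction_le {χ : DirichletCharacter ℂ q} (hχ : χ ≠ 1) {s : ℂ} (hs : 0 < s.re) :
    ‖DirichletCharacter.LFunction χ s‖ ≤ ‖s‖ * (q / s.re) := by
  rw [LFunction_eq hχ hs, norm_mul]
  refine mul_le_mul_of_nonneg_left (norm_I_le_of hs fun t ht => ?_) (norm_nonneg _)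
  rw [sub_self, Real.rpow_zero, mul_one]
  exact norm_Sf_le hχ t

/-- `‖L(1, χ)‖ ≤ q ^ η / η` -/
theorem norm_LFunction_one_le {χ : DirichletCharacter ℂ q} (hχ : χ ≠ 1) {η : ℝ} (hη : 0 < η)
    (hη1 : η ≤ 1) : ‖DirichletCharacter.LFunction χ 1‖ ≤ (q : ℝ) ^ η / η := by
  rw [LFunction_eq hχ (by simp), one_mul]
  refine norm_I_le_of hη fun t ht => ?_
  have ht0 : (0 : ℝ) < t := lt_trans zero_lt_one ht
  have h1 := norm_Sf_le hχ t
  have h2 := norm_Sf_le' χ ht0.le
  have h3 : ‖Sf χ t‖ = ‖Sf χ t‖ ^ η * ‖Sf χ t‖ ^ (1 - η) := by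
    rcases eq_or_ne (‖Sf χ t‖) 0 with h | h
    · rw [h, Real.zero_rpow hη.ne', zero_mul]
    · rw [← Real.rpow_add (lt_of_le_of_ne (norm_nonneg _) (Ne.symm h))]
      simp
  rw [h3]
  simp only [Complex.one_re]
  exact mul_le_mul (Real.rpow_le_rpow (norm_nonneg _) h1 hη.le)
    (Real.rpow_le_rpow (norm_nonneg _) h2 (by linarith)) (by positivity) (by positivity)

/-- a real character takes real values -/
lemma conj_char {χ : DirichletCharacter ℂ q} (hχ2 : χ ^ 2 = 1) (a : ZMod q) :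
    (starRingEnd ℂ) (χ a) = χ a := by
  by_cases ha : IsUnit a
  · have h1 : (χ a) ^ 2 = 1 := by
      rw [← MulChar.pow_apply' χ two_ne_zero, hχ2, MulChar.one_apply ha]
    have h2 : (χ a - 1) * (χ a + 1) = 0 := by linear_combination h1
    rcases mul_eq_zero.mp h2 with h | h
    · rw [sub_eq_zero.mp h]; simp
    · rw [eq_neg_of_add_eq_zero_left h]; simp
  · rw [χ.map_nonunit ha]; simp

/-- reality on the positive real axis -/
theorem conj_LFunction {χ : DirichletCharacter ℂ q} (hχ : χ ≠ 1) (hχ2 : χ ^ 2 = 1) {x : ℝ}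
    (hx : 0 < x) : (starRingEnd ℂ) (DirichletCharacter.LFunction χ x) =
      DirichletCharacter.LFunction χ x := by
  rw [LFunction_eq hχ (by simpa using hx), map_mul, Complex.conj_ofReal]
  congr 1
  unfold I
  rw [← integral_conj]
  refine setIntegral_congr_fun measurableSet_Ioi fun t ht => ?_
  have ht0 : (0 : ℝ) < t := lt_trans zero_lt_one ht
  simp only [map_mul]
  congr 1
  · unfold Sf
    rw [map_sum]
    exact Finset.sum_congr rfl fun k _ => conj_char hχ2 _
  · rw [show (-((x : ℂ) + 1)) = ((-(x + 1) : ℝ) : ℂ) by push_cast; ring,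
      ← Complex.ofReal_cpow ht0.le, Complex.conj_ofReal]

theorem LFunction_im {χ : DirichletCharacter ℂ q} (hχ : χ ≠ 1) (hχ2 : χ ^ 2 = 1) {x : ℝ}
    (hx : 0 < x) : (DirichletCharacter.LFunction χ x).im = 0 :=
  Complex.conj_eq_iff_im.mp (conj_LFunction hχ hχ2 hx)

end Crest.Agent.SW.Siegel
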