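import Crest.Agent.SW.LLower2_259

/-!
# Siegel–Walfisz library: derivatives of `F / L(·, χ)` on `Re s > 1` (helper259)
-/

set_option autoImplicit false
set_option maxHeartbeats 1000000

open Complex Metric

namespace Crest.Agent.SW

noncomputable section

open DirichletCharacter

/-- the exponent used for the `k`-th derivative -/
def ek (k : ℕ) : ℝ := 1 / (2 * (7 * k + 7))

theorem ek_pos (k : ℕ) : 0 < ek k := by unfold ek; positivity

theorem ek_le (k : ℕ) : ek k ≤ 1 / 2 := by
  unfold ek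
  rw [div_le_div_iff₀ (by positivity) (by norm_num)]
  have : (0 : ℝ) ≤ k := Nat.cast_nonneg k
  linarith

theorem ek_mul (k : ℕ) : ek k * ((7 * k + 7 : ℕ) : ℝ) = 1 / 2 := by
  unfold ek
  push_cast
  field_simp

theorem quot_deriv_bound (hS : SiegelProp) (k : ℕ) : ∃ C : ℝ, 0 < C ∧
    ∀ (q : ℕ) [NeZero q] (χ : DirichletCharacter ℂ q), χ ≠ 1 → ∀ (F : ℂ → ℂ) (A : ℝ) (s : ℂ),
      1 < s.re → s.re ≤ 2 →
      (∀ z : ℂ, ‖z - s‖ ≤ ek k / 4 → DifferentiableAt ℂ F z ∧ ‖F z‖ ≤ A * Qc q s ^ ek k) →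
      ‖iteratedDeriv k (fun z => F z / LFunction χ z) s‖ ≤ C * A * Qc q s ^ (1 / 2 : ℝ) := by
  have hη := ek_pos k
  have hη1 := ek_le k
  obtain ⟨c, hc, hlow⟩ := L_lower hS hη hη1
  have hCd := Cd_ge hη hη1
  set r0 : ℝ := min (ek k / 4) (c / (4 * Cd (ek k))) with hr0
  have hr00 : 0 < r0 := lt_min (by positivity) (by positivity)
  refine ⟨k.factorial * (2 / c) / r0 ^ k, by positivity, ?_⟩
  intro q _ χ hχ F A s h1 h2 hF
  have hq : 1 ≤ q := Nat.one_le_iff_ne_zero.mpr (NeZero.ne q)
  have hQ2 := Qc_ge hq s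
  set T := Qc q s ^ ek k with hT
  have hT1 : 1 ≤ T := Real.one_le_rpow (by linarith) hη.le
  have hT0 : 0 < T := by linarith
  have hA : 0 ≤ A := by
    have := (norm_nonneg _).trans (hF s (by simp; positivity)).2
    by_contra h
    push Not at h
    have : A * T < 0 := mul_neg_of_neg_of_pos h hT0
    linarith
  set r : ℝ := r0 / T ^ 7 with hr
  have hT7 : 1 ≤ T ^ 7 := one_le_pow₀ hT1
  have hr0' : 0 < r := by positivity
  have hrr0 : r ≤ r0 := div_le_self hr00.le hT7
  have hrη : r ≤ ek k / 4 := hrr0.trans (min_le_left _ _)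
  -- lower bound on the disc
  have hdisc : ∀ z ∈ closedBall s r, c / (2 * T ^ 6) ≤ ‖LFunction χ z‖ := by
    intro z hz
    rw [mem_closedBall_iff_norm] at hz
    have hs0 := hlow q χ hχ s h1 h2
    rw [← hT] at hs0
    have hdiff := Convex.norm_image_sub_le_of_norm_deriv_le (𝕜 := ℂ) (f := LFunction χ)
      (C := Cd (ek k) * (2 * T)) (s := closedBall s r) (x := s) (y := z)
      (fun z _ => (differentiable_LFunction hχ).differentiableAt)
      (fun w hw => ?_) (convex_closedBall s r) (mem_closedBall_self hr0'.le)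
      (by rwa [mem_closedBall_iff_norm])
    · have h3 : ‖LFunction χ s‖ - ‖LFunction χ z‖ ≤ ‖LFunction χ z - LFunction χ s‖ := by
        rw [norm_sub_rev]
        exact norm_sub_norm_le _ _
      have h4 : Cd (ek k) * (2 * T) * ‖z - s‖ ≤ c / (2 * T ^ 6) := by
        calc Cd (ek k) * (2 * T) * ‖z - s‖ ≤ Cd (ek k) * (2 * T) * r := by gcongr
          _ ≤ Cd (ek k) * (2 * T) * (c / (4 * Cd (ek k)) / T ^ 7) := by
              rw [hr]
              gcongr
              exact min_le_right _ _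
          _ = c / (2 * T ^ 6) := by
              field_simp
              norm_num
      have h5 : c / T ^ 6 = c / (2 * T ^ 6) + c / (2 * T ^ 6) := by
        field_simp
        norm_num
      linarith
    · rw [mem_closedBall_iff_norm] at hw
      have hre : |w.re - s.re| ≤ r := by
        have := Complex.abs_re_le_norm (w - s)
        rw [Complex.sub_re] at this
        linarith
      rw [abs_le] at hre
      refine (L_deriv_bound hη hη1 hχ (by linarith [hre.1]) (by linarith [hre.2])).trans ?_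
      have := Qc_rpow_near (q := q) (s := s) (z := w) (by linarith) hη.le (by linarith)
      gcongr
  have hne : ∀ z ∈ closedBall s r, LFunction χ z ≠ 0 := by
    intro z hz h0
    have := hdisc z hz
    rw [h0, norm_zero] at this
    have : 0 < c / (2 * T ^ 6) := by positivity
    linarith
  have hDC : DiffContOnCl ℂ (fun z => F z / LFunction χ z) (ball s r) := by
    apply DifferentiableOn.diffContOnCl_ball (U := closedBall s r) _ subset_rfl
    intro z hz
    apply DifferentiableAt.differentiableWithinAt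
    refine (hF z ?_).1.div (differentiable_LFunction hχ).differentiableAt (hne z hz)
    rw [mem_closedBall_iff_norm] at hz
    linarith
  have hcauchy := Complex.norm_iteratedDeriv_le_of_forall_mem_sphere_norm_le (c := s) (R := r)
    (C := A * T * (2 * T ^ 6 / c)) k hr0' hDC ?_
  · refine hcauchy.trans (le_of_eq ?_)
    have e1 : Qc q s ^ (1 / 2 : ℝ) = T ^ (7 * k + 7) := by
      rw [hT, ← Real.rpow_natCast, ← Real.rpow_mul (by linarith), ek_mul]
    rw [e1, hr, div_pow, ← pow_mul]
    field_simp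
    ring
  · intro z hz
    have hz' : z ∈ closedBall s r := sphere_subset_closedBall hz
    have h3 := hdisc z hz'
    rw [mem_sphere_iff_norm] at hz
    have h4 := (hF z (by linarith)).2
    rw [norm_div, div_le_iff₀ (norm_pos_iff.mpr (hne z hz'))]
    calc ‖F z‖ ≤ A * T := h4
      _ = A * T * (2 * T ^ 6 / c) * (c / (2 * T ^ 6)) := by field_simp
      _ ≤ A * T * (2 * T ^ 6 / c) * ‖LFunction χ z‖ := by gcongr

/-- derivatives of `1 / L` -/
theorem inv_deriv_bound (hS : SiegelProp) (k : ℕ) : ∃ C : ℝ, 0 < C ∧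
    ∀ (q : ℕ) [NeZero q] (χ : DirichletCharacter ℂ q), χ ≠ 1 → ∀ (s : ℂ),
      1 < s.re → s.re ≤ 2 →
      ‖iteratedDeriv k (fun z => (LFunction χ z)⁻¹) s‖ ≤ C * Qc q s ^ (1 / 2 : ℝ) := by
  obtain ⟨C, hC, h⟩ := quot_deriv_bound hS k
  refine ⟨C, hC, fun q _ χ hχ s h1 h2 => ?_⟩
  have hq : 1 ≤ q := Nat.one_le_iff_ne_zero.mpr (NeZero.ne q)
  have hQ2 := Qc_ge hq s
  have := h q χ hχ (fun _ => 1) 1 s h1 h2 ?_
  · simpa using this
  · intro z _
    refine ⟨differentiableAt_const _, ?_⟩
    rw [norm_one, one_mul]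
    exact Real.one_le_rpow (by linarith) (ek_pos k).le

/-- derivatives of `L' / L` -/
theorem logDeriv_deriv_bound (hS : SiegelProp) (k : ℕ) : ∃ C : ℝ, 0 < C ∧
    ∀ (q : ℕ) [NeZero q] (χ : DirichletCharacter ℂ q), χ ≠ 1 → ∀ (s : ℂ),
      1 < s.re → s.re ≤ 2 →
      ‖iteratedDeriv k (fun z => deriv (LFunction χ) z / LFunction χ z) s‖ ≤
        C * Qc q s ^ (1 / 2 : ℝ) := by
  obtain ⟨C, hC, h⟩ := quot_deriv_bound hS k
  have hCd := Cd_ge (ek_pos k) (ek_le k)
  refine ⟨C * (2 * Cd (ek k)), by positivity, fun q _ χ hχ s h1 h2 => ?_⟩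
  have hη := ek_pos k
  have hη1 := ek_le k
  refine h q χ hχ (deriv (LFunction χ)) (2 * Cd (ek k)) s h1 h2 ?_
  intro z hz
  refine ⟨?_, ?_⟩
  · exact ((differentiable_LFunction hχ).contDiff (n := 2)).differentiable_deriv_two z
  · have hre : |z.re - s.re| ≤ ek k / 4 := by
      have := Complex.abs_re_le_norm (z - s)
      rw [Complex.sub_re] at this
      linarith
    rw [abs_le] at hre
    refine (L_deriv_bound hη hη1 hχ (by linarith [hre.1]) (by linarith [hre.2])).trans ?_
    have := Qc_rpow_near (q := q) (s := s) (z := z) (by linarith) hη.le (by linarith)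
    calc Cd (ek k) * Qc q z ^ ek k ≤ Cd (ek k) * (2 * Qc q s ^ ek k) := by gcongr
      _ = _ := by ring

end

end Crest.Agent.SW
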