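import Crest.Agent.SW.LBound259

/-!
# Siegel–Walfisz library: lower bounds for `L(s, χ)` on `Re s > 1` (helper259)
-/

set_option autoImplicit false
set_option maxHeartbeats 1000000

open Complex

namespace Crest.Agent.SW

noncomputable section

open DirichletCharacter

theorem Qc_near {q : ℕ} {s z : ℂ} (h : ‖z - s‖ ≤ 1) : Qc q z ≤ 2 * Qc q s := by
  unfold Qc
  have h1 : |z.im| ≤ |s.im| + 1 := by
    have h2 : |z.im - s.im| ≤ 1 := by
      have := Complex.abs_im_le_norm (z - s)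
      rw [Complex.sub_im] at this
      linarith
    have h3 := abs_sub_abs_le_abs_sub z.im s.im
    linarith
  have h4 : (0 : ℝ) ≤ q := Nat.cast_nonneg q
  have h5 : 0 ≤ |s.im| := abs_nonneg _
  calc (q : ℝ) * (2 + |z.im|) ≤ q * (2 * (2 + |s.im|)) := by gcongr; linarith
    _ = _ := by ring

theorem Qc_rpow_near {q : ℕ} {s z : ℂ} (h : ‖z - s‖ ≤ 1) {η : ℝ} (hη : 0 ≤ η) (hη1 : η ≤ 1) :
    Qc q z ^ η ≤ 2 * Qc q s ^ η := by
  have h0 : 0 ≤ Qc q z := by unfold Qc; positivity
  have h1 : 0 ≤ Qc q s := by unfold Qc; positivity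
  calc Qc q z ^ η ≤ (2 * Qc q s) ^ η := Real.rpow_le_rpow h0 (Qc_near h) hη
    _ = 2 ^ η * Qc q s ^ η := Real.mul_rpow (by norm_num) h1
    _ ≤ 2 * Qc q s ^ η := by
        have : (2 : ℝ) ^ η ≤ 2 ^ (1 : ℝ) := Real.rpow_le_rpow_of_exponent_le (by norm_num) hη1
        rw [Real.rpow_one] at this
        gcongr

/-- constant in the derivative bound -/
def Cd (η : ℝ) : ℝ := 8 * (1 / η + 4) / η

theorem Cd_ge {η : ℝ} (hη : 0 < η) (hη1 : η ≤ 1 / 2) : 1 ≤ Cd η := by
  unfold Cd
  rw [le_div_iff₀ hη]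
  have : 0 < 1 / η := by positivity
  linarith

theorem L_deriv_bound {η : ℝ} (hη : 0 < η) (hη1 : η ≤ 1 / 2) {q : ℕ} [NeZero q]
    {χ : DirichletCharacter ℂ q} (hχ : χ ≠ 1) {s : ℂ} (h1 : 1 - η / 2 ≤ s.re) (h3 : s.re ≤ 5 / 2) :
    ‖deriv (LFunction χ) s‖ ≤ Cd η * Qc q s ^ η := by
  have h := Complex.norm_deriv_le_of_forall_mem_sphere_norm_le (c := s) (R := η / 2)
    (C := 2 * (1 / η + 4) * (2 * Qc q s ^ η)) (f := LFunction χ) (by positivity)
    (differentiable_LFunction hχ).diffContOnCl ?_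
  · refine h.trans (le_of_eq ?_)
    unfold Cd
    field_simp
    ring
  · intro z hz
    rw [mem_sphere_iff_norm] at hz
    have hre : |z.re - s.re| ≤ η / 2 := by
      have := Complex.abs_re_le_norm (z - s)
      rw [Complex.sub_re] at this
      linarith
    rw [abs_le] at hre
    refine (L_bound hη hη1 hχ (s := z) (by linarith [hre.1]) (by linarith [hre.2])).trans ?_
    have hη' : 0 < 1 / η := by positivity
    have := Qc_rpow_near (q := q) (s := s) (z := z) (by linarith) hη.le (by linarith)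
    gcongr

/-- the value at a real point of the principal character -/
theorem norm_LSeries_le_zeta {a : ℕ → ℂ} (ha : ∀ n, ‖a n‖ ≤ 1) {s : ℂ} (h1 : 1 < s.re)
    (h2 : s.re ≤ 2) : ‖LSeries a s‖ ≤ 8 / (s.re - 1) := by
  have hs : LSeriesSummable a s := LSeriesSummable_of_bounded_of_one_lt_re (m := 1)
    (fun n _ => ha n) h1
  have hz : LSeriesSummable (1 : ℕ → ℂ) s.re := LSeriesSummable_one_iff.mpr (by simpa using h1)
  have h3 : ‖LSeries a s‖ ≤ ∑' n, ‖LSeries.term (1 : ℕ → ℂ) s.re n‖ := by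
    unfold LSeries
    refine (norm_tsum_le_tsum_norm hs.norm).trans ?_
    refine Summable.tsum_le_tsum (fun n => ?_) hs.norm hz.norm
    rw [LSeries.norm_term_eq, LSeries.norm_term_eq]
    by_cases hn : n = 0
    · simp [hn]
    · rw [if_neg hn, if_neg hn]
      simp only [Pi.one_apply, norm_one, Complex.ofReal_re]
      gcongr
      exact ha n
  have h4 : ∑' n, ‖LSeries.term (1 : ℕ → ℂ) s.re n‖ = ‖LSeries (1 : ℕ → ℂ) (s.re : ℂ)‖ := by
    have h5 : ∀ n, LSeries.term (1 : ℕ → ℂ) s.re n = ((‖LSeries.term (1 : ℕ → ℂ) s.re n‖ : ℝ) : ℂ) := by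
      intro n
      by_cases hn : n = 0
      · simp [hn]
      · rw [LSeries.norm_term_eq, if_neg hn, LSeries.term_of_ne_zero hn]
        simp only [Pi.one_apply, norm_one, Complex.ofReal_re]
        push_cast
        rw [Complex.ofReal_cpow (Nat.cast_nonneg n)]
        simp
    have h6 : LSeries (1 : ℕ → ℂ) (s.re : ℂ) = ((∑' n, ‖LSeries.term (1 : ℕ → ℂ) s.re n‖ : ℝ) : ℂ) := by
      unfold LSeries
      rw [Complex.ofReal_tsum]
      exact tsum_congr h5
    rw [h6, Complex.norm_real, Real.norm_of_nonneg (tsum_nonneg fun n => norm_nonneg _)]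
  rw [h4, LSeries_one_eq_riemannZeta (by simpa using h1)] at h3
  refine h3.trans ?_
  have hs1 : (s.re : ℂ) ≠ 1 := by
    intro h
    have : s.re = 1 := by exact_mod_cast h
    linarith
  have hb := Crest.Agent.R001.SW.norm_zeta1_le (s := (s.re : ℂ)) (by simp; linarith)
  have hzz : riemannZeta₁ (s.re : ℂ) = ((s.re : ℂ) - 1) * riemannZeta (s.re : ℂ) := by
    rw [riemannZeta_eq_inv_sub_mul hs1, ← mul_assoc, mul_inv_cancel₀ (sub_ne_zero.mpr hs1), one_mul]
  have hn1 : ‖(s.re : ℂ) - 1‖ = s.re - 1 := by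
    rw [show (s.re : ℂ) - 1 = ((s.re - 1 : ℝ) : ℂ) by push_cast; ring, Complex.norm_real,
      Real.norm_of_nonneg (by linarith)]
  have hn2 : ‖(s.re : ℂ)‖ = s.re := by
    rw [Complex.norm_real, Real.norm_of_nonneg (by linarith)]
  rw [hzz, norm_mul, hn1, hn2, Complex.ofReal_re] at hb
  rw [le_div_iff₀ (by linarith)]
  have h7 : (s.re - 1) * s.re * (1 + 1 / s.re) = (s.re - 1) * (s.re + 1) := by
    have : s.re ≠ 0 := by linarith
    field_simp
  rw [h7] at hb
  nlinarith

/-- trivial lower bound -/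
theorem L_trivial_lower {q : ℕ} [NeZero q] (χ : DirichletCharacter ℂ q) {s : ℂ} (h1 : 1 < s.re)
    (h2 : s.re ≤ 2) : (s.re - 1) / 8 ≤ ‖LFunction χ s‖ := by
  have h := DirichletCharacter.LSeries.mul_mu_eq_one χ h1
  rw [← LFunction_eq_LSeries χ h1] at h
  have h3 := norm_LSeries_le_zeta (a := (fun n : ℕ => χ (n : ZMod q)) * (fun n : ℕ => ((ArithmeticFunction.moebius n : ℤ) : ℂ)))
    (s := s) ?_ h1 h2
  · have h4 : ‖LFunction χ s‖ * ‖LSeries ((fun n : ℕ => χ (n : ZMod q)) * (fun n : ℕ => ((ArithmeticFunction.moebius n : ℤ) : ℂ))) s‖ = 1 := by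
      rw [← norm_mul, h, norm_one]
    have h5 : 0 ≤ ‖LFunction χ s‖ := norm_nonneg _
    have h6 : 1 ≤ ‖LFunction χ s‖ * (8 / (s.re - 1)) :=
      h4.symm.le.trans (mul_le_mul_of_nonneg_left h3 h5)
    rw [← mul_div_assoc, le_div_iff₀ (by linarith)] at h6
    linarith
  · intro n
    rw [Pi.mul_apply, norm_mul]
    have h7 : ‖((ArithmeticFunction.moebius n : ℤ) : ℂ)‖ ≤ 1 := by
      rw [Complex.norm_intCast]
      exact_mod_cast ArithmeticFunction.abs_moebius_le_one
    calc _ ≤ (1 : ℝ) * 1 := by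
          apply mul_le_mul (χ.norm_le_one _) h7 (norm_nonneg _) (by norm_num)
      _ = 1 := by norm_num

/-- core 3-4-1 argument -/
theorem core {q : ℕ} [NeZero q] {χ : DirichletCharacter ℂ q} (hχ : χ ≠ 1) (t : ℝ) {M M' : ℝ}
    (hM1 : 1 ≤ M) (hM1' : 1 ≤ M')
    (hM : ∀ s : ℂ, 1 < s.re → s.re ≤ 2 → s.im = 2 * t → ‖LFunction (χ ^ 2) s‖ ≤ M)
    (hM' : ∀ s : ℂ, 1 < s.re → s.re ≤ 2 → s.im = t → ‖deriv (LFunction χ) s‖ ≤ M')
    {s : ℂ} (h1 : 1 < s.re) (h2 : s.re ≤ 2) (him : s.im = t) :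
    1 / (8192 * M * M' ^ 3) ≤ ‖LFunction χ s‖ := by
  -- the 3-4-1 inequality
  have key : ∀ x : ℝ, 0 < x → x ≤ 1 → ∀ z : ℂ, z = 1 + x + I * t →
      x ^ 3 / (512 * M) ≤ ‖LFunction χ z‖ ^ 4 := by
    intro x hx hx1 z hz
    have h := norm_LFunction_product_ge_one χ hx t
    rw [← hz] at h
    rw [norm_mul, norm_mul, norm_pow, norm_pow] at h
    have hA : ‖LFunctionTrivChar q (1 + x)‖ ≤ 8 / x := by
      have h3 : (1 : ℝ) < ((1 : ℂ) + x).re := by simp; exact hx
      rw [LFunctionTrivChar, LFunction_eq_LSeries _ h3]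
      have := norm_LSeries_le_zeta (a := fun n : ℕ => (1 : DirichletCharacter ℂ q) (n : ZMod q))
        (s := (1 : ℂ) + x) (fun n => norm_le_one _ _) h3 (by simp; linarith)
      simpa using this
    have hB : ‖LFunction (χ ^ 2) (1 + x + 2 * I * t)‖ ≤ M := by
      apply hM
      · simp; exact hx
      · simp; linarith
      · simp
    have h5 : 1 ≤ (8 / x) ^ 3 * ‖LFunction χ z‖ ^ 4 * M := by
      refine h.le.trans ?_
      gcongr
    rw [div_le_iff₀ (by positivity)]
    have hx3 : 0 < x ^ 3 := by positivity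
    calc x ^ 3 = x ^ 3 * 1 := (mul_one _).symm
      _ ≤ x ^ 3 * ((8 / x) ^ 3 * ‖LFunction χ z‖ ^ 4 * M) := by gcongr
      _ = ‖LFunction χ z‖ ^ 4 * (512 * M) := by
          field_simp
          ring
  -- the choice of y
  set y : ℝ := 1 / (8192 * M * M' ^ 4) with hy
  have hMM : 0 < 8192 * M * M' ^ 4 := by positivity
  have hy0 : 0 < y := by positivity
  have hy1 : y ≤ 1 := by
    rw [hy, div_le_one hMM]
    have : 1 ≤ M' ^ 4 := one_le_pow₀ hM1'
    nlinarith
  have hyM : M' * y = 1 / (8192 * M * M' ^ 3) := by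
    rw [hy]
    field_simp
  have hkey2 : ∀ x : ℝ, y ≤ x → x ≤ 1 → ∀ z : ℂ, z = 1 + x + I * t → 2 * M' * y ≤ ‖LFunction χ z‖ := by
    intro x hxy hx1 z hz
    have h := key x (by linarith) hx1 z hz
    have h3 : (2 * M' * y) ^ 4 ≤ ‖LFunction χ z‖ ^ 4 := by
      refine le_trans ?_ h
      have h4 : (2 * M' * y) ^ 4 = y ^ 3 / (512 * M) := by
        have e : y ^ 4 = y ^ 3 * (1 / (8192 * M * M' ^ 4)) := by rw [← hy]; ring
        rw [mul_pow, e]
        field_simp
        ring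
      rw [h4]
      gcongr
    exact (pow_le_pow_iff_left₀ (by positivity) (norm_nonneg _) (by norm_num)).mp h3
  rw [← hyM]
  have hs : s = 1 + ((s.re - 1 : ℝ) : ℂ) + I * t := by
    apply Complex.ext
    · simp
    · simp [him]
  rcases le_or_gt y (s.re - 1) with h | h
  · have := hkey2 (s.re - 1) h (by linarith) s hs
    have : 0 < M' * y := by positivity
    linarith
  · set w : ℂ := 1 + (y : ℂ) + I * t with hw
    have hwv := hkey2 y le_rfl hy1 w hw
    have hseg : ∀ z ∈ segment ℝ s w, 1 < z.re ∧ z.re ≤ 2 ∧ z.im = t := by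
      intro z hz
      obtain ⟨a, b, ha, hb, hab, rfl⟩ := hz
      have hwre : w.re = 1 + y := by simp [hw]
      have hwim : w.im = t := by simp [hw]
      refine ⟨?_, ?_, ?_⟩
      · simp only [Complex.add_re, Complex.real_smul, Complex.re_ofReal_mul, hwre]
        rcases eq_or_lt_of_le ha with h0 | h0
        · rw [← h0] at hab ⊢
          have : b = 1 := by linarith
          rw [this]; linarith
        · nlinarith
      · simp only [Complex.add_re, Complex.real_smul, Complex.re_ofReal_mul, hwre]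
        nlinarith
      · simp only [Complex.add_im, Complex.real_smul, Complex.im_ofReal_mul, hwim, him]
        rw [← add_mul, hab, one_mul]
    have hdiff := Convex.norm_image_sub_le_of_norm_deriv_le (𝕜 := ℂ) (f := LFunction χ) (C := M')
      (s := segment ℝ s w) (x := w) (y := s)
      (fun z _ => (differentiable_LFunction hχ).differentiableAt)
      (fun z hz => hM' z (hseg z hz).1 (hseg z hz).2.1 (hseg z hz).2.2)
      (convex_segment s w) (right_mem_segment ℝ s w) (left_mem_segment ℝ s w)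
    have hsw : ‖s - w‖ ≤ y := by
      have : s - w = ((s.re - 1 - y : ℝ) : ℂ) := by
        nth_rewrite 1 [hs]
        rw [hw]
        push_cast
        ring
      rw [this, Complex.norm_real, Real.norm_eq_abs, abs_le]
      constructor <;> linarith
    have h3 : ‖LFunction χ w‖ - ‖LFunction χ s‖ ≤ ‖LFunction χ s - LFunction χ w‖ := by
      rw [norm_sub_rev]
      exact norm_sub_norm_le _ _
    have h4 : M' * ‖s - w‖ ≤ M' * y := by gcongr
    linarith

end

end Crest.Agent.SW
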