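import Crest.Agent.SW.LLower259

/-!
# Siegel–Walfisz library: `|L(s, χ)| ≥ c (q(2+|t|))^{-δ}` on `Re s > 1`, given Siegel's theorem
-/

set_option autoImplicit false
set_option maxHeartbeats 1000000

open Complex

namespace Crest.Agent.SW

noncomputable section

open DirichletCharacter

/-- Siegel's theorem as a proposition (proved by helper301) -/
def SiegelProp : Prop := ∀ e : ℝ, 0 < e → ∃ c : ℝ, 0 < c ∧ ∀ (q : ℕ) [NeZero q]
  (χ : DirichletCharacter ℂ q), χ ^ 2 = 1 → χ ≠ 1 → c * (q : ℝ) ^ (-e) ≤ (LFunction χ 1).re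

theorem Qc_double {q : ℕ} {s z : ℂ} (h : z.im = 2 * s.im) {η : ℝ} (hη : 0 ≤ η) (hη1 : η ≤ 1) :
    Qc q z ^ η ≤ 2 * Qc q s ^ η := by
  have h0 : 0 ≤ Qc q z := by unfold Qc; positivity
  have h1 : 0 ≤ Qc q s := by unfold Qc; positivity
  have h2 : Qc q z ≤ 2 * Qc q s := by
    unfold Qc
    rw [h, abs_mul, abs_two]
    have h4 : (0 : ℝ) ≤ q := Nat.cast_nonneg q
    calc (q : ℝ) * (2 + 2 * |s.im|) ≤ q * (2 * (2 + |s.im|)) := by gcongr; linarith
      _ = _ := by ring
  calc Qc q z ^ η ≤ (2 * Qc q s) ^ η := Real.rpow_le_rpow h0 h2 hη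
    _ = 2 ^ η * Qc q s ^ η := Real.mul_rpow (by norm_num) h1
    _ ≤ 2 * Qc q s ^ η := by
        have : (2 : ℝ) ^ η ≤ 2 ^ (1 : ℝ) := Real.rpow_le_rpow_of_exponent_le (by norm_num) hη1
        rw [Real.rpow_one] at this
        gcongr

theorem Qc_im {q : ℕ} {s z : ℂ} (h : z.im = s.im) : Qc q z = Qc q s := by
  unfold Qc
  rw [h]

theorem L_lower_nonquad {η : ℝ} (hη : 0 < η) (hη1 : η ≤ 1 / 2) {q : ℕ} [NeZero q]
    {χ : DirichletCharacter ℂ q} (hχ : χ ≠ 1) (hχ2 : χ ^ 2 ≠ 1) {s : ℂ} (h1 : 1 < s.re)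
    (h2 : s.re ≤ 2) :
    1 / (8192 * (4 * (1 / η + 4)) * Cd η ^ 3 * (Qc q s ^ η) ^ 4) ≤ ‖LFunction χ s‖ := by
  have hq : 1 ≤ q := Nat.one_le_iff_ne_zero.mpr (NeZero.ne q)
  have hQ2 := Qc_ge hq s
  have hT : 1 ≤ Qc q s ^ η := Real.one_le_rpow (by linarith) hη.le
  have hη' : 0 < 1 / η := by positivity
  have hCd := Cd_ge hη hη1
  have h := core hχ s.im (M := 4 * (1 / η + 4) * Qc q s ^ η) (M' := Cd η * Qc q s ^ η)
    (by nlinarith) (by nlinarith) ?_ ?_ h1 h2 rfl
  · refine le_trans (le_of_eq ?_) h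
    congr 1
    ring
  · intro z hz1 hz2 hz3
    refine (L_bound hη hη1 hχ2 (by linarith) (by linarith)).trans ?_
    have := Qc_double (q := q) hz3 hη.le (by linarith)
    calc 2 * (1 / η + 4) * Qc q z ^ η ≤ 2 * (1 / η + 4) * (2 * Qc q s ^ η) := by gcongr
      _ = _ := by ring
  · intro z hz1 hz2 hz3
    refine (L_deriv_bound hη hη1 hχ (by linarith) (by linarith)).trans ?_
    rw [Qc_im hz3]

theorem L_lower_quad {η : ℝ} (hη : 0 < η) (hη1 : η ≤ 1 / 2) {c0 : ℝ} (hc0 : 0 < c0) (hc1 : c0 ≤ 1)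
    {q : ℕ} [NeZero q]
    {χ : DirichletCharacter ℂ q} (hχ : χ ≠ 1) (hχ2 : χ ^ 2 = 1)
    (hS : c0 * (q : ℝ) ^ (-η) ≤ (LFunction χ 1).re)
    {s : ℂ} (h1 : 1 < s.re) (h2 : s.re ≤ 2) :
    c0 / (10000000 * (1 / η + 4) * Cd η ^ 4 * (Qc q s ^ η) ^ 6) ≤ ‖LFunction χ s‖ := by
  have hq : 1 ≤ q := Nat.one_le_iff_ne_zero.mpr (NeZero.ne q)
  have hqR : (1 : ℝ) ≤ q := by exact_mod_cast hq
  have hQ2 := Qc_ge hq s
  set T := Qc q s ^ η with hTdef
  set u := (q : ℝ) ^ η with hu
  have hu1 : 1 ≤ u := Real.one_le_rpow hqR hη.le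
  have huT : u ≤ T := by
    apply Real.rpow_le_rpow (by linarith) _ hη.le
    unfold Qc
    nlinarith [abs_nonneg s.im]
  have hT : 1 ≤ T := hu1.trans huT
  have hη' : 0 < 1 / η := by positivity
  have hCd := Cd_ge hη hη1
  have hun : (q : ℝ) ^ (-η) = u⁻¹ := by rw [hu, Real.rpow_neg (by linarith)]
  rw [hun] at hS
  set c1 : ℝ := c0 / (12 * Cd η) with hc1d
  have hc10 : 0 < c1 := by positivity
  have hc11 : c1 ≤ 1 / 12 := by
    rw [hc1d, div_le_div_iff₀ (by positivity) (by norm_num)]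
    nlinarith
  set y : ℝ := c1 / u ^ 2 with hy
  have hu2 : 1 ≤ u ^ 2 := one_le_pow₀ hu1
  have hy0 : 0 < y := by positivity
  have hy1 : y ≤ 1 / 12 := by
    rw [hy]
    exact (div_le_self hc10.le hu2).trans hc11
  have hT6 : T ^ 2 ≤ T ^ 6 := pow_le_pow_right₀ hT (by norm_num)
  have hT2 : u ^ 2 ≤ T ^ 2 := by gcongr
  have hCd4 : Cd η ≤ Cd η ^ 4 := by
    calc Cd η = Cd η ^ 1 := (pow_one _).symm
      _ ≤ Cd η ^ 4 := pow_le_pow_right₀ hCd (by norm_num)
  rcases le_or_gt y (s.re - 1) with hb | hb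
  · -- trivial bound
    refine le_trans ?_ (L_trivial_lower χ h1 h2)
    refine le_trans ?_ (div_le_div_of_nonneg_right hb (by norm_num : (0 : ℝ) ≤ 8))
    rw [hy, hc1d, div_div, div_div, div_le_div_iff_of_pos_left hc0 (by positivity) (by positivity)]
    calc 12 * Cd η * (u ^ 2 * 8) = 96 * 1 * Cd η * u ^ 2 := by ring
      _ ≤ 10000000 * (1 / η + 4) * Cd η ^ 4 * T ^ 6 := by
          have : u ^ 2 ≤ T ^ 6 := hT2.trans hT6
          have : (1 : ℝ) ≤ 1 / η + 4 := by linarith
          gcongr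
          norm_num
  · rcases le_or_gt y |s.im| with hc | hc
    · -- 3-4-1 with the principal character
      have hM1 : 1 ≤ 4 * (6 / η + 20) * T * (T ^ 2 / c1) := by
        have h3 : 1 ≤ T ^ 2 / c1 := by
          rw [le_div_iff₀ hc10]
          nlinarith
        have h4 : (1 : ℝ) ≤ 4 * (6 / η + 20) := by
          have : 0 < 6 / η := by positivity
          linarith
        calc (1 : ℝ) = 1 * 1 * 1 := by norm_num
          _ ≤ 4 * (6 / η + 20) * T * (T ^ 2 / c1) := by gcongr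
      have h := core hχ s.im (M := 4 * (6 / η + 20) * T * (T ^ 2 / c1)) (M' := Cd η * T)
        hM1 (by nlinarith) ?_ ?_ h1 h2 rfl
      · refine le_trans ?_ h
        have e1 : 1 / (8192 * (4 * (6 / η + 20) * T * (T ^ 2 / c1)) * (Cd η * T) ^ 3) =
            c0 / (8192 * (4 * (6 / η + 20)) * (12 * Cd η) * Cd η ^ 3 * T ^ 6) := by
          rw [hc1d]
          field_simp
        rw [e1, div_le_div_iff_of_pos_left hc0 (by positivity) (by positivity)]
        have e2 : 8192 * (4 * (6 / η + 20)) * (12 * Cd η) * Cd η ^ 3 * T ^ 6 =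
            (8192 * 48 * (6 * (1 / η) + 20)) * Cd η ^ 4 * T ^ 6 := by ring
        rw [e2]
        have e3 : (8192 * 48 * (6 * (1 / η) + 20) : ℝ) ≤ 10000000 * (1 / η + 4) := by linarith
        exact mul_le_mul_of_nonneg_right (mul_le_mul_of_nonneg_right e3 (by positivity))
          (by positivity)
      · intro z hz1 hz2 hz3
        rw [hχ2]
        refine (L0_bound hη hη1 hz1 (by linarith)).trans ?_
        have h3 := Qc_double (q := q) hz3 hη.le (by linarith)
        rw [← hTdef] at h3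
        have h4 : 1 / ‖z - 1‖ ≤ 1 / y := by
          apply one_div_le_one_div_of_le hy0
          have := Complex.abs_im_le_norm (z - 1)
          rw [Complex.sub_im, Complex.one_im, sub_zero, hz3, abs_mul, abs_two] at this
          linarith
        have h5 : 1 + 1 / ‖z - 1‖ ≤ 2 * (T ^ 2 / c1) := by
          have h6 : 1 / y = u ^ 2 / c1 := by rw [hy]; field_simp
          have h7 : 1 ≤ u ^ 2 / c1 := by
            rw [le_div_iff₀ hc10]
            nlinarith
          have h8 : u ^ 2 / c1 ≤ T ^ 2 / c1 := by gcongr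
          linarith
        have h9 : 0 < 6 / η := by positivity
        calc (6 / η + 20) * Qc q z ^ η * (1 + 1 / ‖z - 1‖) ≤
            (6 / η + 20) * (2 * T) * (2 * (T ^ 2 / c1)) := by gcongr
          _ = _ := by ring
      · intro z hz1 hz2 hz3
        refine (L_deriv_bound hη hη1 hχ (by linarith) (by linarith)).trans ?_
        rw [Qc_im hz3]
    · -- near s = 1: Siegel
      have hseg : ∀ z ∈ segment ℝ (1 : ℂ) s, 1 ≤ z.re ∧ z.re ≤ 2 ∧ |z.im| ≤ 1 := by
        intro z hz
        obtain ⟨a, b, ha, hb', hab, rfl⟩ := hz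
        refine ⟨?_, ?_, ?_⟩
        · simp only [Complex.add_re, Complex.real_smul, Complex.re_ofReal_mul, Complex.one_re]
          nlinarith
        · simp only [Complex.add_re, Complex.real_smul, Complex.re_ofReal_mul, Complex.one_re]
          nlinarith
        · simp only [Complex.add_im, Complex.real_smul, Complex.im_ofReal_mul, Complex.one_im,
            mul_zero, zero_add, abs_mul, abs_of_nonneg hb']
          have : b ≤ 1 := by linarith
          nlinarith [abs_nonneg s.im]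
      have hdiff := Convex.norm_image_sub_le_of_norm_deriv_le (𝕜 := ℂ) (f := LFunction χ)
        (C := Cd η * (3 * u)) (s := segment ℝ (1 : ℂ) s) (x := 1) (y := s)
        (fun z _ => (differentiable_LFunction hχ).differentiableAt)
        (fun z hz => ?_)
        (convex_segment 1 s) (left_mem_segment ℝ 1 s) (right_mem_segment ℝ 1 s)
      · have hsn : ‖s - 1‖ ≤ 2 * y := by
          refine (Complex.norm_le_abs_re_add_abs_im _).trans ?_
          rw [Complex.sub_re, Complex.sub_im, Complex.one_re, Complex.one_im, sub_zero,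
            abs_of_nonneg (by linarith)]
          linarith
        have h3 : ‖LFunction χ 1‖ - ‖LFunction χ s‖ ≤ ‖LFunction χ s - LFunction χ 1‖ := by
          rw [norm_sub_rev]
          exact norm_sub_norm_le _ _
        have h4 : c0 * u⁻¹ ≤ ‖LFunction χ 1‖ := hS.trans (Complex.re_le_norm _)
        have h5 : Cd η * (3 * u) * ‖s - 1‖ ≤ c0 * u⁻¹ / 2 := by
          calc Cd η * (3 * u) * ‖s - 1‖ ≤ Cd η * (3 * u) * (2 * y) := by gcongr
            _ = c0 * u⁻¹ / 2 := by
                rw [hy, hc1d]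
                field_simp
                norm_num
        have h6 : c0 * u⁻¹ / 2 ≤ ‖LFunction χ s‖ := by linarith
        refine le_trans ?_ h6
        rw [← div_eq_mul_inv, div_div, div_le_div_iff_of_pos_left hc0 (by positivity) (by positivity)]
        have h7 : u ≤ T ^ 6 := by
          calc u ≤ T := huT
            _ = T ^ 1 := (pow_one _).symm
            _ ≤ T ^ 6 := pow_le_pow_right₀ hT (by norm_num)
        have h8 : 1 ≤ Cd η ^ 4 := one_le_pow₀ hCd
        calc u * 2 = 2 * 1 * 1 * u := by ring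
          _ ≤ 10000000 * (1 / η + 4) * Cd η ^ 4 * T ^ 6 := by
              have : (1 : ℝ) ≤ 1 / η + 4 := by linarith
              gcongr
              norm_num
      · obtain ⟨hz1, hz2, hz3⟩ := hseg z hz
        refine (L_deriv_bound hη hη1 hχ (by linarith) (by linarith)).trans ?_
        have h3 : Qc q z ^ η ≤ 3 * u := by
          have h0 : 0 ≤ Qc q z := by unfold Qc; positivity
          calc Qc q z ^ η ≤ (3 * (q : ℝ)) ^ η := by
                apply Real.rpow_le_rpow h0 _ hη.le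
                unfold Qc
                nlinarith
            _ = 3 ^ η * u := Real.mul_rpow (by norm_num) (by linarith)
            _ ≤ 3 * u := by
                have : (3 : ℝ) ^ η ≤ 3 ^ (1 : ℝ) :=
                  Real.rpow_le_rpow_of_exponent_le (by norm_num) (by linarith)
                rw [Real.rpow_one] at this
                gcongr
        gcongr

/-- the lower bound, conditional on Siegel's theorem -/
theorem L_lower (hS : SiegelProp) {η : ℝ} (hη : 0 < η) (hη1 : η ≤ 1 / 2) :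
    ∃ c : ℝ, 0 < c ∧ ∀ (q : ℕ) [NeZero q] (χ : DirichletCharacter ℂ q), χ ≠ 1 → ∀ s : ℂ,
      1 < s.re → s.re ≤ 2 → c / (Qc q s ^ η) ^ 6 ≤ ‖LFunction χ s‖ := by
  obtain ⟨c0, hc0, hc⟩ := hS η hη
  set c0' := min c0 1 with hc0'
  have hc0'0 : 0 < c0' := lt_min hc0 one_pos
  have hη' : 0 < 1 / η := by positivity
  have hCd := Cd_ge hη hη1
  refine ⟨c0' / (10000000 * (1 / η + 4) * Cd η ^ 4), by positivity, ?_⟩
  intro q _ χ hχ s h1 h2
  have hq : 1 ≤ q := Nat.one_le_iff_ne_zero.mpr (NeZero.ne q)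
  have hQ2 := Qc_ge hq s
  have hT : 1 ≤ Qc q s ^ η := Real.one_le_rpow (by linarith) hη.le
  rw [div_div]
  by_cases hχ2 : χ ^ 2 = 1
  · have h3 : c0' * (q : ℝ) ^ (-η) ≤ (LFunction χ 1).re := by
      refine le_trans ?_ (hc q χ hχ2 hχ)
      gcongr
      exact min_le_left _ _
    exact L_lower_quad hη hη1 hc0'0 (min_le_right _ _) hχ hχ2 h3 h1 h2
  · refine le_trans ?_ (L_lower_nonquad hη hη1 hχ hχ2 h1 h2)
    apply div_le_div₀ zero_le_one (min_le_right _ _) (by positivity)
    have h4 : (Qc q s ^ η) ^ 4 ≤ (Qc q s ^ η) ^ 6 := pow_le_pow_right₀ hT (by norm_num)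
    have h5 : Cd η ^ 3 ≤ Cd η ^ 4 := pow_le_pow_right₀ hCd (by norm_num)
    have e3 : (8192 * (4 * (1 / η + 4)) : ℝ) ≤ 10000000 * (1 / η + 4) := by linarith
    exact mul_le_mul (mul_le_mul e3 h5 (by positivity) (by positivity)) h4 (by positivity)
      (by positivity)

end

end Crest.Agent.SW
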