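import Crest.Agent.SW.Final

/-!
# `λ` and `μ` in all residue classes
-/

namespace Crest.Agent.SW

open Finset

/-- summatory function of `λ` in a residue class -/
noncomputable def LsumAP (x : ℝ) (q : ℕ) (b : ℕ) : ℝ :=
  ∑ n ∈ (Icc 1 ⌊x⌋₊).filter (fun n => n ≡ b [MOD q]), lam n

/-- summatory function of `μ` in a residue class -/
noncomputable def MsumAP (x : ℝ) (q : ℕ) (b : ℕ) : ℝ :=
  ∑ n ∈ (Icc 1 ⌊x⌋₊).filter (fun n => n ≡ b [MOD q]), muR n

/-- coprime classes -/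
lemma LsumAP_coprime {x : ℝ} {q b : ℕ} (hq : 1 ≤ q) (hb : b.Coprime q) {E : ℝ}
    (h : ∀ χ : DirichletCharacter ℂ q, ‖∑ n ∈ Icc 1 ⌊x⌋₊, ((lam n : ℝ) : ℂ) * χ n‖ ≤ E) :
    |LsumAP x q b| ≤ E := by
  have : NeZero q := ⟨by omega⟩
  have h1 := AP301.progression_eq (fun n => ((lam n : ℝ) : ℂ)) ⌊x⌋₊ hb
  have h2 : ∑ n ∈ (Icc 1 ⌊x⌋₊).filter (fun n => n ≡ b [MOD q]), ((lam n : ℝ) : ℂ) =
      ((LsumAP x q b : ℝ) : ℂ) := by unfold LsumAP; push_cast; rfl
  rw [h2] at h1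
  have htot : (0 : ℝ) < q.totient := by exact_mod_cast Nat.totient_pos.mpr (by omega)
  have h3 : ‖(q.totient : ℂ) * ((LsumAP x q b : ℝ) : ℂ)‖ ≤ q.totient * E := by
    rw [h1]
    refine (norm_sum_le _ _).trans ?_
    have h4 : ∀ χ ∈ (Finset.univ : Finset (DirichletCharacter ℂ q)),
        ‖χ ((b : ZMod q)⁻¹) * ∑ n ∈ Icc 1 ⌊x⌋₊, ((lam n : ℝ) : ℂ) * χ (n : ZMod q)‖ ≤ E := by
      intro χ _
      rw [norm_mul]
      have h5 : ‖χ ((b : ZMod q)⁻¹)‖ ≤ 1 := χ.norm_le_one _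
      calc ‖χ ((b : ZMod q)⁻¹)‖ * ‖∑ n ∈ Icc 1 ⌊x⌋₊, ((lam n : ℝ) : ℂ) * χ (n : ZMod q)‖
          ≤ 1 * E := by gcongr; exact h χ
        _ = E := one_mul E
    refine (Finset.sum_le_sum h4).trans ?_
    rw [Finset.sum_const, Finset.card_univ, nsmul_eq_mul]
    have hcard : Fintype.card (DirichletCharacter ℂ q) = q.totient := by
      rw [← Nat.card_eq_fintype_card]
      exact DirichletCharacter.card_eq_totient_of_hasEnoughRootsOfUnity ℂ q
    rw [hcard]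
  rw [norm_mul, Complex.norm_natCast, Complex.norm_real, Real.norm_eq_abs] at h3
  exact le_of_mul_le_mul_left h3 htot

/-- reduction to coprime classes -/
lemma LsumAP_gcd {x : ℝ} {q b : ℕ} (hq : 1 ≤ q) :
    LsumAP x q b = lam (Nat.gcd b q) *
      LsumAP (x / (Nat.gcd b q : ℕ)) (q / Nat.gcd b q) (b / Nat.gcd b q) := by
  set g := Nat.gcd b q with hg
  have hgpos : 0 < g := Nat.gcd_pos_of_pos_right b (by omega)
  have hgq : g ∣ q := Nat.gcd_dvd_right b q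
  have hgb : g ∣ b := Nat.gcd_dvd_left b q
  obtain ⟨q', hq'⟩ := hgq
  obtain ⟨b', hb'⟩ := hgb
  have e1 : q / g = q' := by rw [hq', Nat.mul_div_cancel_left _ hgpos]
  have e2 : b / g = b' := by
    conv_lhs => rw [hb']
    exact Nat.mul_div_cancel_left _ hgpos
  rw [e1, e2]
  unfold LsumAP
  rw [Nat.floor_div_natCast, Finset.mul_sum, Finset.sum_filter, Finset.sum_filter]
  rw [← sum_multiples ⌊x⌋₊ g hgpos (fun m => if m ≡ b' [MOD q'] then lam g * lam m else 0),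
    Finset.sum_filter]
  refine Finset.sum_congr rfl fun n _ => ?_
  by_cases hd : g ∣ n
  · rw [if_pos hd]
    obtain ⟨m, rfl⟩ := hd
    rw [Nat.mul_div_cancel_left _ hgpos]
    have : g * m ≡ b [MOD q] ↔ m ≡ b' [MOD q'] := by
      rw [hb', hq']
      exact Nat.ModEq.mul_left_cancel_iff' hgpos.ne'
    simp only [this, lam_mul]
  · rw [if_neg hd, if_neg]
    intro h
    apply hd
    have h2 : n ≡ b [MOD g] := h.of_dvd ⟨q', hq'⟩
    have h3 : g ∣ b := ⟨b', hb'⟩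
    exact (Nat.modEq_zero_iff_dvd.mp (h2.trans (Nat.modEq_zero_iff_dvd.mpr h3)))

lemma LsumAP_trivial {x : ℝ} (hx : 0 ≤ x) (q b : ℕ) : |LsumAP x q b| ≤ x := by
  unfold LsumAP
  calc |∑ n ∈ (Icc 1 ⌊x⌋₊).filter (fun n => n ≡ b [MOD q]), lam n|
      ≤ ∑ n ∈ (Icc 1 ⌊x⌋₊).filter (fun n => n ≡ b [MOD q]), |lam n| :=
        Finset.abs_sum_le_sum_abs _ _
    _ ≤ ∑ n ∈ (Icc 1 ⌊x⌋₊).filter (fun n => n ≡ b [MOD q]), (1 : ℝ) :=
        Finset.sum_le_sum fun n _ => abs_lam_le n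
    _ ≤ ∑ n ∈ Icc 1 ⌊x⌋₊, (1 : ℝ) :=
        Finset.sum_le_sum_of_subset_of_nonneg (filter_subset _ _) fun _ _ _ => zero_le_one
    _ = ⌊x⌋₊ := by simp
    _ ≤ x := Nat.floor_le hx

lemma MsumAP_trivial {x : ℝ} (hx : 0 ≤ x) (q b : ℕ) : |MsumAP x q b| ≤ x := by
  unfold MsumAP
  calc |∑ n ∈ (Icc 1 ⌊x⌋₊).filter (fun n => n ≡ b [MOD q]), muR n|
      ≤ ∑ n ∈ (Icc 1 ⌊x⌋₊).filter (fun n => n ≡ b [MOD q]), |muR n| :=
        Finset.abs_sum_le_sum_abs _ _
    _ ≤ ∑ n ∈ (Icc 1 ⌊x⌋₊).filter (fun n => n ≡ b [MOD q]), (1 : ℝ) :=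
        Finset.sum_le_sum fun n _ => abs_muR_le n
    _ ≤ ∑ n ∈ Icc 1 ⌊x⌋₊, (1 : ℝ) :=
        Finset.sum_le_sum_of_subset_of_nonneg (filter_subset _ _) fun _ _ _ => zero_le_one
    _ = ⌊x⌋₊ := by simp
    _ ≤ x := Nat.floor_le hx

/-- large `x` suffices -/
lemma ap_of_large {Φ : ℝ → ℕ → ℕ → ℝ} (htriv : ∀ x : ℝ, 0 ≤ x → ∀ q b, |Φ x q b| ≤ x)
    (h : ∀ A B : ℝ, 1 ≤ A → 1 ≤ B → ∃ C X0 : ℝ, ∀ x : ℝ, X0 ≤ x → 3 ≤ x → ∀ q : ℕ, 1 ≤ q →
      (q : ℝ) ≤ (Real.log x) ^ B → ∀ b : ℕ, |Φ x q b| ≤ C * x / (Real.log x) ^ A) :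
    ∀ A B : ℝ, ∃ C : ℝ, 0 ≤ C ∧ ∀ x : ℝ, 2 ≤ x → ∀ q : ℕ, 1 ≤ q → (q : ℝ) ≤ (Real.log x) ^ B →
      ∀ b : ℕ, |Φ x q b| ≤ C * x / (Real.log x) ^ A := by
  intro A B
  obtain ⟨C, X0, hC⟩ := h (max A 1) (max B 1) (le_max_right _ _) (le_max_right _ _)
  obtain ⟨M, hM0, hM⟩ := exists_bound_range A (max X0 3)
  refine ⟨max |C| M, le_max_of_le_left (abs_nonneg C), fun x hx q hq hqB b => ?_⟩
  have hx0 : 0 < x := by linarith
  have hl : 0 < Real.log x := Real.log_pos (by linarith)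
  have hp : 0 < (Real.log x) ^ A := Real.rpow_pos_of_pos hl _
  rcases le_total x (max X0 3) with hle | hge
  · refine (htriv x hx0.le q b).trans ?_
    have h1 : x ≤ x * (1 + Real.log x) := by nlinarith
    refine h1.trans ((hM x hx hle).trans ?_)
    gcongr
    exact le_max_right _ _
  · have hx3 : 3 ≤ x := (le_max_right _ _).trans hge
    have hl1 := one_le_log hx3
    have h1 : (q : ℝ) ≤ (Real.log x) ^ (max B 1) :=
      hqB.trans (Real.rpow_le_rpow_of_exponent_le hl1 (le_max_left _ _))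
    refine (hC x ((le_max_left _ _).trans hge) hx3 q hq h1 b).trans ?_
    have h2 : (Real.log x) ^ A ≤ (Real.log x) ^ (max A 1) :=
      Real.rpow_le_rpow_of_exponent_le hl1 (le_max_left _ _)
    calc C * x / Real.log x ^ max A 1 ≤ |C| * x / Real.log x ^ max A 1 := by
          gcongr; exact le_abs_self _
      _ ≤ |C| * x / Real.log x ^ A := by gcongr
      _ ≤ max |C| M * x / Real.log x ^ A := by gcongr; exact le_max_left _ _

/-- **Siegel–Walfisz for `λ` in all residue classes** -/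
theorem lamAP : ∀ A B : ℝ, ∃ C : ℝ, 0 ≤ C ∧ ∀ x : ℝ, 2 ≤ x → ∀ q : ℕ, 1 ≤ q →
    (q : ℝ) ≤ (Real.log x) ^ B → ∀ b : ℕ, |LsumAP x q b| ≤ C * x / (Real.log x) ^ A := by
  refine ap_of_large (fun x hx q b => LsumAP_trivial hx q b) fun A B hA hB => ?_
  obtain ⟨C, hC⟩ := sav_lam A (B + 1)
  obtain ⟨X0, hX3, hX0⟩ := exists_large_log B (by linarith)
  obtain ⟨X1, hX1⟩ := exists_log_le_sqrt B
  refine ⟨|C| * 2 ^ A, max X0 X1, fun x hx hx3 q hq hqB b => ?_⟩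
  have hx0 : 0 < x := by linarith
  have hl1 := one_le_log hx3
  have hlpos : 0 < Real.log x := by linarith
  have hxX0 : X0 ≤ x := (le_max_left _ _).trans hx
  have hqs : (q : ℝ) ≤ Real.sqrt x := hqB.trans (hX1 x ((le_max_right _ _).trans hx))
  rw [LsumAP_gcd hq]
  set g := Nat.gcd b q with hg
  have hgpos : 0 < g := Nat.gcd_pos_of_pos_right b (by omega)
  have hg1 : (1 : ℝ) ≤ g := by exact_mod_cast hgpos
  have hg0 : (0 : ℝ) < g := by linarith
  have hgq : g ≤ q := Nat.le_of_dvd (by omega) (Nat.gcd_dvd_right b q)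
  have hgq' : (g : ℝ) ≤ q := by exact_mod_cast hgq
  have hy : Real.sqrt x ≤ x / g := by
    rw [le_div_iff₀ hg0]
    calc Real.sqrt x * g ≤ Real.sqrt x * Real.sqrt x := by gcongr; linarith
      _ = x := Real.mul_self_sqrt hx0.le
  obtain ⟨g1, g2, g3⟩ := hX0 x hxX0 _ hy
  have hq1 : 1 ≤ q / g := Nat.div_pos hgq hgpos
  have hqg : ((q / g : ℕ) : ℝ) ≤ (Real.log (x / g)) ^ (B + 1) := by
    have : ((q / g : ℕ) : ℝ) ≤ q := by exact_mod_cast Nat.div_le_self q g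
    exact this.trans (hqB.trans g1)
  have hcop : (b / g).Coprime (q / g) := Nat.coprime_div_gcd_div_gcd hgpos
  have h1 := LsumAP_coprime (x := x / g) hq1 hcop
    (fun χ => hC (x / g) g2 (q / g) hq1 hqg χ trivial)
  have h2 : Real.log x / 2 ≤ Real.log (x / g) := by
    rw [← Real.log_sqrt hx0.le]
    exact Real.log_le_log (Real.sqrt_pos.mpr hx0) hy
  have h3 : (Real.log x / 2) ^ A ≤ (Real.log (x / g)) ^ A :=
    Real.rpow_le_rpow (by positivity) h2 (by linarith)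
  rw [Real.div_rpow hlpos.le (by norm_num) A] at h3
  have h2A : (0 : ℝ) < 2 ^ A := by positivity
  have hxd : x / g ≤ x := div_le_self hx0.le hg1
  rw [abs_mul]
  calc |lam g| * |LsumAP (x / g) (q / g) (b / g)|
      ≤ 1 * (C * (x / g) / Real.log (x / g) ^ A) := by
        gcongr; exact abs_lam_le g
    _ = C * (x / g) / Real.log (x / g) ^ A := one_mul _
    _ ≤ |C| * (x / g) / Real.log (x / g) ^ A := by gcongr; exact le_abs_self C
    _ ≤ |C| * x / (Real.log x ^ A / 2 ^ A) := by gcongr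
    _ = _ := by field_simp

/-- the congruence `k m ≡ b (mod q)` -/
lemma mul_modEq_iff (k q b : ℕ) (hq : 1 ≤ q) :
    (∀ m : ℕ, ¬ k * m ≡ b [MOD q]) ∨ ∃ q₁ b₁ : ℕ, 1 ≤ q₁ ∧ q₁ ≤ q ∧
      ∀ m : ℕ, k * m ≡ b [MOD q] ↔ m ≡ b₁ [MOD q₁] := by
  set g := Nat.gcd k q with hg
  have hgpos : 0 < g := Nat.gcd_pos_of_pos_right k (by omega)
  obtain ⟨q', hq'⟩ : g ∣ q := Nat.gcd_dvd_right k q
  obtain ⟨k', hk'⟩ : g ∣ k := Nat.gcd_dvd_left k q
  have hq'pos : 0 < q' := by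
    rcases Nat.eq_zero_or_pos q' with h | h
    · rw [h, mul_zero] at hq'; omega
    · exact h
  have hcop : k'.Coprime q' := by
    have h1 := Nat.coprime_div_gcd_div_gcd (m := k) (n := q) hgpos
    have e1 : k / g = k' := by
      conv_lhs => rw [hk']
      exact Nat.mul_div_cancel_left _ hgpos
    have e2 : q / g = q' := by
      conv_lhs => rw [hq']
      exact Nat.mul_div_cancel_left _ hgpos
    rwa [← hg, e1, e2] at h1
  by_cases hb : g ∣ b
  · right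
    obtain ⟨b', hb'⟩ := hb
    obtain ⟨u, hu⟩ : ∃ u, k' * u ≡ 1 [MOD q'] := by
      rcases Nat.lt_or_ge 1 q' with h | h
      · obtain ⟨u, hu⟩ := Nat.exists_mul_mod_eq_one_of_coprime hcop h
        exact ⟨u, by rw [Nat.ModEq, hu.2, Nat.mod_eq_of_lt h]⟩
      · have : q' = 1 := by omega
        exact ⟨0, by rw [this]; exact Nat.modEq_one⟩
    refine ⟨q', u * b', hq'pos, Nat.le_of_dvd (by omega) ⟨g, by rw [hq']; ring⟩, fun m => ?_⟩
    have e0 : k * m ≡ b [MOD q] ↔ k' * m ≡ b' [MOD q'] := by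
      rw [hb']
      conv_lhs => rw [hk', hq', mul_assoc]
      exact Nat.ModEq.mul_left_cancel_iff' hgpos.ne'
    rw [e0]
    have hub : k' * (u * b') ≡ b' [MOD q'] := by
      have := hu.mul_right b'
      rwa [mul_assoc, one_mul] at this
    constructor
    · intro h
      exact Nat.ModEq.cancel_left_of_coprime (by rw [Nat.gcd_comm]; exact hcop) (h.trans hub.symm)
    · intro h
      exact (h.mul_left k').trans hub
  · left
    intro m h
    apply hb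
    have h2 : k * m ≡ b [MOD g] := h.of_dvd ⟨q', hq'⟩
    have h3 : g ∣ k * m := Dvd.dvd.mul_right ⟨k', hk'⟩ m
    exact Nat.modEq_zero_iff_dvd.mp (h2.symm.trans (Nat.modEq_zero_iff_dvd.mpr h3))

/-- **Siegel–Walfisz for `μ` in all residue classes** -/
theorem muAP : ∀ A B : ℝ, ∃ C : ℝ, 0 ≤ C ∧ ∀ x : ℝ, 2 ≤ x → ∀ q : ℕ, 1 ≤ q →
    (q : ℝ) ≤ (Real.log x) ^ B → ∀ b : ℕ, |MsumAP x q b| ≤ C * x / (Real.log x) ^ A := by
  refine ap_of_large (fun x hx q b => MsumAP_trivial hx q b) fun A B hA hB => ?_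
  obtain ⟨C, hC0, hC⟩ := lamAP A (B + 1)
  obtain ⟨M, hM0, hM⟩ := rpow_seven_eighth_le A (by linarith)
  obtain ⟨X0, hX3, hX0⟩ := exists_large_log B (by linarith)
  refine ⟨3 * C * 2 ^ A + 3 * M, X0, fun x hx hx3 q hq hqB b => ?_⟩
  have hx0 : 0 < x := by linarith
  have hl1 := one_le_log hx3
  set S : ℝ → ℝ := fun y => if Real.sqrt x ≤ y then min y (C * y / (Real.log y) ^ A) else y with hS
  have hid : MsumAP x q b = ∑ d ∈ Icc 1 ⌊x⌋₊, muR d *
      ∑ m ∈ (Icc 1 (⌊x⌋₊ / d ^ 2)).filter (fun m => d ^ 2 * m ≡ b [MOD q]), lam m := by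
    unfold MsumAP
    rw [Finset.sum_filter]
    have h1 : ∀ n ∈ Icc 1 ⌊x⌋₊, (if n ≡ b [MOD q] then muR n else 0) =
        ∑ d ∈ (Icc 1 ⌊x⌋₊).filter (fun d => d ^ 2 ∣ n),
          (if d ^ 2 * (n / d ^ 2) ≡ b [MOD q] then muR d * lam (n / d ^ 2) else 0) := by
      intro n hn
      rw [mem_Icc] at hn
      have h2 : ∀ d ∈ (Icc 1 ⌊x⌋₊).filter (fun d => d ^ 2 ∣ n),
          (if d ^ 2 * (n / d ^ 2) ≡ b [MOD q] then muR d * lam (n / d ^ 2) else 0) =
            (if n ≡ b [MOD q] then muR d * lam (n / d ^ 2) else 0) := by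
        intro d hd
        rw [Nat.mul_div_cancel' (mem_filter.mp hd).2]
      rw [Finset.sum_congr rfl h2]
      split_ifs with h
      · exact muR_eq_sum n ⌊x⌋₊ (by omega) hn.2
      · simp
    rw [Finset.sum_congr rfl h1, sum_sq_exchange ⌊x⌋₊
      (fun d m => if d ^ 2 * m ≡ b [MOD q] then muR d * lam m else 0)]
    refine Finset.sum_congr rfl fun d _ => ?_
    rw [Finset.mul_sum, Finset.sum_filter]
  have hinner : ∀ d ∈ Icc 1 ⌊x⌋₊, |muR d *
      ∑ m ∈ (Icc 1 (⌊x⌋₊ / d ^ 2)).filter (fun m => d ^ 2 * m ≡ b [MOD q]), lam m| ≤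
        S (x / d ^ 2) := by
    intro d hd
    have hd1 : (1 : ℝ) ≤ d := by exact_mod_cast (mem_Icc.mp hd).1
    have hypos : 0 < x / (d : ℝ) ^ 2 := by positivity
    have hN : ⌊x⌋₊ / d ^ 2 = ⌊x / (d : ℝ) ^ 2⌋₊ := by
      have := Nat.floor_div_natCast x (d ^ 2)
      push_cast at this
      exact this.symm
    have hS0 : 0 ≤ S (x / d ^ 2) := by
      rw [hS]; simp only
      split_ifs with h
      · obtain ⟨g1, g2, g3⟩ := hX0 x hx _ h
        have : 0 < Real.log (x / d ^ 2) := by linarith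
        positivity
      · exact hypos.le
    rcases mul_modEq_iff (d ^ 2) q b hq with h | ⟨q₁, b₁, hq1, hq1q, h⟩
    · rw [Finset.filter_false_of_mem (fun m _ => h m)]
      simpa using hS0
    · have e : ∑ m ∈ (Icc 1 (⌊x⌋₊ / d ^ 2)).filter (fun m => d ^ 2 * m ≡ b [MOD q]), lam m =
          LsumAP (x / d ^ 2) q₁ b₁ := by
        unfold LsumAP
        rw [hN]
        refine Finset.sum_congr ?_ fun _ _ => rfl
        exact Finset.filter_congr fun m _ => h m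
      rw [e, abs_mul]
      have h1 : |LsumAP (x / d ^ 2) q₁ b₁| ≤ S (x / d ^ 2) := by
        rw [hS]; simp only
        split_ifs with h2
        · obtain ⟨g1, g2, g3⟩ := hX0 x hx _ h2
          refine le_min (LsumAP_trivial hypos.le _ _) (hC _ g2 q₁ hq1 ?_ b₁)
          have : (q₁ : ℝ) ≤ q := by exact_mod_cast hq1q
          exact this.trans (hqB.trans g1)
        · exact LsumAP_trivial hypos.le _ _
      calc |muR d| * |LsumAP (x / d ^ 2) q₁ b₁| ≤ 1 * S (x / d ^ 2) := by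
            gcongr; exact abs_muR_le d
        _ = _ := one_mul _
  rw [hid]
  refine (Finset.abs_sum_le_sum_abs _ _).trans ((Finset.sum_le_sum hinner).trans ?_)
  have key := sum_sq_bound (S := S) (x := x) (C := C) (A := A) (by linarith) (by linarith)
    hC0 (fun y hy => ?_) (fun y hy hyx => ?_) ⌊x⌋₊
  · refine key.trans ?_
    have h7 := hM x hx3
    calc 3 * C * 2 ^ A * x / Real.log x ^ A + 3 * x ^ (7 / 8 : ℝ)
        ≤ 3 * C * 2 ^ A * x / Real.log x ^ A + 3 * (M * x / (Real.log x) ^ A) := by gcongr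
      _ = _ := by ring
  · rw [hS]; simp only
    split_ifs
    · exact min_le_left _ _
    · exact le_rfl
  · rw [hS]; simp only
    rw [if_pos hy]
    exact min_le_right _ _

end Crest.Agent.SW
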