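import Mathlib

/-!
# Siegel's theorem, part B (helper301)

The arithmetic function `1 * ψ₁ * ψ₂ * ψ₁ψ₂` is nonnegative for quadratic characters `ψ₁, ψ₂` of
the same level; its Dirichlet series.
-/

set_option autoImplicit false

open Complex Filter Set ArithmeticFunction
open scoped ComplexOrder

namespace Crest.Agent.SW.Siegel

variable {N : ℕ}

/-- the arithmetic function of a character -/
noncomputable abbrev af (χ : DirichletCharacter ℂ N) : ArithmeticFunction ℂ :=
  toArithmeticFunction (fun n : ℕ => χ n)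

/-- `1 * α * β * αβ` -/
noncomputable def A4 (α β : DirichletCharacter ℂ N) : ArithmeticFunction ℂ :=
  α.zetaMul * (af β * af (α * β))

lemma af_apply (χ : DirichletCharacter ℂ N) {n : ℕ} (hn : n ≠ 0) : af χ n = χ n := by
  simp [af, toArithmeticFunction, hn]

lemma A4_mult (α β : DirichletCharacter ℂ N) : (A4 α β).IsMultiplicative :=
  α.isMultiplicative_zetaMul.mul
    ((DirichletCharacter.isMultiplicative_toArithmeticFunction β).mul
      (DirichletCharacter.isMultiplicative_toArithmeticFunction (α * β)))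

lemma snd_apply (α β : DirichletCharacter ℂ N) {n : ℕ} (hn : n ≠ 0) :
    (af β * af (α * β)) n = β n * α.zetaMul n := by
  unfold DirichletCharacter.zetaMul
  rw [ArithmeticFunction.mul_apply, ArithmeticFunction.mul_apply, Finset.mul_sum]
  refine Finset.sum_congr rfl fun p hp => ?_
  obtain ⟨h1, h2⟩ := Nat.mem_divisorsAntidiagonal.mp hp
  have hp1 : p.1 ≠ 0 := fun h => h2 (by rw [← h1, h, zero_mul])
  have hp2 : p.2 ≠ 0 := fun h => h2 (by rw [← h1, h, mul_zero])
  rw [af_apply β hp1, af_apply (α * β) hp2, natCoe_apply, zeta_apply_ne hp1]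
  have h3 : toArithmeticFunction (fun n : ℕ => α n) p.2 = α p.2 := af_apply α hp2
  rw [h3, ← h1]
  push_cast
  rw [map_mul, MulChar.mul_apply]
  ring

lemma A4_prime_pow_of {α β : DirichletCharacter ℂ N} (hα : α ^ 2 = 1) {p : ℕ} (hp : p.Prime)
    (hβ : 0 ≤ β p) (k : ℕ) : 0 ≤ A4 α β (p ^ k) := by
  unfold A4
  rw [ArithmeticFunction.mul_apply]
  refine Finset.sum_nonneg fun x hx => ?_
  obtain ⟨h1, h2⟩ := Nat.mem_divisorsAntidiagonal.mp hx
  have hp2 : x.2 ≠ 0 := fun h => h2 (by rw [← h1, h, mul_zero])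
  refine mul_nonneg (DirichletCharacter.zetaMul_nonneg hα _) ?_
  rw [snd_apply α β hp2]
  refine mul_nonneg ?_ (DirichletCharacter.zetaMul_nonneg hα _)
  have h3 : x.2 ∣ p ^ k := ⟨x.1, by rw [← h1, mul_comm]⟩
  obtain ⟨j, -, hj⟩ := (Nat.dvd_prime_pow hp).mp h3
  rw [hj]
  push_cast
  rw [map_pow]
  exact pow_nonneg hβ j

lemma A4_eq (α β : DirichletCharacter ℂ N) :
    A4 α β = ((ArithmeticFunction.zeta : ArithmeticFunction ℕ) : ArithmeticFunction ℂ) *
      af α * af β * af (α * β) := by
  unfold A4 DirichletCharacter.zetaMul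
  change ((ArithmeticFunction.zeta : ArithmeticFunction ℕ) : ArithmeticFunction ℂ) * af α *
    (af β * af (α * β)) = _
  ring

lemma A4_symm (α β : DirichletCharacter ℂ N) : A4 α β = A4 β α := by
  rw [A4_eq, A4_eq, mul_comm α β]
  ring

lemma A4_third {α : DirichletCharacter ℂ N} (hα : α ^ 2 = 1) (β : DirichletCharacter ℂ N) :
    A4 α β = A4 α (α * β) := by
  rw [A4_eq, A4_eq, ← mul_assoc α α β, ← sq, hα, one_mul]
  ring

lemma A4_nonneg {α β : DirichletCharacter ℂ N} (hα : α ^ 2 = 1) (hβ : β ^ 2 = 1) (n : ℕ) :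
    0 ≤ A4 α β n := by
  rcases eq_or_ne n 0 with rfl | hn
  · simp
  rw [(A4_mult α β).multiplicative_factorization _ hn]
  refine Finset.prod_nonneg fun p hp => ?_
  have hpp := Nat.prime_of_mem_primeFactors hp
  rcases MulChar.isQuadratic_iff_sq_eq_one.mpr hβ p with h | h | h
  · exact A4_prime_pow_of hα hpp (by rw [h]) _
  · exact A4_prime_pow_of hα hpp (by rw [h]; exact zero_le_one) _
  · rcases MulChar.isQuadratic_iff_sq_eq_one.mpr hα p with h' | h' | h'
    · rw [A4_symm]
      exact A4_prime_pow_of hβ hpp (by rw [h']) _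
    · rw [A4_symm]
      exact A4_prime_pow_of hβ hpp (by rw [h']; exact zero_le_one) _
    · rw [A4_third hα]
      refine A4_prime_pow_of hα hpp ?_ _
      rw [MulChar.mul_apply, h, h']
      norm_num

lemma A4_one (α β : DirichletCharacter ℂ N) : A4 α β 1 = 1 := (A4_mult α β).map_one

lemma summable_af (χ : DirichletCharacter ℂ N) {s : ℂ} (hs : 1 < s.re) :
    LSeriesSummable (fun n => af χ n) s := by
  refine (LSeriesSummable_congr s fun {n} hn => ?_).mpr
    (DirichletCharacter.LSeriesSummable_of_one_lt_re χ hs)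
  exact af_apply χ hn

lemma LSeries_af (χ : DirichletCharacter ℂ N) (s : ℂ) :
    LSeries (fun n => af χ n) s = LSeries (fun n : ℕ => χ n) s :=
  LSeries_congr (fun {n} hn => af_apply χ hn) s

lemma summable_snd (α β : DirichletCharacter ℂ N) {s : ℂ} (hs : 1 < s.re) :
    LSeriesSummable (fun n => (af β * af (α * β)) n) s :=
  ArithmeticFunction.LSeriesSummable_mul (summable_af β hs) (summable_af (α * β) hs)

lemma summable_A4 (α β : DirichletCharacter ℂ N) {s : ℂ} (hs : 1 < s.re) :
    LSeriesSummable (fun n => A4 α β n) s :=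
  ArithmeticFunction.LSeriesSummable_mul (α.LSeriesSummable_zetaMul hs) (summable_snd α β hs)

lemma LSeries_zetaMul (α : DirichletCharacter ℂ N) {s : ℂ} (hs : 1 < s.re) :
    LSeries (fun n => α.zetaMul n) s = riemannZeta s * LSeries (fun n : ℕ => α n) s := by
  have h1 : LSeriesSummable
      (fun n => ((ArithmeticFunction.zeta : ArithmeticFunction ℕ) : ArithmeticFunction ℂ) n) s := by
    have := LSeriesSummable_zeta_iff.mpr hs
    simpa using this
  have h2 := ArithmeticFunction.LSeries_mul' h1 (summable_af α hs)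
  have h3 : LSeries
      (fun n => ((ArithmeticFunction.zeta : ArithmeticFunction ℕ) : ArithmeticFunction ℂ) n) s =
      riemannZeta s := by
    rw [← LSeries_zeta_eq_riemannZeta hs]
    rfl
  rw [h3, LSeries_af] at h2
  exact h2

/-- the Dirichlet series of `A4` -/
theorem LSeries_A4 [NeZero N] (α β : DirichletCharacter ℂ N) {s : ℂ} (hs : 1 < s.re) :
    LSeries (fun n => A4 α β n) s = riemannZeta s * (DirichletCharacter.LFunction α s *
      DirichletCharacter.LFunction β s * DirichletCharacter.LFunction (α * β) s) := by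
  unfold A4
  rw [ArithmeticFunction.LSeries_mul' (α.LSeriesSummable_zetaMul hs) (summable_snd α β hs),
    LSeries_zetaMul α hs,
    ArithmeticFunction.LSeries_mul' (summable_af β hs) (summable_af (α * β) hs),
    LSeries_af, LSeries_af, DirichletCharacter.LFunction_eq_LSeries α hs,
    DirichletCharacter.LFunction_eq_LSeries β hs,
    DirichletCharacter.LFunction_eq_LSeries (α * β) hs]
  ring

lemma abscissa_A4 (α β : DirichletCharacter ℂ N) :
    LSeries.abscissaOfAbsConv (fun n => A4 α β n) < ((2 : ℝ) : EReal) := by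
  have h : LSeries.abscissaOfAbsConv (fun n => A4 α β n) ≤ ((3 / 2 : ℝ) : EReal) := by
    have := (summable_A4 α β (s := ((3 / 2 : ℝ) : ℂ)) (by norm_num)).abscissaOfAbsConv_le
    simpa using this
  refine lt_of_le_of_lt h ?_
  exact_mod_cast (by norm_num : (3 / 2 : ℝ) < 2)

/-- the alternating derivatives at `2` -/
theorem A4_alternating {α β : DirichletCharacter ℂ N} (hα : α ^ 2 = 1) (hβ : β ^ 2 = 1) (m : ℕ) :
    0 ≤ (-1) ^ m * iteratedDeriv m (LSeries (fun n => A4 α β n)) (2 : ℝ) :=
  LSeries.iteratedDeriv_alternating (fun n => A4_nonneg hα hβ n) (abscissa_A4 α β) m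

theorem A4_two_ge {α β : DirichletCharacter ℂ N} (hα : α ^ 2 = 1) (hβ : β ^ 2 = 1) :
    1 ≤ (LSeries (fun n => A4 α β n) (2 : ℝ)).re := by
  have hs : LSeriesSummable (fun n => A4 α β n) ((2 : ℝ) : ℂ) :=
    summable_A4 α β (by norm_num)
  have h1 : (LSeries (fun n => A4 α β n) (2 : ℝ)).re =
      ∑' n, (LSeries.term (fun n => A4 α β n) ((2 : ℝ) : ℂ) n).re := by
    unfold LSeries
    exact Complex.re_tsum hs
  rw [h1]
  have h2 : ∀ n, 0 ≤ (LSeries.term (fun n => A4 α β n) ((2 : ℝ) : ℂ) n).re := fun n =>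
    (Complex.le_def.mp (LSeries.term_nonneg (A4_nonneg hα hβ n) 2)).1
  have h3 : Summable fun n => (LSeries.term (fun n => A4 α β n) ((2 : ℝ) : ℂ) n).re :=
    (Complex.hasSum_re hs.hasSum).summable
  have h4 := h3.le_tsum 1 (fun n _ => h2 n)
  have h5 : (LSeries.term (fun n => A4 α β n) ((2 : ℝ) : ℂ) 1).re = 1 := by
    rw [LSeries.term_of_ne_zero one_ne_zero, A4_one]
    simp
  rw [h5] at h4
  exact h4

end Crest.Agent.SW.Siegel
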