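import Crest.Agent.SW.SiegelA
import Crest.Agent.SW.SiegelB

/-!
# Siegel's theorem, part C (helper301)

The lower bound for `L(1,α) L(1,β) L(1,αβ)` when `ζ(x) L(x,α) L(x,β) L(x,αβ) ≤ 0` at a point
`x < 1` close to `1`.
-/

set_option autoImplicit false

open Complex Filter Set Metric
open scoped Topology Nat ComplexOrder

namespace Crest.Agent.SW.Siegel

/-- the real-variable core: a power series with nonnegative coefficients `b` -/
lemma core {b : ℕ → ℝ} (hb : ∀ m, 0 ≤ b m) (hb0 : 1 ≤ b 0) {l K x S : ℝ} (hK : 1 ≤ K)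
    (hbl : ∀ m, |b m - l| ≤ K * (2 / 3) ^ m) (hx : 7 / 8 < x) (hx1 : x < 1)
    (hS : HasSum (fun m : ℕ => (b m - l) * (2 - x) ^ m) S) (hS0 : S - l / (1 - x) ≤ 0) :
    1 - x ≤ 6 * (8 * K) ^ (4 * (1 - x)) * l := by
  have hx' : 0 < 1 - x := by linarith
  have hr1 : 1 < 2 - x := by linarith
  have hlog0 : 0 < Real.log (8 * K) := Real.log_pos (by linarith)
  obtain ⟨M, hM⟩ : ∃ M, M = ⌈4 * Real.log (8 * K)⌉₊ := ⟨_, rfl⟩
  have hM1 : 4 * Real.log (8 * K) ≤ M := by rw [hM]; exact Nat.le_ceil _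
  have hM2 : (M : ℝ) ≤ 4 * Real.log (8 * K) + 1 := by
    rw [hM]; exact (Nat.ceil_lt_add_one (by positivity)).le
  have hM0 : 0 < M := by
    have : (0 : ℝ) < M := lt_of_lt_of_le (by positivity) hM1
    exact_mod_cast this
  -- size of the tail
  have hlog43 : 1 / 4 ≤ Real.log (4 / 3) := by
    have := Real.one_sub_inv_le_log_of_pos (by norm_num : (0 : ℝ) < 4 / 3)
    norm_num at this ⊢
    exact this
  have hpow : 8 * K ≤ (4 / 3 : ℝ) ^ M := by
    have h1 : Real.log (8 * K) ≤ Real.log ((4 / 3 : ℝ) ^ M) := by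
      rw [Real.log_pow]
      nlinarith
    exact (Real.log_le_log_iff (by linarith) (by positivity)).mp h1
  have htail : 4 * K * (3 / 4 : ℝ) ^ M ≤ 1 / 2 := by
    have h2 : (3 / 4 : ℝ) ^ M = ((4 / 3 : ℝ) ^ M)⁻¹ := by rw [← inv_pow]; norm_num
    rw [h2]
    have h3 : ((4 / 3 : ℝ) ^ M)⁻¹ ≤ (8 * K)⁻¹ := inv_anti₀ (by linarith) hpow
    calc 4 * K * ((4 / 3 : ℝ) ^ M)⁻¹ ≤ 4 * K * (8 * K)⁻¹ := by gcongr
      _ = 1 / 2 := by field_simp; norm_num
  have hterm : ∀ m, |(b m - l) * (2 - x) ^ m| ≤ K * (3 / 4) ^ m := by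
    intro m
    rw [abs_mul, abs_of_pos (by positivity : (0 : ℝ) < (2 - x) ^ m)]
    calc |b m - l| * (2 - x) ^ m ≤ K * (2 / 3) ^ m * (9 / 8) ^ m := by
          gcongr
          · exact hbl m
          · linarith
      _ = K * (3 / 4) ^ m := by rw [mul_assoc, ← mul_pow]; norm_num
  -- split the sum
  have hsum := hS.summable
  have hsplit := hsum.sum_add_tsum_nat_add M
  rw [hS.tsum_eq] at hsplit
  have hgeo : HasSum (fun m : ℕ => K * (3 / 4 : ℝ) ^ (m + M)) (4 * K * (3 / 4) ^ M) := by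
    have := (hasSum_geometric_of_lt_one (by norm_num : (0 : ℝ) ≤ 3 / 4) (by norm_num)).mul_left
      (K * (3 / 4) ^ M)
    have e1 : (fun m : ℕ => K * (3 / 4 : ℝ) ^ (m + M)) =
        fun m : ℕ => K * (3 / 4) ^ M * (3 / 4) ^ m := by
      funext m; rw [pow_add]; ring
    have e2 : 4 * K * (3 / 4 : ℝ) ^ M = K * (3 / 4) ^ M * (1 - 3 / 4)⁻¹ := by
      norm_num; ring
    rw [e1, e2]
    exact this
  have h4 : -(4 * K * (3 / 4) ^ M) ≤ ∑' m : ℕ, (b (m + M) - l) * (2 - x) ^ (m + M) := by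
    rw [← hgeo.tsum_eq, ← tsum_neg]
    refine Summable.tsum_le_tsum (fun m => ?_) hgeo.summable.neg
      ((summable_nat_add_iff M).mpr hsum)
    exact (abs_le.mp (hterm (m + M))).1
  have h5 : 1 - l * (((2 - x) ^ M - 1) / (1 - x)) ≤
      ∑ m ∈ Finset.range M, (b m - l) * (2 - x) ^ m := by
    have h6 : ∑ m ∈ Finset.range M, (b m - l) * (2 - x) ^ m =
        ∑ m ∈ Finset.range M, b m * (2 - x) ^ m - l * ∑ m ∈ Finset.range M, (2 - x) ^ m := by
      rw [Finset.mul_sum, ← Finset.sum_sub_distrib]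
      exact Finset.sum_congr rfl fun m _ => by ring
    rw [h6, geom_sum_eq (by linarith), show 2 - x - 1 = 1 - x by ring]
    have h7 : 1 ≤ ∑ m ∈ Finset.range M, b m * (2 - x) ^ m := by
      have h8 : b 0 * (2 - x) ^ 0 ≤ ∑ m ∈ Finset.range M, b m * (2 - x) ^ m :=
        Finset.single_le_sum (f := fun m => b m * (2 - x) ^ m)
          (fun m _ => mul_nonneg (hb m) (by positivity)) (Finset.mem_range.mpr hM0)
      rw [pow_zero, mul_one] at h8
      exact hb0.trans h8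
    linarith
  have h9 : 1 / 2 ≤ l * ((2 - x) ^ M / (1 - x)) := by
    have h10 : l * ((2 - x) ^ M / (1 - x)) = l * (((2 - x) ^ M - 1) / (1 - x)) + l / (1 - x) := by
      field_simp
      ring
    rw [h10]
    linarith
  have hl : 0 < l := by
    by_contra hl
    push Not at hl
    have : l * ((2 - x) ^ M / (1 - x)) ≤ 0 := mul_nonpos_of_nonpos_of_nonneg hl (by positivity)
    linarith
  have h11 : (2 - x) ^ M ≤ 3 * (8 * K) ^ (4 * (1 - x)) := by
    have h12 : (2 - x) ≤ Real.exp (1 - x) := by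
      have := Real.add_one_le_exp (1 - x)
      linarith
    calc (2 - x) ^ M ≤ (Real.exp (1 - x)) ^ M := by gcongr
      _ = Real.exp ((1 - x) * M) := by rw [mul_comm, Real.exp_nat_mul]
      _ ≤ Real.exp ((1 - x) * (4 * Real.log (8 * K) + 1)) := by gcongr
      _ = Real.exp (1 - x) * (8 * K) ^ (4 * (1 - x)) := by
          rw [Real.rpow_def_of_pos (by linarith), ← Real.exp_add]
          ring_nf
      _ ≤ 3 * (8 * K) ^ (4 * (1 - x)) := by
          gcongr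
          calc Real.exp (1 - x) ≤ Real.exp 1 := by gcongr; linarith
            _ ≤ 3 := Real.exp_one_lt_three.le
  have h13 : 1 - x ≤ 2 * (l * (2 - x) ^ M) := by
    have h14 : l * ((2 - x) ^ M / (1 - x)) = (l * (2 - x) ^ M) / (1 - x) := by ring
    rw [h14, le_div_iff₀ hx'] at h9
    linarith
  calc 1 - x ≤ 2 * (l * (2 - x) ^ M) := h13
    _ ≤ 2 * (l * (3 * (8 * K) ^ (4 * (1 - x)))) := by gcongr
    _ = 6 * (8 * K) ^ (4 * (1 - x)) * l := by ring

variable {N : ℕ} [NeZero N]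

/-- the product of the three `L`-functions -/
noncomputable def P3 (α β : DirichletCharacter ℂ N) (s : ℂ) : ℂ :=
  DirichletCharacter.LFunction α s * DirichletCharacter.LFunction β s *
    DirichletCharacter.LFunction (α * β) s

lemma differentiable_P3 {α β : DirichletCharacter ℂ N} (hα : α ≠ 1) (hβ : β ≠ 1)
    (hαβ : α * β ≠ 1) : Differentiable ℂ (P3 α β) :=
  ((DirichletCharacter.differentiable_LFunction hα).mul
    (DirichletCharacter.differentiable_LFunction hβ)).mul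
      (DirichletCharacter.differentiable_LFunction hαβ)

/-- the entire function `ζ(s) P3(s) - P3(1)/(s-1)` -/
noncomputable def G (α β : DirichletCharacter ℂ N) (s : ℂ) : ℂ :=
  riemannZeta₀ s * P3 α β s + dslope (P3 α β) 1 s

lemma differentiable_G {α β : DirichletCharacter ℂ N} (hα : α ≠ 1) (hβ : β ≠ 1)
    (hαβ : α * β ≠ 1) : Differentiable ℂ (G α β) := by
  have h1 := differentiable_P3 hα hβ hαβ
  have h2 : Differentiable ℂ (dslope (P3 α β) 1) := by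
    rw [← differentiableOn_univ, Complex.differentiableOn_dslope (univ_mem)]
    exact h1.differentiableOn
  exact (differentiable_riemannZeta₀.mul h1).add h2

lemma G_eq (α β : DirichletCharacter ℂ N) {s : ℂ} (hs : s ≠ 1) :
    G α β s = riemannZeta s * P3 α β s - P3 α β 1 * (s - 1)⁻¹ := by
  unfold G
  rw [riemannZeta_eq_inv_sub_add hs, dslope_of_ne _ hs, slope_def_field]
  have : s - 1 ≠ 0 := sub_ne_zero.mpr hs
  field_simp
  ring

lemma LSeries_A4_eventuallyEq (α β : DirichletCharacter ℂ N) :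
    LSeries (fun n => A4 α β n) =ᶠ[𝓝 2] fun s => riemannZeta s * P3 α β s := by
  have : {z : ℂ | 1 < z.re} ∈ 𝓝 (2 : ℂ) :=
    (isOpen_lt continuous_const Complex.continuous_re).mem_nhds (by simp)
  filter_upwards [this] with z hz
  exact LSeries_A4 α β hz

lemma iteratedDeriv_inv_sub (m : ℕ) :
    iteratedDeriv m (fun s : ℂ => (s - 1)⁻¹) 2 = (-1) ^ m * m ! := by
  have h := congrFun (iter_deriv_inv_linear_sub (𝕜 := ℂ) m 1 1) 2
  rw [iteratedDeriv_eq_iterate]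
  simp only [one_mul] at h
  rw [h]
  norm_num

lemma iteratedDeriv_G {α β : DirichletCharacter ℂ N} (hα : α ≠ 1) (hβ : β ≠ 1)
    (hαβ : α * β ≠ 1) (m : ℕ) :
    iteratedDeriv m (G α β) 2 = iteratedDeriv m (LSeries (fun n => A4 α β n)) 2 -
      P3 α β 1 * ((-1) ^ m * m !) := by
  have h2 : (2 : ℂ) ≠ 1 := by norm_num
  have hnhds : ({1}ᶜ : Set ℂ) ∈ 𝓝 (2 : ℂ) := isOpen_ne.mem_nhds h2
  have h1 : G α β =ᶠ[𝓝 2]
      (fun s => riemannZeta s * P3 α β s) - (fun s => P3 α β 1 * (s - 1)⁻¹) := by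
    filter_upwards [hnhds] with z hz
    rw [Pi.sub_apply]
    exact G_eq α β hz
  have hF : ContDiffAt ℂ m (fun s => riemannZeta s * P3 α β s) 2 := by
    have : AnalyticAt ℂ (fun s => riemannZeta s * P3 α β s) 2 := by
      have h3 : DifferentiableOn ℂ (fun s => riemannZeta s * P3 α β s) {1}ᶜ := by
        intro z hz
        exact ((differentiableAt_riemannZeta hz).mul
          (differentiable_P3 hα hβ hαβ z)).differentiableWithinAt
      exact h3.analyticAt hnhds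
    exact this.contDiffAt
  have hG : ContDiffAt ℂ m (fun s : ℂ => P3 α β 1 * (s - 1)⁻¹) 2 := by
    refine contDiffAt_const.mul ?_
    refine ContDiffAt.inv (contDiffAt_id.sub contDiffAt_const) ?_
    norm_num
  have hI : ContDiffAt ℂ m (fun s : ℂ => (s - 1)⁻¹) 2 := by
    refine ContDiffAt.inv (contDiffAt_id.sub contDiffAt_const) ?_
    norm_num
  rw [h1.iteratedDeriv_eq, iteratedDeriv_sub hF hG,
    (LSeries_A4_eventuallyEq α β).iteratedDeriv_eq]
  congr 1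
  rw [iteratedDeriv_const_mul_field, iteratedDeriv_inv_sub]

/-- the (normalised, alternating) Taylor coefficients of the Dirichlet series at `2` -/
noncomputable def bc (α β : DirichletCharacter ℂ N) (m : ℕ) : ℝ :=
  ((-1) ^ m * iteratedDeriv m (LSeries (fun n => A4 α β n)) 2).re / m !

lemma bc_nonneg {α β : DirichletCharacter ℂ N} (hα : α ^ 2 = 1) (hβ : β ^ 2 = 1) (m : ℕ) :
    0 ≤ bc α β m := by
  unfold bc
  have h := A4_alternating hα hβ m
  have h1 := (Complex.le_def.mp h).1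
  simp only [Complex.zero_re] at h1
  have h2 : (((2 : ℝ) : ℂ)) = 2 := by norm_num
  rw [h2] at h1
  positivity

lemma bc_zero {α β : DirichletCharacter ℂ N} (hα : α ^ 2 = 1) (hβ : β ^ 2 = 1) :
    1 ≤ bc α β 0 := by
  unfold bc
  have h := A4_two_ge hα hβ
  have h2 : (((2 : ℝ) : ℂ)) = 2 := by norm_num
  rw [h2] at h
  simpa using h

lemma gcoef {α β : DirichletCharacter ℂ N} (hα : α ≠ 1) (hβ : β ≠ 1)
    (hαβ : α * β ≠ 1) (m : ℕ) :
    ((-1) ^ m * iteratedDeriv m (G α β) 2 / m !).re = bc α β m - (P3 α β 1).re := by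
  rw [iteratedDeriv_G hα hβ hαβ]
  have hm : ((m ! : ℕ) : ℂ) ≠ 0 := by exact_mod_cast (Nat.factorial_ne_zero m)
  have h1 : ((-1 : ℂ) ^ m * (iteratedDeriv m (LSeries (fun n => A4 α β n)) 2 -
      P3 α β 1 * ((-1) ^ m * m !))) / m ! =
      ((-1) ^ m * iteratedDeriv m (LSeries (fun n => A4 α β n)) 2) / ((m ! : ℝ) : ℂ) -
        P3 α β 1 := by
    have h2 : ((-1 : ℂ) ^ m) * ((-1) ^ m) = 1 := by
      rw [← mul_pow]; norm_num
    push_cast
    field_simp
    linear_combination (-(P3 α β 1) * (m ! : ℂ)) * h2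
  rw [h1, Complex.sub_re, Complex.div_ofReal_re]
  rfl

/-- a bound for `ζ(s) - 1/(s-1)` on the circle -/
lemma exists_zeta_bound : ∃ Z : ℝ, 0 ≤ Z ∧ ∀ s ∈ sphere (2 : ℂ) (3 / 2), ‖riemannZeta₀ s‖ ≤ Z := by
  obtain ⟨Z, hZ⟩ := (isCompact_sphere (2 : ℂ) (3 / 2)).exists_bound_of_continuousOn
    differentiable_riemannZeta₀.continuous.continuousOn
  exact ⟨max Z 0, le_max_right _ _, fun s hs => (hZ s hs).trans (le_max_left _ _)⟩

lemma circle_bounds {s : ℂ} (hs : s ∈ sphere (2 : ℂ) (3 / 2)) :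
    1 / 2 ≤ s.re ∧ ‖s‖ ≤ 7 / 2 ∧ 1 / 2 ≤ ‖s - 1‖ := by
  rw [mem_sphere_iff_norm] at hs
  refine ⟨?_, ?_, ?_⟩
  · have h1 := Complex.abs_re_le_norm (s - 2)
    rw [hs] at h1
    have h2 := (abs_le.mp h1).1
    simp at h2
    linarith
  · have : s = (s - 2) + 2 := by ring
    rw [this]
    refine (norm_add_le _ _).trans ?_
    rw [hs]
    norm_num
  · have : s - 2 = (s - 1) - 1 := by ring
    have h1 := norm_sub_le (s - 1) 1
    rw [← this, hs, norm_one] at h1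
    linarith

lemma norm_L_circle {χ : DirichletCharacter ℂ N} (hχ : χ ≠ 1) {s : ℂ}
    (hs : s ∈ sphere (2 : ℂ) (3 / 2)) : ‖DirichletCharacter.LFunction χ s‖ ≤ 7 * N := by
  obtain ⟨h1, h2, -⟩ := circle_bounds hs
  have h0 : 0 < s.re := by linarith
  refine (norm_LFunction_le hχ h0).trans ?_
  have hN : (0 : ℝ) ≤ N := Nat.cast_nonneg N
  calc ‖s‖ * (N / s.re) ≤ (7 / 2) * (N / (1 / 2)) := by gcongr
    _ = 7 * N := by ring

lemma norm_P3_circle {α β : DirichletCharacter ℂ N} (hα : α ≠ 1) (hβ : β ≠ 1)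
    (hαβ : α * β ≠ 1) {s : ℂ} (hs : s ∈ sphere (2 : ℂ) (3 / 2)) :
    ‖P3 α β s‖ ≤ 343 * (N : ℝ) ^ 3 := by
  unfold P3
  rw [norm_mul, norm_mul]
  have h1 := norm_L_circle hα hs
  have h2 := norm_L_circle hβ hs
  have h3 := norm_L_circle hαβ hs
  calc ‖DirichletCharacter.LFunction α s‖ * ‖DirichletCharacter.LFunction β s‖ *
      ‖DirichletCharacter.LFunction (α * β) s‖ ≤ (7 * N) * (7 * N) * (7 * N) := by gcongr
    _ = 343 * (N : ℝ) ^ 3 := by ring

lemma norm_P3_one {α β : DirichletCharacter ℂ N} (hα : α ≠ 1) (hβ : β ≠ 1)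
    (hαβ : α * β ≠ 1) : ‖P3 α β 1‖ ≤ (N : ℝ) ^ 3 := by
  unfold P3
  rw [norm_mul, norm_mul]
  have h : ∀ {χ : DirichletCharacter ℂ N}, χ ≠ 1 → ‖DirichletCharacter.LFunction χ 1‖ ≤ N := by
    intro χ hχ
    have := norm_LFunction_one_le hχ zero_lt_one le_rfl
    simpa using this
  have h1 := h hα
  have h2 := h hβ
  have h3 := h hαβ
  calc ‖DirichletCharacter.LFunction α 1‖ * ‖DirichletCharacter.LFunction β 1‖ *
      ‖DirichletCharacter.LFunction (α * β) 1‖ ≤ N * N * N := by gcongr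
    _ = (N : ℝ) ^ 3 := by ring

lemma exists_G_bound : ∃ C0 : ℝ, 1 ≤ C0 ∧ ∀ (N : ℕ) [NeZero N] (α β : DirichletCharacter ℂ N),
    α ≠ 1 → β ≠ 1 → α * β ≠ 1 → ∀ s ∈ sphere (2 : ℂ) (3 / 2), ‖G α β s‖ ≤ C0 * (N : ℝ) ^ 3 := by
  obtain ⟨Z, hZ0, hZ⟩ := exists_zeta_bound
  refine ⟨Z * 343 + 2 * (343 + 1), by linarith, ?_⟩
  intro N _ α β hα hβ hαβ s hs
  obtain ⟨-, -, h1⟩ := circle_bounds hs
  have hs1 : s ≠ 1 := by
    rintro rfl
    norm_num at h1
  unfold G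
  rw [dslope_of_ne _ hs1, slope_def_field]
  refine (norm_add_le _ _).trans ?_
  rw [norm_mul, norm_div]
  have h2 := norm_P3_circle hα hβ hαβ hs
  have h3 := norm_P3_one hα hβ hαβ
  have h4 : ‖P3 α β s - P3 α β 1‖ ≤ 343 * (N : ℝ) ^ 3 + (N : ℝ) ^ 3 :=
    (norm_sub_le _ _).trans (add_le_add h2 h3)
  have h5 : ‖P3 α β s - P3 α β 1‖ / ‖s - 1‖ ≤ (343 * (N : ℝ) ^ 3 + (N : ℝ) ^ 3) / (1 / 2) := by
    gcongr
  calc ‖riemannZeta₀ s‖ * ‖P3 α β s‖ + ‖P3 α β s - P3 α β 1‖ / ‖s - 1‖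
      ≤ Z * (343 * (N : ℝ) ^ 3) + (343 * (N : ℝ) ^ 3 + (N : ℝ) ^ 3) / (1 / 2) := by
        gcongr
        exact hZ s hs
    _ = (Z * 343 + 2 * (343 + 1)) * (N : ℝ) ^ 3 := by ring

/-- **Part C**: if `ζ(x) L(x,α) L(x,β) L(x,αβ) ≤ 0` for some `7/8 < x < 1`, then
`L(1,α) L(1,β) L(1,αβ)` is at least `c (1-x) N ^ (-12 (1-x))`. -/
theorem product_lower : ∃ C1 : ℝ, 0 < C1 ∧ ∀ (N : ℕ) [NeZero N] (α β : DirichletCharacter ℂ N),
    α ^ 2 = 1 → β ^ 2 = 1 → α ≠ 1 → β ≠ 1 → α * β ≠ 1 → ∀ x : ℝ, 7 / 8 < x → x < 1 →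
    (riemannZeta x * P3 α β x).re ≤ 0 →
    1 - x ≤ C1 * (N : ℝ) ^ (12 * (1 - x)) * (P3 α β 1).re := by
  obtain ⟨C0, hC0, hG⟩ := exists_G_bound
  refine ⟨6 * (8 * C0), by positivity, ?_⟩
  intro N _ α β hα2 hβ2 hα hβ hαβ x hx hx1 hle
  have hN1 : (1 : ℝ) ≤ N := by exact_mod_cast NeZero.one_le
  have hK : 1 ≤ C0 * (N : ℝ) ^ 3 := by
    have := one_le_pow₀ hN1 (n := 3)
    nlinarith
  have hx' : 0 < 1 - x := by linarith
  have hentire := differentiable_G hα hβ hαβ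
  have hcauchy : ∀ m, ‖iteratedDeriv m (G α β) 2‖ ≤ m ! * (C0 * (N : ℝ) ^ 3) / (3 / 2) ^ m := by
    intro m
    exact Complex.norm_iteratedDeriv_le_of_forall_mem_sphere_norm_le m (by norm_num)
      hentire.diffContOnCl (hG N α β hα hβ hαβ)
  have hfac : ∀ m : ℕ, (0 : ℝ) < m ! := fun m => by exact_mod_cast Nat.factorial_pos m
  have hbl : ∀ m, |bc α β m - (P3 α β 1).re| ≤ C0 * (N : ℝ) ^ 3 * (2 / 3) ^ m := by
    intro m
    rw [← gcoef hα hβ hαβ m]
    refine (Complex.abs_re_le_norm _).trans ?_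
    rw [norm_div, norm_mul, norm_pow, norm_neg, norm_one, one_pow, one_mul, Complex.norm_natCast,
      div_le_iff₀ (hfac m)]
    refine (hcauchy m).trans (le_of_eq ?_)
    have : (2 / 3 : ℝ) ^ m = ((3 / 2 : ℝ) ^ m)⁻¹ := by rw [← inv_pow]; norm_num
    rw [this]
    ring
  have hx1' : (x : ℂ) ≠ 1 := by
    intro h
    have : x = 1 := by exact_mod_cast h
    linarith
  have hsum : HasSum (fun m : ℕ => (bc α β m - (P3 α β 1).re) * (2 - x) ^ m) (G α β x).re := by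
    have h1 := Complex.hasSum_taylorSeries_of_entire hentire 2 (x : ℂ)
    have h2 := Complex.hasSum_re h1
    refine h2.congr_fun ?_ |> fun h => h
    intro m
    rw [← gcoef hα hβ hαβ m]
    have h3 : ((m ! : ℂ)⁻¹ • ((x : ℂ) - 2) ^ m • iteratedDeriv m (G α β) 2) =
        ((-1) ^ m * iteratedDeriv m (G α β) 2 / m !) * (((2 - x) ^ m : ℝ) : ℂ) := by
      simp only [smul_eq_mul]
      push_cast
      have h4 : ((x : ℂ) - 2) ^ m = (-1) ^ m * (2 - (x : ℂ)) ^ m := by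
        rw [← mul_pow]; congr 1; ring
      rw [h4]
      ring
    rw [h3, Complex.re_mul_ofReal]
  have hfin : (G α β x).re - (P3 α β 1).re / (1 - x) ≤ 0 := by
    have h1 := G_eq α β hx1'
    have h2 : P3 α β 1 * ((x : ℂ) - 1)⁻¹ = -(P3 α β 1 / ((1 - x : ℝ) : ℂ)) := by
      push_cast
      rw [← neg_sub (1 : ℂ) (x : ℂ), inv_neg]
      ring
    rw [h1, h2, sub_neg_eq_add, Complex.add_re, Complex.div_ofReal_re]
    linarith
  have hfinal := core (bc_nonneg hα2 hβ2) (bc_zero hα2 hβ2) hK hbl hx hx1 hsum hfin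
  have hlam : 0 ≤ (P3 α β 1).re := by
    by_contra h
    push Not at h
    have : 6 * (8 * (C0 * (N : ℝ) ^ 3)) ^ (4 * (1 - x)) * (P3 α β 1).re ≤ 0 :=
      mul_nonpos_of_nonneg_of_nonpos (by positivity) h.le
    linarith
  refine hfinal.trans ?_
  have h5 : (8 * (C0 * (N : ℝ) ^ 3)) ^ (4 * (1 - x)) ≤ (8 * C0) * (N : ℝ) ^ (12 * (1 - x)) := by
    have h6 : 8 * (C0 * (N : ℝ) ^ 3) = (8 * C0) * (N : ℝ) ^ (3 : ℝ) := by
      norm_cast
      ring
    rw [h6, Real.mul_rpow (by positivity) (by positivity), ← Real.rpow_mul (by positivity)]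
    have h7 : (8 * C0) ^ (4 * (1 - x)) ≤ (8 * C0) ^ (1 : ℝ) :=
      Real.rpow_le_rpow_of_exponent_le (by linarith) (by linarith)
    rw [Real.rpow_one] at h7
    have h8 : (3 : ℝ) * (4 * (1 - x)) = 12 * (1 - x) := by ring
    rw [h8]
    gcongr
  calc 6 * (8 * (C0 * (N : ℝ) ^ 3)) ^ (4 * (1 - x)) * (P3 α β 1).re
      ≤ 6 * ((8 * C0) * (N : ℝ) ^ (12 * (1 - x))) * (P3 α β 1).re := by gcongr
    _ = 6 * (8 * C0) * (N : ℝ) ^ (12 * (1 - x)) * (P3 α β 1).re := by ring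

end Crest.Agent.SW.Siegel
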