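import Crest.Agent.SW.Forms
import Crest.Agent.R001.SW.EF

/-!
# Convolution with squares preserves savings
-/

namespace Crest.Agent.SW

open Finset Crest.Agent.R001.SW

/-- `∑_{d ≤ N} d^{-3/2} ≤ 3` -/
lemma sum_rpow_three_half (N : ℕ) : ∑ d ∈ Icc 1 N, (d : ℝ) ^ (-(3 / 2) : ℝ) ≤ 3 := by
  have h0 : (0 : ℝ) < 1 / 2 := by norm_num
  have hsum := summable_rpow_aux h0
  have h1 : ∑ d ∈ Icc 1 N, (d : ℝ) ^ (-(3 / 2) : ℝ) =
      ∑ n ∈ Finset.range N, ((n + 1 : ℕ) : ℝ) ^ (-(1 / 2) - 1 : ℝ) := by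
    rw [Finset.range_eq_Ico, Finset.sum_Ico_add' (fun n : ℕ => ((n : ℕ) : ℝ) ^ (-(1 / 2) - 1 : ℝ)) 0 N 1]
    refine Finset.sum_congr ?_ fun n _ => by norm_num
    ext n; simp

  rw [h1]
  refine (hsum.sum_le_tsum _ (fun n _ => by positivity)).trans ((tsum_all_le h0).trans ?_)
  norm_num

lemma sum_inv_sq_le (N : ℕ) : ∑ d ∈ Icc 1 N, (1 : ℝ) / (d : ℝ) ^ 2 ≤ 3 := by
  refine le_trans (Finset.sum_le_sum fun d hd => ?_) (sum_rpow_three_half N)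
  have hd1 : (1 : ℝ) ≤ d := by exact_mod_cast (mem_Icc.mp hd).1
  rw [one_div, ← Real.rpow_natCast, ← Real.rpow_neg (by linarith)]
  exact Real.rpow_le_rpow_of_exponent_le hd1 (by norm_num)

/-- the abstract estimate for `∑_{d ≤ √x} S(x/d²)` -/
lemma sum_sq_bound {S : ℝ → ℝ} {x C A : ℝ} (hx : 1 < x) (hA : 0 ≤ A) (hC : 0 ≤ C)
    (htriv : ∀ y : ℝ, 0 < y → S y ≤ y)
    (hS : ∀ y : ℝ, Real.sqrt x ≤ y → y ≤ x → S y ≤ C * y / (Real.log y) ^ A) (N : ℕ) :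
    ∑ d ∈ Icc 1 N, S (x / d ^ 2) ≤ 3 * C * 2 ^ A * x / (Real.log x) ^ A + 3 * x ^ (7 / 8 : ℝ) := by
  have hx0 : 0 < x := by linarith
  have hl : 0 < Real.log x := Real.log_pos hx
  have hlA : 0 < (Real.log x) ^ A := Real.rpow_pos_of_pos hl _
  have hterm : ∀ d ∈ Icc 1 N, S (x / d ^ 2) ≤
      (C * 2 ^ A * x / (Real.log x) ^ A) * (1 / (d : ℝ) ^ 2) +
        x ^ (7 / 8 : ℝ) * (d : ℝ) ^ (-(3 / 2) : ℝ) := by
    intro d hd
    have hd1 : (1 : ℝ) ≤ d := by exact_mod_cast (mem_Icc.mp hd).1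
    have hd0 : (0 : ℝ) < d := by linarith
    have hd2 : (0 : ℝ) < (d : ℝ) ^ 2 := by positivity
    have hpos1 : 0 ≤ (C * 2 ^ A * x / (Real.log x) ^ A) * (1 / (d : ℝ) ^ 2) := by positivity
    have hpos2 : 0 ≤ x ^ (7 / 8 : ℝ) * (d : ℝ) ^ (-(3 / 2) : ℝ) := by positivity
    by_cases hcase : Real.sqrt x ≤ x / d ^ 2
    · have hyx : x / (d : ℝ) ^ 2 ≤ x := by
        rw [div_le_iff₀ hd2]
        nlinarith [mul_le_mul hd1 hd1 (by norm_num) hd0.le]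
      have h1 := hS _ hcase hyx
      have h2 : Real.log x / 2 ≤ Real.log (x / d ^ 2) := by
        rw [← Real.log_sqrt hx0.le]
        exact Real.log_le_log (Real.sqrt_pos.mpr hx0) hcase
      have h3 : (Real.log x / 2) ^ A ≤ (Real.log (x / d ^ 2)) ^ A :=
        Real.rpow_le_rpow (by positivity) h2 hA
      have h4 : (Real.log x / 2) ^ A = (Real.log x) ^ A / 2 ^ A :=
        Real.div_rpow hl.le (by norm_num) A
      rw [h4] at h3
      have h2A : (0 : ℝ) < 2 ^ A := by positivity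
      calc S (x / d ^ 2) ≤ C * (x / d ^ 2) / (Real.log (x / d ^ 2)) ^ A := h1
        _ ≤ C * (x / d ^ 2) / ((Real.log x) ^ A / 2 ^ A) := by gcongr
        _ = (C * 2 ^ A * x / (Real.log x) ^ A) * (1 / (d : ℝ) ^ 2) := by field_simp
        _ ≤ _ := by linarith
    · push Not at hcase
      have h1 := htriv (x / d ^ 2) (by positivity)
      -- x / d^2 < sqrt x means sqrt x < d^2
      have h2 : Real.sqrt x < (d : ℝ) ^ 2 := by
        rw [div_lt_iff₀ hd2] at hcase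
        have hs : Real.sqrt x * Real.sqrt x = x := Real.mul_self_sqrt hx0.le
        have hspos : 0 < Real.sqrt x := Real.sqrt_pos.mpr hx0
        nlinarith
      have h3 : x ^ (1 / 8 : ℝ) ≤ (d : ℝ) ^ (1 / 2 : ℝ) := by
        have h4 : x ^ (1 / 8 : ℝ) = (Real.sqrt x) ^ (1 / 4 : ℝ) := by
          rw [Real.sqrt_eq_rpow, ← Real.rpow_mul hx0.le]; norm_num
        have h5 : (d : ℝ) ^ (1 / 2 : ℝ) = ((d : ℝ) ^ 2) ^ (1 / 4 : ℝ) := by
          rw [← Real.rpow_natCast, ← Real.rpow_mul hd0.le]; norm_num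
        rw [h4, h5]
        exact Real.rpow_le_rpow (Real.sqrt_nonneg _) h2.le (by norm_num)
      have h6 : x / (d : ℝ) ^ 2 = x ^ (7 / 8 : ℝ) * x ^ (1 / 8 : ℝ) / (d : ℝ) ^ 2 := by
        rw [← Real.rpow_add hx0]; norm_num
      have h7 : (d : ℝ) ^ (1 / 2 : ℝ) / (d : ℝ) ^ 2 = (d : ℝ) ^ (-(3 / 2) : ℝ) := by
        rw [← Real.rpow_natCast (d : ℝ) 2, ← Real.rpow_sub hd0]; norm_num
      calc S (x / d ^ 2) ≤ x / (d : ℝ) ^ 2 := h1
        _ = x ^ (7 / 8 : ℝ) * x ^ (1 / 8 : ℝ) / (d : ℝ) ^ 2 := h6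
        _ ≤ x ^ (7 / 8 : ℝ) * (d : ℝ) ^ (1 / 2 : ℝ) / (d : ℝ) ^ 2 := by gcongr
        _ = x ^ (7 / 8 : ℝ) * (d : ℝ) ^ (-(3 / 2) : ℝ) := by rw [← h7]; ring
        _ ≤ _ := by linarith
  calc ∑ d ∈ Icc 1 N, S (x / d ^ 2) ≤ ∑ d ∈ Icc 1 N,
        ((C * 2 ^ A * x / (Real.log x) ^ A) * (1 / (d : ℝ) ^ 2) +
        x ^ (7 / 8 : ℝ) * (d : ℝ) ^ (-(3 / 2) : ℝ)) := Finset.sum_le_sum hterm
    _ = (C * 2 ^ A * x / (Real.log x) ^ A) * ∑ d ∈ Icc 1 N, (1 / (d : ℝ) ^ 2) +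
        x ^ (7 / 8 : ℝ) * ∑ d ∈ Icc 1 N, (d : ℝ) ^ (-(3 / 2) : ℝ) := by
        rw [Finset.sum_add_distrib, Finset.mul_sum, Finset.mul_sum]
    _ ≤ (C * 2 ^ A * x / (Real.log x) ^ A) * 3 + x ^ (7 / 8 : ℝ) * 3 := by
        gcongr
        · exact sum_inv_sq_le N
        · exact sum_rpow_three_half N
    _ = _ := by ring

/-- `x^{7/8} ≤ M x/(log x)^A` -/
lemma rpow_seven_eighth_le (A : ℝ) (hA : 0 ≤ A) : ∃ M : ℝ, 0 ≤ M ∧ ∀ x : ℝ, 3 ≤ x →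
    x ^ (7 / 8 : ℝ) ≤ M * x / (Real.log x) ^ A := by
  refine ⟨(8 * (A + 1)) ^ A, by positivity, fun x hx => ?_⟩
  have hx0 : 0 < x := by linarith
  have hl1 := one_le_log hx
  have hA1 : 0 < A + 1 := by linarith
  have hpos : 0 < (Real.log x) ^ A := by positivity
  rw [le_div_iff₀ hpos]
  have h1 : Real.log x ≤ x ^ (1 / (8 * (A + 1))) * (8 * (A + 1)) := by
    have := Real.log_le_rpow_div hx0.le (ε := 1 / (8 * (A + 1))) (by positivity)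
    calc Real.log x ≤ _ := this
      _ = _ := by field_simp
  have h2 : (Real.log x) ^ A ≤ x ^ (1 / 8 : ℝ) * (8 * (A + 1)) ^ A := by
    calc (Real.log x) ^ A ≤ (x ^ (1 / (8 * (A + 1))) * (8 * (A + 1))) ^ A :=
          Real.rpow_le_rpow (by linarith) h1 hA
      _ = x ^ (1 / (8 * (A + 1)) * A) * (8 * (A + 1)) ^ A := by
          rw [Real.mul_rpow (by positivity) (by positivity), ← Real.rpow_mul hx0.le]
      _ ≤ x ^ (1 / 8 : ℝ) * (8 * (A + 1)) ^ A := by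
          gcongr
          · linarith
          · rw [div_mul_eq_mul_div, one_mul, div_le_div_iff₀ (by positivity) (by norm_num)]
            nlinarith
  calc x ^ (7 / 8 : ℝ) * (Real.log x) ^ A ≤ x ^ (7 / 8 : ℝ) * (x ^ (1 / 8 : ℝ) * (8 * (A + 1)) ^ A) := by
        gcongr
    _ = (x ^ (7 / 8 : ℝ) * x ^ (1 / 8 : ℝ)) * (8 * (A + 1)) ^ A := by ring
    _ = x * (8 * (A + 1)) ^ A := by rw [← Real.rpow_add hx0]; norm_num
    _ = _ := by ring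

/-- for large `x` and `y ≥ √x`: `(log x)^B ≤ (log y)^(B+1)` -/
lemma exists_large_log (B : ℝ) (hB : 0 ≤ B) : ∃ X0 : ℝ, 3 ≤ X0 ∧ ∀ x : ℝ, X0 ≤ x → ∀ y : ℝ,
    Real.sqrt x ≤ y → (Real.log x) ^ B ≤ (Real.log y) ^ (B + 1) ∧ 2 ≤ y ∧ 1 ≤ Real.log y := by
  refine ⟨max 9 (Real.exp (2 * 2 ^ B)), le_max_of_le_left (by norm_num), fun x hx y hy => ?_⟩
  have hx9 : 9 ≤ x := (le_max_left _ _).trans hx
  have hx0 : 0 < x := by linarith
  have hs3 : 3 ≤ Real.sqrt x := by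
    rw [show (3 : ℝ) = Real.sqrt 9 by
      rw [show (9 : ℝ) = 3 ^ 2 by norm_num, Real.sqrt_sq (by norm_num)]]
    exact Real.sqrt_le_sqrt hx9
  have hy3 : 3 ≤ y := hs3.trans hy
  have hly1 := one_le_log hy3
  have hlx : Real.log x / 2 ≤ Real.log y := by
    rw [← Real.log_sqrt hx0.le]
    exact Real.log_le_log (by linarith) hy
  have hlx2 : 2 * 2 ^ B ≤ Real.log x := by
    rw [Real.le_log_iff_exp_le hx0]
    exact (le_max_right _ _).trans hx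
  refine ⟨?_, by linarith, hly1⟩
  have hlx0 : 0 ≤ Real.log x := by
    have : (0 : ℝ) < 2 ^ B := by positivity
    linarith
  calc (Real.log x) ^ B ≤ (2 * Real.log y) ^ B := Real.rpow_le_rpow hlx0 (by linarith) hB
    _ = 2 ^ B * (Real.log y) ^ B := Real.mul_rpow (by norm_num) (by linarith)
    _ ≤ Real.log y * (Real.log y) ^ B := by gcongr; linarith
    _ = (Real.log y) ^ (B + 1) := by rw [Real.rpow_add_one (by linarith)]; ring

/-- **convolution with squares preserves savings** -/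
theorem sav_sq {P : ∀ q : ℕ, DirichletCharacter ℂ q → Prop} {f g c : ℕ → ℂ}
    (hf : ∀ n, ‖f n‖ ≤ 1) (hg : ∀ n, ‖g n‖ ≤ 1) (hc : ∀ n, ‖c n‖ ≤ 1)
    (hfg : ∀ n N : ℕ, n ≠ 0 → n ≤ N →
      g n = ∑ d ∈ (Icc 1 N).filter (fun d => d ^ 2 ∣ n), c d * f (n / d ^ 2))
    (h : Sav P f) : Sav P g := by
  refine sav_of_large (fun n hn => (hg n).trans (by
    have := Real.log_natCast_nonneg n; linarith)) fun A B hA hB => ?_
  obtain ⟨C, hC⟩ := h A (B + 1)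
  obtain ⟨M, hM0, hM⟩ := rpow_seven_eighth_le A (by linarith)
  obtain ⟨X0, hX3, hX0⟩ := exists_large_log B (by linarith)
  refine ⟨3 * |C| * 2 ^ A + 3 * M, X0, fun x hx hx3 q hq hqB χ hχ => ?_⟩
  have hx0 : 0 < x := by linarith
  have hl1 := one_le_log hx3
  set S : ℝ → ℝ := fun y => ‖∑ m ∈ Icc 1 ⌊y⌋₊, f m * χ m‖ with hS
  -- identity
  have hid : ∑ n ∈ Icc 1 ⌊x⌋₊, g n * χ n =
      ∑ d ∈ Icc 1 ⌊x⌋₊, (c d * χ d ^ 2) * ∑ m ∈ Icc 1 (⌊x⌋₊ / d ^ 2), f m * χ m := by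
    have h1 : ∀ n ∈ Icc 1 ⌊x⌋₊, g n * χ n =
        ∑ d ∈ (Icc 1 ⌊x⌋₊).filter (fun d => d ^ 2 ∣ n),
          (c d * χ d ^ 2) * (f (n / d ^ 2) * χ ((n / d ^ 2 : ℕ) : ZMod q)) := by
      intro n hn
      rw [mem_Icc] at hn
      rw [hfg n ⌊x⌋₊ (by omega) hn.2, Finset.sum_mul]
      refine Finset.sum_congr rfl fun d hd => ?_
      obtain ⟨e, he⟩ := (mem_filter.mp hd).2
      have hd1 := (mem_Icc.mp (mem_filter.mp hd).1).1
      have hd2 : 0 < d ^ 2 := by positivity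
      rw [he, Nat.mul_div_cancel_left _ hd2]
      push_cast
      rw [map_mul, map_pow]
      ring
    rw [Finset.sum_congr rfl h1, sum_sq_exchange ⌊x⌋₊
      (fun d m => (c d * χ d ^ 2) * (f m * χ (m : ZMod q)))]
    refine Finset.sum_congr rfl fun d _ => ?_
    rw [Finset.mul_sum]
  rw [hid]
  have hb : ‖∑ d ∈ Icc 1 ⌊x⌋₊, (c d * χ d ^ 2) * ∑ m ∈ Icc 1 (⌊x⌋₊ / d ^ 2), f m * χ m‖ ≤
      ∑ d ∈ Icc 1 ⌊x⌋₊, S (x / d ^ 2) := by
    refine (norm_sum_le _ _).trans (Finset.sum_le_sum fun d _ => ?_)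
    rw [norm_mul, norm_mul, norm_pow]
    have h1 : ‖χ d‖ ≤ 1 := χ.norm_le_one _
    have h2 : ⌊x⌋₊ / d ^ 2 = ⌊x / (d : ℝ) ^ 2⌋₊ := by
      have := Nat.floor_div_natCast x (d ^ 2)
      push_cast at this
      exact this.symm
    rw [h2]
    have h3 : 0 ≤ S (x / d ^ 2) := norm_nonneg _
    calc ‖c d‖ * ‖χ d‖ ^ 2 * S (x / d ^ 2) ≤ 1 * 1 ^ 2 * S (x / d ^ 2) := by
          gcongr; exact hc d
      _ = _ := by ring
  refine hb.trans ?_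
  have key := sum_sq_bound (S := S) (x := x) (C := |C|) (A := A) (by linarith) (by linarith)
    (abs_nonneg C) (fun y hy => ?_) (fun y hy hyx => ?_) ⌊x⌋₊
  · refine key.trans ?_
    have h7 := hM x hx3
    calc 3 * |C| * 2 ^ A * x / Real.log x ^ A + 3 * x ^ (7 / 8 : ℝ)
        ≤ 3 * |C| * 2 ^ A * x / Real.log x ^ A + 3 * (M * x / (Real.log x) ^ A) := by gcongr
      _ = _ := by ring
  · -- trivial bound
    calc S y ≤ ∑ m ∈ Icc 1 ⌊y⌋₊, ‖f m * χ m‖ := norm_sum_le _ _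
      _ ≤ ∑ m ∈ Icc 1 ⌊y⌋₊, (1 : ℝ) := by
          refine Finset.sum_le_sum fun m _ => ?_
          rw [norm_mul]
          have h1 : ‖χ m‖ ≤ 1 := χ.norm_le_one _
          calc ‖f m‖ * ‖χ m‖ ≤ 1 * 1 := by gcongr; exact hf m
            _ = 1 := one_mul 1
      _ = ⌊y⌋₊ := by simp
      _ ≤ y := Nat.floor_le hy.le
  · obtain ⟨g1, g2, g3⟩ := hX0 x hx y hy
    refine (hC y g2 q hq (hqB.trans g1) χ hχ).trans ?_
    have : 0 < Real.log y := by linarith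
    gcongr
    exact le_abs_self C

end Crest.Agent.SW
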