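import Mathlib

/-!
# `λ = 1_{□} * μ` and `μ = (μ on squares) * λ`, with summatory functions
-/

namespace Crest.Agent.SW

open Finset ArithmeticFunction

/-- the Liouville function, real valued -/
noncomputable def lam (n : ℕ) : ℝ := ((liouville n : ℤ) : ℝ)

/-- the Möbius function, real valued -/
noncomputable def muR (n : ℕ) : ℝ := ((moebius n : ℤ) : ℝ)

lemma lam_mul (m n : ℕ) : lam (m * n) = lam m * lam n := by
  simp [lam, liouville_apply_mul]

lemma lam_apply {n : ℕ} (hn : n ≠ 0) : lam n = (-1) ^ cardFactors n := by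
  simp [lam, liouville_apply hn]

lemma abs_lam_le (n : ℕ) : |lam n| ≤ 1 := by
  rcases eq_or_ne n 0 with rfl | hn
  · simp [lam]
  · rw [lam_apply hn, abs_pow, abs_neg, abs_one, one_pow]

lemma abs_lam {n : ℕ} (hn : n ≠ 0) : |lam n| = 1 := by
  rw [lam_apply hn, abs_pow, abs_neg, abs_one, one_pow]

lemma abs_muR_le (n : ℕ) : |muR n| ≤ 1 := by
  have : |moebius n| ≤ 1 := abs_moebius_le_one
  unfold muR
  exact_mod_cast this

lemma lam_one : lam 1 = 1 := by simp [lam, liouville_apply_one]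

lemma lam_sq {n : ℕ} (hn : n ≠ 0) : lam (n ^ 2) = 1 := by
  rw [sq, lam_mul]
  have := abs_lam hn
  nlinarith [sq_abs (lam n)]

lemma muR_eq_lam {n : ℕ} (hn : Squarefree n) : muR n = lam n := by
  rw [lam_apply hn.ne_zero, muR, moebius_apply_of_squarefree hn]
  push_cast; rfl

lemma muR_eq_zero {n : ℕ} (hn : ¬ Squarefree n) : muR n = 0 := by
  rw [muR, moebius_eq_zero_of_not_squarefree hn]; simp

lemma sum_muR_divisors (a : ℕ) : ∑ d ∈ a.divisors, muR d = if a = 1 then 1 else 0 := by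
  have h1 : (moebius * (zeta : ArithmeticFunction ℤ)) a = ∑ d ∈ a.divisors, moebius d :=
    coe_mul_zeta_apply
  rw [moebius_mul_coe_zeta, one_apply] at h1
  have h2 : (∑ d ∈ a.divisors, muR d) = ((∑ d ∈ a.divisors, moebius d : ℤ) : ℝ) := by
    push_cast; rfl
  rw [h2, ← h1]
  split_ifs <;> simp

/-- the square divisors -/
lemma sq_dvd_iff {a b d : ℕ} (hb : Squarefree b) (ha : a ≠ 0) : d ^ 2 ∣ a ^ 2 * b ↔ d ∣ a := by
  constructor
  · intro h
    rw [← Nat.factorization_le_iff_dvd (by rintro rfl; simp at h; rcases h with h | h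
                                           · exact ha h
                                           · exact hb.ne_zero h) ha]
    intro p
    have hab : a ^ 2 * b ≠ 0 := mul_ne_zero (pow_ne_zero _ ha) hb.ne_zero
    have hd : d ^ 2 ≠ 0 := ne_zero_of_dvd_ne_zero hab h
    have h1 := (Nat.factorization_le_iff_dvd hd hab).mpr h p
    rw [Nat.factorization_mul (pow_ne_zero _ ha) hb.ne_zero, Nat.factorization_pow,
      Nat.factorization_pow] at h1
    simp only [Finsupp.coe_smul, Finsupp.coe_add, Pi.smul_apply, Pi.add_apply, smul_eq_mul] at h1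
    have h2 := hb.natFactorization_le_one p
    omega
  · intro h
    exact Dvd.dvd.mul_right (pow_dvd_pow_of_dvd h 2) b

lemma lam_eq_sum (n N : ℕ) (hn : n ≠ 0) (hN : n ≤ N) :
    lam n = ∑ d ∈ (Icc 1 N).filter (fun d => d ^ 2 ∣ n), muR (n / d ^ 2) := by
  obtain ⟨b, a, hba, hb⟩ := Nat.sq_mul_squarefree n
  have ha : a ≠ 0 := by rintro rfl; simp at hba; exact hn hba.symm
  have hba' : n = a ^ 2 * b := hba.symm
  rw [Finset.sum_eq_single a]
  · rw [hba', Nat.mul_div_cancel_left _ (by positivity), muR_eq_lam hb, lam_mul, lam_sq ha, one_mul]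
  · intro d hd hda
    rw [mem_filter, mem_Icc] at hd
    have hdvd : d ∣ a := (sq_dvd_iff hb ha).mp (hba' ▸ hd.2)
    obtain ⟨e, he⟩ := hdvd
    have he1 : e ≠ 1 := by rintro rfl; exact hda (by rw [he, mul_one])
    have hdpos : 0 < d ^ 2 := by have := hd.1.1; positivity
    have : n / d ^ 2 = e ^ 2 * b := by
      rw [hba', he, mul_pow, mul_assoc, Nat.mul_div_cancel_left _ hdpos]
    rw [this]
    refine muR_eq_zero fun hsq => he1 ?_
    have h1 : e * e ∣ e ^ 2 * b := ⟨b, by ring⟩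
    exact Nat.isUnit_iff.mp (hsq e h1)
  · intro h
    exfalso
    apply h
    rw [mem_filter, mem_Icc]
    refine ⟨⟨Nat.one_le_iff_ne_zero.mpr ha, ?_⟩, ⟨b, hba'⟩⟩
    have hb1 : 1 ≤ b := Nat.one_le_iff_ne_zero.mpr hb.ne_zero
    have ha1 : 1 ≤ a := Nat.one_le_iff_ne_zero.mpr ha
    calc a ≤ a ^ 2 * b := by nlinarith [Nat.mul_le_mul ha1 hb1]
      _ = n := hba
      _ ≤ N := hN

lemma muR_eq_sum (n N : ℕ) (hn : n ≠ 0) (hN : n ≤ N) :
    muR n = ∑ d ∈ (Icc 1 N).filter (fun d => d ^ 2 ∣ n), muR d * lam (n / d ^ 2) := by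
  obtain ⟨b, a, hba, hb⟩ := Nat.sq_mul_squarefree n
  have ha : a ≠ 0 := by rintro rfl; simp at hba; exact hn hba.symm
  have hba' : n = a ^ 2 * b := hba.symm
  have haN : a ≤ N := by
    have hb1 : 1 ≤ b := Nat.one_le_iff_ne_zero.mpr hb.ne_zero
    have ha1 : 1 ≤ a := Nat.one_le_iff_ne_zero.mpr ha
    calc a ≤ a ^ 2 * b := by nlinarith [Nat.mul_le_mul ha1 hb1]
      _ = n := hba
      _ ≤ N := hN
  have hset : (Icc 1 N).filter (fun d => d ^ 2 ∣ n) = a.divisors := by
    ext d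
    rw [mem_filter, mem_Icc, Nat.mem_divisors, hba', sq_dvd_iff hb ha]
    constructor
    · rintro ⟨_, h⟩; exact ⟨h, ha⟩
    · rintro ⟨h, _⟩
      exact ⟨⟨Nat.pos_of_dvd_of_pos h (Nat.pos_of_ne_zero ha),
        (Nat.le_of_dvd (Nat.pos_of_ne_zero ha) h).trans haN⟩, h⟩
  rw [hset]
  have h1 : ∀ d ∈ a.divisors, muR d * lam (n / d ^ 2) = muR d * lam b := by
    intro d hd
    obtain ⟨e, he⟩ := (Nat.mem_divisors.mp hd).1
    have hd0 : 0 < d := Nat.pos_of_mem_divisors hd
    have he0 : e ≠ 0 := by rintro rfl; exact ha (by rw [he, mul_zero])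
    have : n / d ^ 2 = e ^ 2 * b := by
      rw [hba', he, mul_pow, mul_assoc, Nat.mul_div_cancel_left _ (by positivity)]
    rw [this, lam_mul, lam_sq he0, one_mul]
  rw [Finset.sum_congr rfl h1, ← Finset.sum_mul]
  have h2 : ∑ d ∈ a.divisors, muR d = if a = 1 then 1 else 0 := by
    exact sum_muR_divisors a
  rw [h2]
  split_ifs with h
  · subst h
    rw [one_mul, hba', one_pow, one_mul, muR_eq_lam hb]
  · rw [zero_mul, hba']
    refine muR_eq_zero fun hsq => h ?_
    have h1 : a * a ∣ a ^ 2 * b := ⟨b, by ring⟩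
    exact Nat.isUnit_iff.mp (hsq a h1)

end Crest.Agent.SW
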