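import Crest.Agent.R001.SW.Zeta

/-!
# Upper bounds for the Riemann zeta function near `Re s = 1`

`zeta1_upper`: `‖ζ₁ s‖ ≤ C_η (‖s-1‖+1) (|Im s|+2)^η` for `1-η ≤ Re s ≤ 3`.
`zeta_upper`: `‖ζ s‖ ≤ C_η (|Im s|+2)^η` for `1-η ≤ Re s ≤ 3`, `|Im s| ≥ 1/2`.
-/

namespace Crest.Agent.SW.ZS

open Complex Finset Crest.Agent.R001.SW

/-- the height -/
noncomputable def ht (s : ℂ) : ℝ := |s.im| + 2

lemma two_le_ht (s : ℂ) : 2 ≤ ht s := by unfold ht; linarith [abs_nonneg s.im]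

lemma ht_pos (s : ℂ) : 0 < ht s := by linarith [two_le_ht s]

lemma one_le_ht_rpow (s : ℂ) {η : ℝ} (hη : 0 ≤ η) : 1 ≤ ht s ^ η :=
  Real.one_le_rpow (by linarith [two_le_ht s]) hη

lemma ht_le_of_dist {s w : ℂ} {r : ℝ} (h : ‖w - s‖ ≤ r) (hr : r ≤ 1) : ht w ≤ 2 * ht s := by
  have h1 : |(w - s).im| ≤ ‖w - s‖ := Complex.abs_im_le_norm _
  have h2 : |w.im| ≤ |s.im| + |(w - s).im| := by
    have : w.im = s.im + (w - s).im := by simp
    calc |w.im| = |s.im + (w - s).im| := by rw [← this]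
      _ ≤ _ := abs_add_le _ _
  unfold ht
  have := abs_nonneg s.im
  linarith

lemma zeta1_upper {η : ℝ} (hη : 0 < η) (hη1 : η ≤ 1 / 2) :
    ∃ C : ℝ, 1 ≤ C ∧ ∀ s : ℂ, 1 - η ≤ s.re → s.re ≤ 3 →
      ‖riemannZeta₁ s‖ ≤ C * (‖s - 1‖ + 1) * ht s ^ η := by
  refine ⟨3 / η + 9, by have : 0 < 3 / η := by positivity
                        linarith, fun s h1 h3 => ?_⟩
  set T := ht s with hT
  have hT2 : 2 ≤ T := two_le_ht s
  have hT0 : 0 < T := by linarith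
  set N := ⌈T⌉₊ with hN
  have hNT : T ≤ N := Nat.le_ceil T
  have hN1 : 1 ≤ N := by
    have : (1 : ℝ) ≤ N := by linarith
    exact_mod_cast this
  have hN2 : (N : ℝ) < T + 1 := Nat.ceil_lt_add_one hT0.le
  have hN3 : ((N + 1 : ℕ) : ℝ) ≤ 3 * T := by push_cast; linarith
  have hσ : 0 < s.re := by linarith
  have hTη : 1 ≤ T ^ η := one_le_ht_rpow s hη.le
  have h3η : (3 : ℝ) ^ η ≤ 3 := by
    calc (3 : ℝ) ^ η ≤ 3 ^ (1 : ℝ) := Real.rpow_le_rpow_of_exponent_le (by norm_num) (by linarith)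
      _ = 3 := Real.rpow_one 3
  have hA : ∑ n ∈ Icc 1 (N + 1), (n : ℝ) ^ (-s.re) ≤ 3 / η * T ^ η := by
    calc ∑ n ∈ Icc 1 (N + 1), (n : ℝ) ^ (-s.re)
        ≤ ∑ n ∈ Icc 1 (N + 1), (n : ℝ) ^ (η - 1) := by
          refine Finset.sum_le_sum fun n hn => ?_
          have hn1 := (mem_Icc.mp hn).1
          exact Real.rpow_le_rpow_of_exponent_le (by exact_mod_cast hn1) (by linarith)
      _ ≤ ((N + 1 : ℕ) : ℝ) ^ η / η := sum_Icc_rpow_le hη (by linarith) _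
      _ ≤ (3 * T) ^ η / η := by gcongr
      _ = 3 ^ η * T ^ η / η := by rw [Real.mul_rpow (by norm_num) hT0.le]
      _ ≤ 3 * T ^ η / η := by gcongr
      _ = 3 / η * T ^ η := by ring
  have hB : ((N + 1 : ℕ) : ℝ) ^ (1 - s.re) ≤ 3 * T ^ η := by
    calc ((N + 1 : ℕ) : ℝ) ^ (1 - s.re) ≤ ((N + 1 : ℕ) : ℝ) ^ η :=
          Real.rpow_le_rpow_of_exponent_le (by exact_mod_cast Nat.succ_le_succ (Nat.zero_le N))
            (by linarith)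
      _ ≤ (3 * T) ^ η := by gcongr
      _ = 3 ^ η * T ^ η := by rw [Real.mul_rpow (by norm_num) hT0.le]
      _ ≤ 3 * T ^ η := by gcongr
  have hs : ‖s‖ ≤ 3 * T := by
    have := Complex.norm_le_abs_re_add_abs_im s
    have h0 : |s.re| ≤ 3 := abs_le.mpr ⟨by linarith, h3⟩
    rw [hT]; unfold ht; linarith [abs_nonneg s.im]
  have hD : ‖s‖ * ((N : ℝ) ^ (-s.re) / s.re) ≤ 6 * T ^ η := by
    have h1' : (N : ℝ) ^ (-s.re) ≤ T ^ (η - 1) := by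
      calc (N : ℝ) ^ (-s.re) ≤ (N : ℝ) ^ (η - 1) :=
            Real.rpow_le_rpow_of_exponent_le (by exact_mod_cast hN1) (by linarith)
        _ ≤ T ^ (η - 1) := Real.rpow_le_rpow_of_nonpos hT0 hNT (by linarith)
    have h2' : T * T ^ (η - 1) = T ^ η := by
      rw [Real.rpow_sub_one hT0.ne']; field_simp
    calc ‖s‖ * ((N : ℝ) ^ (-s.re) / s.re) ≤ (3 * T) * (T ^ (η - 1) / (1 / 2)) := by
          gcongr; linarith
      _ = 6 * (T * T ^ (η - 1)) := by ring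
      _ = 6 * T ^ η := by rw [h2']
  have := norm_zeta1_le_trunc hσ hN1
  have hs1 : 0 ≤ ‖s - 1‖ := norm_nonneg _
  calc ‖riemannZeta₁ s‖ ≤ _ := this
    _ = ‖s - 1‖ * ∑ n ∈ Icc 1 (N + 1), (n : ℝ) ^ (-s.re) + ((N + 1 : ℕ) : ℝ) ^ (1 - s.re) +
        ‖s - 1‖ * (‖s‖ * ((N : ℝ) ^ (-s.re) / s.re)) := by ring
    _ ≤ ‖s - 1‖ * (3 / η * T ^ η) + 3 * T ^ η + ‖s - 1‖ * (6 * T ^ η) := by gcongr
    _ ≤ (3 / η + 9) * (‖s - 1‖ + 1) * T ^ η := by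
        have h3 : 0 < 3 / η := by positivity
        have h4 : 0 < T ^ η := by linarith
        nlinarith [mul_nonneg hs1 h4.le, mul_nonneg h3.le h4.le]

lemma zeta_upper {η : ℝ} (hη : 0 < η) (hη1 : η ≤ 1 / 2) :
    ∃ C : ℝ, 1 ≤ C ∧ ∀ s : ℂ, 1 - η ≤ s.re → s.re ≤ 3 → 1 / 2 ≤ |s.im| →
      ‖riemannZeta s‖ ≤ C * ht s ^ η := by
  obtain ⟨C, hC1, hC⟩ := zeta1_upper hη hη1
  refine ⟨3 * C, by linarith, fun s h1 h3 hi => ?_⟩
  have him : 1 / 2 ≤ ‖s - 1‖ := by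
    have := Complex.abs_im_le_norm (s - 1)
    simp only [sub_im, one_im, sub_zero] at this
    linarith
  have hs1 : s ≠ 1 := by
    intro h; rw [h] at him; norm_num at him
  have hpos : 0 < ‖s - 1‖ := by linarith
  rw [riemannZeta_eq_inv_sub_mul hs1, norm_mul, norm_inv]
  have hh : 0 < ht s ^ η := by linarith [one_le_ht_rpow s hη.le]
  calc ‖s - 1‖⁻¹ * ‖riemannZeta₁ s‖ ≤ ‖s - 1‖⁻¹ * (C * (‖s - 1‖ + 1) * ht s ^ η) := by
        gcongr; exact hC s h1 h3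
    _ = C * ht s ^ η * ((‖s - 1‖ + 1) / ‖s - 1‖) := by field_simp
    _ ≤ C * ht s ^ η * 3 := by
        gcongr
        rw [div_le_iff₀ hpos]; linarith
    _ = 3 * C * ht s ^ η := by ring

end Crest.Agent.SW.ZS
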