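import Crest.Agent.SW.ZetaInv

/-!
# Derivatives of `1/ζ` and of `-ζ'/ζ - ζ` on `1 < Re s ≤ 2`
-/

namespace Crest.Agent.SW.ZS

open Complex Finset Crest.Agent.R001.SW

lemma rpow_le_eight {T η : ℝ} (hT : 0 < T) (hη : 0 < η) (hη1 : η ≤ 1 / 2) :
    T ^ (-(5 * η)) / 8 ≤ (2 * T) ^ (-(5 * η)) := by
  rw [Real.mul_rpow (by norm_num) hT.le]
  have h2 : (1 / 8 : ℝ) ≤ 2 ^ (-(5 * η)) := by
    calc (1 / 8 : ℝ) = 2 ^ (-3 : ℝ) := by norm_num [Real.rpow_neg]
      _ ≤ 2 ^ (-(5 * η)) := Real.rpow_le_rpow_of_exponent_le (by norm_num) (by linarith)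
  have h3 : 0 ≤ T ^ (-(5 * η)) := (Real.rpow_pos_of_pos hT _).le
  nlinarith [mul_le_mul_of_nonneg_right h2 h3]

/-- Cauchy's estimate for functions with growth `T^(5η)` in the region where `ζ` is bounded
below -/
lemma cauchy_region {η κ : ℝ} (hη : 0 < η) (hη1 : η ≤ 1 / 2) (hκ : 0 < κ) (hκ1 : κ ≤ η / 2)
    {F : ℂ → ℂ} {C : ℝ} (hC0 : 0 ≤ C)
    (hd : ∀ z : ℂ, 1 - κ * ht z ^ (-(5 * η)) ≤ z.re → z.re ≤ 5 / 2 → 3 / 4 ≤ |z.im| →
      DifferentiableAt ℂ F z)
    (hF : ∀ z : ℂ, 1 - κ * ht z ^ (-(5 * η)) ≤ z.re → z.re ≤ 5 / 2 → 3 / 4 ≤ |z.im| →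
      ‖F z‖ ≤ C * ht z ^ (5 * η)) (k : ℕ) :
    ∀ s : ℂ, 1 ≤ s.re → s.re ≤ 2 → 1 ≤ |s.im| →
      ‖iteratedDeriv k F s‖ ≤ (k.factorial * (8 * C) * (8 / κ) ^ k) *
        ht s ^ ((5 * (k + 1)) * η) := by
  intro s h1 h2 h3
  set T := ht s with hT
  have hTpos : 0 < T := ht_pos s
  have hT5 : T ^ (-(5 * η)) ≤ 1 := Real.rpow_le_one_of_one_le_of_nonpos
    (by linarith [two_le_ht s]) (by linarith)
  have hT5pos : 0 < T ^ (-(5 * η)) := Real.rpow_pos_of_pos hTpos _
  set r := κ / 8 * T ^ (-(5 * η)) with hr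
  have hrpos : 0 < r := by positivity
  have hr1 : r ≤ 1 / 32 := by
    calc r ≤ κ / 8 * 1 := by rw [hr]; gcongr
      _ ≤ 1 / 32 := by linarith
  have hreg : ∀ z : ℂ, ‖z - s‖ ≤ r → 1 - κ * ht z ^ (-(5 * η)) ≤ z.re ∧ z.re ≤ 5 / 2 ∧
      3 / 4 ≤ |z.im| ∧ ht z ≤ 2 * T := by
    intro z hz
    have h5 : |(z - s).im| ≤ ‖z - s‖ := Complex.abs_im_le_norm _
    have h6 : |s.im| ≤ |z.im| + |(z - s).im| := by
      have : s.im = z.im - (z - s).im := by simp
      calc |s.im| = |z.im - (z - s).im| := by rw [← this]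
        _ ≤ _ := abs_sub _ _
    have h7 : |(z - s).re| ≤ ‖z - s‖ := Complex.abs_re_le_norm _
    rw [Complex.sub_re] at h7
    have h8 := abs_le.mp (h7.trans hz)
    have h9 : ht z ≤ 2 * T := ht_le_of_dist hz (by linarith)
    have h10 : (2 * T) ^ (-(5 * η)) ≤ ht z ^ (-(5 * η)) :=
      Real.rpow_le_rpow_of_nonpos (ht_pos z) h9 (by linarith)
    have h11 := rpow_le_eight hTpos hη hη1
    have h12 : r ≤ κ * ht z ^ (-(5 * η)) := by
      calc r = κ * (T ^ (-(5 * η)) / 8) := by rw [hr]; ring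
        _ ≤ κ * ht z ^ (-(5 * η)) := by gcongr; linarith
    exact ⟨by linarith, by linarith, by linarith, h9⟩
  have key := cauchy_k (f := F) (c := s) (R := r) (C := C * (8 * T ^ (5 * η))) k hrpos
    (fun z hz => hd z (hreg z hz).1 (hreg z hz).2.1 (hreg z hz).2.2.1) (fun z hz => by
      obtain ⟨g1, g2, g3, g4⟩ := hreg z hz
      refine (hF z g1 g2 g3).trans ?_
      have h8 : ht z ^ (5 * η) ≤ 8 * T ^ (5 * η) := by
        calc ht z ^ (5 * η) ≤ (2 * T) ^ (5 * η) :=
              Real.rpow_le_rpow (ht_pos z).le g4 (by linarith)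
          _ = 2 ^ (5 * η) * T ^ (5 * η) := Real.mul_rpow (by norm_num) hTpos.le
          _ ≤ 8 * T ^ (5 * η) := by
              have : (2 : ℝ) ^ (5 * η) ≤ 8 := by
                calc (2 : ℝ) ^ (5 * η) ≤ 2 ^ (3 : ℝ) :=
                      Real.rpow_le_rpow_of_exponent_le (by norm_num) (by linarith)
                  _ = 8 := by norm_num
              have h0 : 0 ≤ T ^ (5 * η) := (Real.rpow_pos_of_pos hTpos _).le
              gcongr
      gcongr)
  refine key.trans (le_of_eq ?_)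
  have hrk : r ^ k = (κ / 8) ^ k * T ^ (-(5 * η) * k) := by
    rw [hr, mul_pow, ← Real.rpow_natCast (T ^ (-(5 * η))), ← Real.rpow_mul hTpos.le]
  rw [hrk]
  have hexp : T ^ ((5 * ((k : ℝ) + 1)) * η) = T ^ (5 * η) * (T ^ (-(5 * η) * k))⁻¹ := by
    rw [← Real.rpow_neg hTpos.le, ← Real.rpow_add hTpos]
    congr 1; ring
  rw [hexp]
  have h0 : T ^ (-(5 * η) * k) ≠ 0 := (Real.rpow_pos_of_pos hTpos _).ne'
  rw [div_pow, div_pow]
  field_simp

/-- the compact rectangle -/
def rect : Set ℂ := {s : ℂ | 1 ≤ s.re ∧ s.re ≤ 2 ∧ |s.im| ≤ 1}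

lemma isCompact_rect : IsCompact rect := by
  refine Metric.isCompact_of_isClosed_isBounded ?_ ?_
  · have e : rect = (Complex.re ⁻¹' Set.Icc 1 2) ∩ ((fun s : ℂ => |s.im|) ⁻¹' Set.Iic 1) := by
      ext z; simp [rect, and_assoc]
    rw [e]
    exact (isClosed_Icc.preimage Complex.continuous_re).inter
      (isClosed_Iic.preimage Complex.continuous_im.abs)
  · refine (Metric.isBounded_iff_subset_closedBall 0).mpr ⟨3, fun z hz => ?_⟩
    rw [mem_closedBall_zero_iff]
    have := Complex.norm_le_abs_re_add_abs_im z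
    have h1 : |z.re| ≤ 2 := abs_le.mpr ⟨by linarith [hz.1], hz.2.1⟩
    linarith [hz.2.2]

lemma zeta1_ne_zero {s : ℂ} (hs : 1 ≤ s.re) : riemannZeta₁ s ≠ 0 := by
  rcases eq_or_ne s 1 with rfl | h
  · simp
  · intro h0
    have := riemannZeta_ne_zero_of_one_le_re hs
    rw [riemannZeta_eq_inv_sub_mul h, h0, mul_zero] at this
    exact this rfl

lemma isOpen_zeta1_ne : IsOpen {s : ℂ | riemannZeta₁ s ≠ 0} :=
  isOpen_ne_fun differentiable_riemannZeta₁.continuous continuous_const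

lemma norm_le_add_of_rpow {T a b : ℝ} (hT : 1 ≤ T) (hab : a ≤ b) : T ^ a ≤ T ^ b :=
  Real.rpow_le_rpow_of_exponent_le hT hab

/-- gluing the compact part and the part `|Im s| ≥ 1` -/
lemma glue {F G : ℂ → ℂ} {k : ℕ} {δ : ℝ} (hδ : 0 < δ)
    (hG : DifferentiableOn ℂ G {s : ℂ | riemannZeta₁ s ≠ 0})
    (hFG : ∀ s : ℂ, 1 < s.re → F s = G s)
    (hbig : ∃ C : ℝ, ∀ s : ℂ, 1 ≤ s.re → s.re ≤ 2 → 1 ≤ |s.im| →
      ‖iteratedDeriv k F s‖ ≤ C * ht s ^ δ) :
    ∃ C : ℝ, 1 ≤ C ∧ ∀ s : ℂ, 1 < s.re → s.re ≤ 2 → ‖iteratedDeriv k F s‖ ≤ C * ht s ^ δ := by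
  obtain ⟨C1, hC1⟩ := hbig
  obtain ⟨C2, hC2⟩ := iteratedDeriv_bdd_compact (K := rect) isOpen_zeta1_ne hG isCompact_rect
    (fun s hs => zeta1_ne_zero hs.1) k
  refine ⟨max 1 (max C1 C2), le_max_left _ _, fun s h1 h2 => ?_⟩
  have hT : 1 ≤ ht s ^ δ := one_le_ht_rpow s hδ.le
  rcases le_total 1 |s.im| with h | h
  · refine (hC1 s h1.le h2 h).trans ?_
    have : C1 ≤ max 1 (max C1 C2) := (le_max_left _ _).trans (le_max_right _ _)
    gcongr
  · have e : iteratedDeriv k F s = iteratedDeriv k G s := by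
      apply Filter.EventuallyEq.iteratedDeriv_eq
      have : {z : ℂ | 1 < z.re} ∈ nhds s :=
        (isOpen_lt continuous_const Complex.continuous_re).mem_nhds h1
      filter_upwards [this] with z hz
      exact hFG z hz
    rw [e]
    refine (hC2 s ⟨h1.le, h2, h⟩).trans ?_
    have h3 : C2 ≤ max 1 (max C1 C2) := (le_max_right _ _).trans (le_max_right _ _)
    have h4 : 1 ≤ max 1 (max C1 C2) := le_max_left _ _
    calc C2 ≤ max 1 (max C1 C2) * 1 := by linarith
      _ ≤ _ := by gcongr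

/-- `k`-th derivative of `1/ζ` -/
theorem iteratedDeriv_inv_zeta (k : ℕ) {δ : ℝ} (hδ : 0 < δ) (hδ1 : δ ≤ 1) :
    ∃ C : ℝ, 1 ≤ C ∧ ∀ s : ℂ, 1 < s.re → s.re ≤ 2 →
      ‖iteratedDeriv k (fun z => (riemannZeta z)⁻¹) s‖ ≤ C * ht s ^ δ := by
  set η : ℝ := δ / (5 * (k + 1)) with hη
  have hk : (0 : ℝ) < 5 * ((k : ℝ) + 1) := by positivity
  have hηpos : 0 < η := by positivity
  have hη1 : η ≤ 1 / 2 := by
    rw [hη, div_le_iff₀ hk]
    have : (0 : ℝ) ≤ k := Nat.cast_nonneg k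
    linarith
  obtain ⟨κ, c, hκ, hκ1, hc, hlow⟩ := zeta_lower hηpos hη1
  refine glue (G := fun z => (z - 1) / riemannZeta₁ z) hδ ?_ ?_
    ⟨k.factorial * (8 * (1 / c)) * (8 / κ) ^ k, fun s h1 h2 h3 => ?_⟩
  · intro z hz
    exact ((differentiable_id.sub_const 1).differentiableAt.div
      differentiable_riemannZeta₁.differentiableAt hz).differentiableWithinAt
  · intro s hs
    have hne : s ≠ 1 := by rintro rfl; simp at hs
    rw [riemannZeta_eq_inv_sub_mul hne, mul_inv, inv_inv]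
    rfl
  · have key := cauchy_region (F := fun z => (riemannZeta z)⁻¹) (C := 1 / c) hηpos hη1 hκ hκ1
      (by positivity) (fun z h4 h5 h6 => by
        have hz : z.im ≠ 0 := by intro h; rw [h, abs_zero] at h6; linarith
        have hl := hlow z h4 h5 h6
        have hpos : 0 < c * ht z ^ (-(4 * η)) := mul_pos hc (Real.rpow_pos_of_pos (ht_pos z) _)
        exact (zeta_differentiableAt hz).inv (norm_pos_iff.mp (hpos.trans_le hl)))
      (fun z h4 h5 h6 => by
        have hl := hlow z h4 h5 h6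
        have hpos : 0 < c * ht z ^ (-(4 * η)) := mul_pos hc (Real.rpow_pos_of_pos (ht_pos z) _)
        rw [norm_inv]
        calc ‖riemannZeta z‖⁻¹ ≤ (c * ht z ^ (-(4 * η)))⁻¹ := by gcongr
          _ = 1 / c * ht z ^ (4 * η) := by
              rw [mul_inv, ← Real.rpow_neg (ht_pos z).le, neg_neg, one_div]
          _ ≤ 1 / c * ht z ^ (5 * η) := by
              have := norm_le_add_of_rpow (T := ht z) (a := 4 * η) (b := 5 * η)
                (by linarith [two_le_ht z]) (by linarith)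
              gcongr) k s h1 h2 h3
    have e : (5 * ((k : ℝ) + 1)) * η = δ := by rw [hη]; field_simp
    rw [e] at key
    exact key

/-- `k`-th derivative of `-ζ'/ζ - ζ` -/
theorem iteratedDeriv_logDeriv_zeta (k : ℕ) {δ : ℝ} (hδ : 0 < δ) (hδ1 : δ ≤ 1) :
    ∃ C : ℝ, 1 ≤ C ∧ ∀ s : ℂ, 1 < s.re → s.re ≤ 2 →
      ‖iteratedDeriv k (fun z => -deriv riemannZeta z / riemannZeta z - riemannZeta z) s‖ ≤
        C * ht s ^ δ := by
  set η : ℝ := δ / (5 * (k + 1)) with hη
  have hk : (0 : ℝ) < 5 * ((k : ℝ) + 1) := by positivity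
  have hηpos : 0 < η := by positivity
  have hη1 : η ≤ 1 / 2 := by
    rw [hη, div_le_iff₀ hk]
    have : (0 : ℝ) ≤ k := Nat.cast_nonneg k
    linarith
  obtain ⟨κ, c, hκ, hκ1, hc, hlow⟩ := zeta_lower hηpos hη1
  obtain ⟨C, hC1, hC⟩ := zeta_upper hηpos hη1
  obtain ⟨D, hD1, hD⟩ := zeta_deriv_upper hηpos hη1
  refine glue (G := fun z => -deriv riemannZeta₁ z / riemannZeta₁ z - riemannZeta₀ z) hδ ?_ ?_
    ⟨k.factorial * (8 * (D / c + C)) * (8 / κ) ^ k, fun s h1 h2 h3 => ?_⟩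
  · intro z hz
    refine DifferentiableAt.differentiableWithinAt ?_
    refine DifferentiableAt.sub (DifferentiableAt.div ?_
      differentiable_riemannZeta₁.differentiableAt hz)
      differentiable_riemannZeta₀.differentiableAt
    refine DifferentiableAt.neg ?_
    have : AnalyticAt ℂ riemannZeta₁ z := differentiable_riemannZeta₁.analyticAt z
    exact this.deriv.differentiableAt
  · intro s hs
    have hne : s ≠ 1 := by rintro rfl; simp at hs
    have hz1 : riemannZeta₁ s ≠ 0 := zeta1_ne_zero hs.le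
    have hs1 : s - 1 ≠ 0 := sub_ne_zero.mpr hne
    have hder : deriv riemannZeta s = -((s - 1)⁻¹) ^ 2 * riemannZeta₁ s +
        (s - 1)⁻¹ * deriv riemannZeta₁ s := by
      have h1 : riemannZeta =ᶠ[nhds s] fun z => (z - 1)⁻¹ * riemannZeta₁ z := by
        filter_upwards [isOpen_ne.mem_nhds hne] with z hz
        exact riemannZeta_eq_inv_sub_mul hz
      rw [h1.deriv_eq]
      have h2 : HasDerivAt (fun z : ℂ => (z - 1)⁻¹) (-1 / (s - 1) ^ 2) s :=
        ((hasDerivAt_id s).sub_const 1).inv hs1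
      have h3 := h2.mul (differentiable_riemannZeta₁.differentiableAt (x := s)).hasDerivAt
      have h4 : deriv (fun z => (z - 1)⁻¹ * riemannZeta₁ z) s = _ := h3.deriv
      rw [h4]
      field_simp
    rw [hder]
    have h0 : riemannZeta s = (s - 1)⁻¹ * riemannZeta₁ s := riemannZeta_eq_inv_sub_mul hne
    have h0' : riemannZeta₀ s = (s - 1)⁻¹ * riemannZeta₁ s - (s - 1)⁻¹ := by
      rw [← h0, riemannZeta_eq_inv_sub_add hne]; ring
    rw [h0, h0']
    field_simp
    ring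
  · have hreg1 : ∀ z : ℂ, 1 - κ * ht z ^ (-(5 * η)) ≤ z.re → 1 - η / 2 ≤ z.re := by
      intro z h4
      have hT5 : ht z ^ (-(5 * η)) ≤ 1 := Real.rpow_le_one_of_one_le_of_nonpos
        (by linarith [two_le_ht z]) (by linarith)
      have : κ * ht z ^ (-(5 * η)) ≤ κ * 1 := by gcongr
      linarith
    have key := cauchy_region
      (F := fun z => -deriv riemannZeta z / riemannZeta z - riemannZeta z) (C := D / c + C)
      hηpos hη1 hκ hκ1
      (by positivity) (fun z h4 h5 h6 => by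
        have hz : z.im ≠ 0 := by intro h; rw [h, abs_zero] at h6; linarith
        have hne : z ≠ 1 := by rintro rfl; simp at hz
        have hl := hlow z h4 h5 h6
        have hpos : 0 < c * ht z ^ (-(4 * η)) := mul_pos hc (Real.rpow_pos_of_pos (ht_pos z) _)
        have hz0 : riemannZeta z ≠ 0 := norm_pos_iff.mp (hpos.trans_le hl)
        have han : AnalyticAt ℂ riemannZeta z := by
          have hU : IsOpen {w : ℂ | w ≠ 1} := isOpen_ne
          have : DifferentiableOn ℂ riemannZeta {w : ℂ | w ≠ 1} := fun w hw =>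
            (differentiableAt_riemannZeta hw).differentiableWithinAt
          exact this.analyticAt (hU.mem_nhds hne)
        exact (han.deriv.differentiableAt.neg.div (zeta_differentiableAt hz) hz0).sub
          (zeta_differentiableAt hz))
      (fun z h4 h5 h6 => by
        have hl := hlow z h4 h5 h6
        have hpos : 0 < c * ht z ^ (-(4 * η)) := mul_pos hc (Real.rpow_pos_of_pos (ht_pos z) _)
        have hT1 : 1 ≤ ht z := by linarith [two_le_ht z]
        have hd := hD z (hreg1 z h4) h5 h6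
        have hu := hC z (by have := hreg1 z h4; linarith) (by linarith) (by linarith)
        have hTη : 0 < ht z ^ η := Real.rpow_pos_of_pos (ht_pos z) _
        have e5 : ht z ^ (5 * η) = ht z ^ η * ht z ^ (4 * η) := by
          rw [← Real.rpow_add (ht_pos z)]; congr 1; ring
        have hinv : ‖riemannZeta z‖⁻¹ ≤ 1 / c * ht z ^ (4 * η) := by
          calc ‖riemannZeta z‖⁻¹ ≤ (c * ht z ^ (-(4 * η)))⁻¹ := by gcongr
            _ = 1 / c * ht z ^ (4 * η) := by
              rw [mul_inv, ← Real.rpow_neg (ht_pos z).le, neg_neg, one_div]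
        calc ‖-deriv riemannZeta z / riemannZeta z - riemannZeta z‖
            ≤ ‖-deriv riemannZeta z / riemannZeta z‖ + ‖riemannZeta z‖ := norm_sub_le _ _
          _ = ‖deriv riemannZeta z‖ * ‖riemannZeta z‖⁻¹ + ‖riemannZeta z‖ := by
              rw [norm_div, norm_neg, div_eq_mul_inv]
          _ ≤ (D * ht z ^ η) * (1 / c * ht z ^ (4 * η)) + C * ht z ^ η := by gcongr
          _ = D / c * ht z ^ (5 * η) + C * ht z ^ η := by rw [e5]; ring
          _ ≤ D / c * ht z ^ (5 * η) + C * ht z ^ (5 * η) := by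
              have := norm_le_add_of_rpow (T := ht z) (a := η) (b := 5 * η) hT1 (by linarith)
              gcongr
          _ = (D / c + C) * ht z ^ (5 * η) := by ring) k s h1 h2 h3
    have e : (5 * ((k : ℝ) + 1)) * η = δ := by rw [hη]; field_simp
    rw [e] at key
    exact key

end Crest.Agent.SW.ZS
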