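import Crest.Agent.SW.ZetaBd

/-!
# Lower bounds for the Riemann zeta function near `Re s = 1`, derivatives of `1/ζ`

`zeta_lower` (3-4-1), `iteratedDeriv_inv_zeta`, `iteratedDeriv_logDeriv_zeta`:
for all `k` and `δ > 0` the `k`-th derivatives of `1/ζ` and of `-ζ'/ζ - ζ` are
`≤ C (|Im s| + 2)^δ` on `1 < Re s ≤ 2`.
-/

namespace Crest.Agent.SW.ZS

open Complex Finset Crest.Agent.R001.SW

/-- Cauchy's estimate on a closed ball -/
lemma cauchy_k {f : ℂ → ℂ} {c : ℂ} {R C : ℝ} (k : ℕ) (hR : 0 < R)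
    (hf : ∀ z : ℂ, ‖z - c‖ ≤ R → DifferentiableAt ℂ f z)
    (hC : ∀ z : ℂ, ‖z - c‖ ≤ R → ‖f z‖ ≤ C) :
    ‖iteratedDeriv k f c‖ ≤ k.factorial * C / R ^ k := by
  refine Complex.norm_iteratedDeriv_le_of_forall_mem_sphere_norm_le k hR ?_ ?_
  · apply DifferentiableOn.diffContOnCl_ball (U := Metric.closedBall c R) _ (subset_refl _)
    intro z hz
    rw [Metric.mem_closedBall, dist_eq_norm] at hz
    exact (hf z hz).differentiableWithinAt
  · intro z hz
    rw [mem_sphere_iff_norm] at hz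
    exact hC z hz.le

/-- derivatives of a holomorphic function are bounded on compact sets -/
lemma iteratedDeriv_bdd_compact {G : ℂ → ℂ} {U K : Set ℂ} (hU : IsOpen U)
    (hG : DifferentiableOn ℂ G U) (hK : IsCompact K) (hKU : K ⊆ U) (k : ℕ) :
    ∃ C : ℝ, ∀ s ∈ K, ‖iteratedDeriv k G s‖ ≤ C := by
  have h1 : AnalyticOnNhd ℂ G U := hG.analyticOnNhd hU
  have h2 : AnalyticOnNhd ℂ (iteratedDeriv k G) U := by
    rw [iteratedDeriv_eq_iterate]
    exact h1.iterated_deriv k
  exact hK.exists_bound_of_continuousOn (h2.continuousOn.mono hKU)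

lemma zeta_differentiableAt {s : ℂ} (h : s.im ≠ 0) : DifferentiableAt ℂ riemannZeta s :=
  differentiableAt_riemannZeta (by rintro rfl; simp at h)

/-- bound for `ζ'` -/
lemma zeta_deriv_upper {η : ℝ} (hη : 0 < η) (hη1 : η ≤ 1 / 2) :
    ∃ C : ℝ, 1 ≤ C ∧ ∀ s : ℂ, 1 - η / 2 ≤ s.re → s.re ≤ 5 / 2 → 3 / 4 ≤ |s.im| →
      ‖deriv riemannZeta s‖ ≤ C * ht s ^ η := by
  obtain ⟨C, hC1, hC⟩ := zeta_upper hη hη1
  refine ⟨4 * C / η, ?_, fun s h1 h3 hi => ?_⟩
  · rw [le_div_iff₀ hη]; linarith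
  have hR : 0 < η / 2 := by linarith
  have key := cauchy_k (f := riemannZeta) (c := s) (R := η / 2) (C := C * (2 * ht s) ^ η) 1 hR
    (fun z hz => ?_) (fun z hz => ?_)
  · rw [iteratedDeriv_one, pow_one, Nat.factorial_one, Nat.cast_one, one_mul] at key
    refine key.trans ?_
    rw [Real.mul_rpow (by norm_num) (ht_pos s).le]
    have h2 : (2 : ℝ) ^ η ≤ 2 := by
      calc (2 : ℝ) ^ η ≤ 2 ^ (1 : ℝ) := Real.rpow_le_rpow_of_exponent_le (by norm_num) (by linarith)
        _ = 2 := Real.rpow_one 2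
    have h4 : 0 ≤ ht s ^ η := (Real.rpow_pos_of_pos (ht_pos s) η).le
    rw [div_le_iff₀ hR]
    calc C * (2 ^ η * ht s ^ η) ≤ C * (2 * ht s ^ η) := by gcongr
      _ = 4 * C / η * ht s ^ η * (η / 2) := by field_simp; ring
  · have h5 : |(z - s).im| ≤ ‖z - s‖ := Complex.abs_im_le_norm _
    have h6 : |s.im| ≤ |z.im| + |(z - s).im| := by
      have : s.im = z.im - (z - s).im := by simp
      calc |s.im| = |z.im - (z - s).im| := by rw [← this]
        _ ≤ _ := abs_sub _ _
    exact zeta_differentiableAt (by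
      intro h; rw [h, abs_zero] at h6; linarith)
  · have h5 : |(z - s).im| ≤ ‖z - s‖ := Complex.abs_im_le_norm _
    have h6 : |s.im| ≤ |z.im| + |(z - s).im| := by
      have : s.im = z.im - (z - s).im := by simp
      calc |s.im| = |z.im - (z - s).im| := by rw [← this]
        _ ≤ _ := abs_sub _ _
    have h7 : |(z - s).re| ≤ ‖z - s‖ := Complex.abs_re_le_norm _
    rw [Complex.sub_re] at h7
    have h8 := abs_le.mp (h7.trans hz)
    refine (hC z (by linarith) (by linarith) (by linarith)).trans ?_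
    have := ht_le_of_dist hz (by linarith)
    have h9 := (ht_pos z).le
    gcongr

/-- 3-4-1 for `ζ` -/
lemma zeta_341 {x : ℝ} (hx : 0 < x) (t : ℝ) :
    1 ≤ ‖riemannZeta (1 + x)‖ ^ 3 * ‖riemannZeta (1 + x + I * t)‖ ^ 4 *
      ‖riemannZeta (1 + x + 2 * I * t)‖ := by
  have := DirichletCharacter.norm_LFunction_product_ge_one (N := 1) 1 hx t
  simpa [DirichletCharacter.LFunctionTrivChar, DirichletCharacter.LFunction_modOne_eq, norm_mul,
    norm_pow] using this

lemma zeta_lower {η : ℝ} (hη : 0 < η) (hη1 : η ≤ 1 / 2) :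
    ∃ κ c : ℝ, 0 < κ ∧ κ ≤ η / 2 ∧ 0 < c ∧ ∀ s : ℂ, 1 - κ * ht s ^ (-(5 * η)) ≤ s.re →
      s.re ≤ 5 / 2 → 3 / 4 ≤ |s.im| → c * ht s ^ (-(4 * η)) ≤ ‖riemannZeta s‖ := by
  obtain ⟨C, hC1, hC⟩ := zeta_upper hη hη1
  obtain ⟨C1, hC11, hC1'⟩ := zeta1_upper hη hη1
  obtain ⟨D, hD1, hD⟩ := zeta_deriv_upper hη hη1
  -- constant of the 3-4-1 inequality
  set A : ℝ := (5 * C1) ^ 3 * (2 * C) with hA
  have hApos : 0 < A := by positivity
  have h2η : (2 : ℝ) ^ η ≤ 2 := by
    calc (2 : ℝ) ^ η ≤ 2 ^ (1 : ℝ) := Real.rpow_le_rpow_of_exponent_le (by norm_num) (by linarith)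
      _ = 2 := Real.rpow_one 2
  have h341 : ∀ s : ℂ, 1 < s.re → s.re ≤ 5 / 2 → 3 / 4 ≤ |s.im| →
      (s.re - 1) ^ 3 ≤ A * ht s ^ η * ‖riemannZeta s‖ ^ 4 := by
    intro s h1 h2 h3
    set x := s.re - 1 with hx
    have hx0 : 0 < x := by linarith
    have key := zeta_341 hx0 s.im
    have e1 : (1 + (x : ℂ) + I * s.im) = s := by
      apply Complex.ext <;> simp [hx]
    rw [e1] at key
    have hb1 : ‖riemannZeta (1 + x)‖ ≤ 5 * C1 / x := by
      have hne : (1 + (x : ℂ)) ≠ 1 := by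
        intro h
        have := congrArg Complex.re h
        simp at this; linarith
      rw [riemannZeta_eq_inv_sub_mul hne, norm_mul, norm_inv]
      have e2 : (1 + (x : ℂ) - 1) = (x : ℂ) := by ring
      have h4 := hC1' (1 + x) (by simp; linarith) (by simp; linarith)
      rw [e2] at h4 ⊢
      rw [Complex.norm_real, Real.norm_of_nonneg hx0.le] at *
      have e3 : ht (1 + (x : ℂ)) = 2 := by simp [ht]
      rw [e3] at h4
      calc x⁻¹ * ‖riemannZeta₁ (1 + x)‖ ≤ x⁻¹ * (C1 * (x + 1) * 2 ^ η) := by gcongr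
        _ ≤ x⁻¹ * (C1 * (5 / 2) * 2) := by gcongr; linarith
        _ = 5 * C1 / x := by ring
    have hb2 : ‖riemannZeta (1 + x + 2 * I * s.im)‖ ≤ 2 * C * ht s ^ η := by
      have him : (1 + (x : ℂ) + 2 * I * s.im).im = 2 * s.im := by simp
      have hre : (1 + (x : ℂ) + 2 * I * s.im).re = s.re := by simp [hx]
      have h4 := hC (1 + x + 2 * I * s.im) (by rw [hre]; linarith) (by rw [hre]; linarith)
        (by rw [him, abs_mul, abs_two]; linarith)
      have h5 : ht (1 + (x : ℂ) + 2 * I * s.im) ≤ 2 * ht s := by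
        unfold ht; rw [him, abs_mul, abs_two]; linarith
      have h5' := (ht_pos (1 + (x : ℂ) + 2 * I * s.im)).le
      refine h4.trans ?_
      calc C * ht (1 + (x : ℂ) + 2 * I * s.im) ^ η ≤ C * (2 * ht s) ^ η := by gcongr
        _ = C * (2 ^ η * ht s ^ η) := by rw [Real.mul_rpow (by norm_num) (ht_pos s).le]
        _ ≤ C * (2 * ht s ^ η) := by
            have h4 : 0 ≤ ht s ^ η := (Real.rpow_pos_of_pos (ht_pos s) η).le
            gcongr
        _ = _ := by ring
    have h4 : 0 ≤ ht s ^ η := (Real.rpow_pos_of_pos (ht_pos s) η).le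
    have hx3 : 0 < x ^ 3 := by positivity
    calc x ^ 3 = x ^ 3 * 1 := by ring
      _ ≤ x ^ 3 * (‖riemannZeta (1 + x)‖ ^ 3 * ‖riemannZeta s‖ ^ 4 *
          ‖riemannZeta (1 + x + 2 * I * s.im)‖) := by gcongr
      _ ≤ x ^ 3 * ((5 * C1 / x) ^ 3 * ‖riemannZeta s‖ ^ 4 * (2 * C * ht s ^ η)) := by gcongr
      _ = A * ht s ^ η * ‖riemannZeta s‖ ^ 4 := by
          rw [hA]; field_simp
  -- choose κ
  set κ : ℝ := min (η / 2) (1 / (A * (4 * D) ^ 4)) with hκ
  have hκpos : 0 < κ := by positivity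
  have hκη : κ ≤ η / 2 := min_le_left _ _
  have hκA : κ * (A * (4 * D) ^ 4) ≤ 1 := by
    have : κ ≤ 1 / (A * (4 * D) ^ 4) := min_le_right _ _
    rwa [le_div_iff₀ (by positivity)] at this
  refine ⟨κ, 2 * D * κ, hκpos, hκη, by positivity, fun s h1 h2 h3 => ?_⟩
  set T := ht s with hT
  have hTpos : 0 < T := ht_pos s
  set k := κ * T ^ (-(5 * η)) with hk
  have hT5 : T ^ (-(5 * η)) ≤ 1 := Real.rpow_le_one_of_one_le_of_nonpos
    (by linarith [two_le_ht s]) (by linarith)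
  have hkpos : 0 < k := by positivity
  have hkκ : k ≤ κ := by
    calc k ≤ κ * 1 := by rw [hk]; gcongr
      _ = κ := mul_one κ
  -- at points to the right of 1 + k
  have hright : ∀ w : ℂ, w.im = s.im → 1 + k ≤ w.re → w.re ≤ 5 / 2 →
      4 * D * k * T ^ η ≤ ‖riemannZeta w‖ := by
    intro w hw h4 h5
    have hTw : ht w = T := by rw [hT]; unfold ht; rw [hw]
    have h6 := h341 w (by linarith) h5 (by rw [hw]; exact h3)
    rw [hTw] at h6
    have h7 : k ^ 3 ≤ (w.re - 1) ^ 3 := by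
      have : k ≤ w.re - 1 := by linarith
      gcongr
    have hTη : 0 < T ^ η := Real.rpow_pos_of_pos hTpos η
    have h8 : (4 * D * k * T ^ η) ^ 4 ≤ ‖riemannZeta w‖ ^ 4 := by
      have h9 : k ^ 3 / (A * T ^ η) ≤ ‖riemannZeta w‖ ^ 4 := by
        rw [div_le_iff₀ (by positivity)]
        linarith
      refine le_trans ?_ h9
      rw [le_div_iff₀ (by positivity)]
      have h10 : k * T ^ (5 * η) = κ := by
        rw [hk, mul_assoc, ← Real.rpow_add hTpos]; simp
      have h11 : T ^ (5 * η) = (T ^ η) ^ 5 := by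
        rw [mul_comm, Real.rpow_mul hTpos.le]
        norm_cast
      calc (4 * D * k * T ^ η) ^ 4 * (A * T ^ η) = k ^ 3 * ((k * (T ^ η) ^ 5) * (A * (4 * D) ^ 4)) := by
            ring
        _ = k ^ 3 * (κ * (A * (4 * D) ^ 4)) := by rw [← h11, h10]
        _ ≤ k ^ 3 * 1 := by gcongr
        _ = k ^ 3 := mul_one _
    exact (pow_le_pow_iff_left₀ (by positivity) (norm_nonneg _) (by norm_num)).mp h8
  have hfin : 2 * D * κ * T ^ (-(4 * η)) = 2 * D * k * T ^ η := by
    rw [hk]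
    have : T ^ (-(4 * η)) = T ^ (-(5 * η)) * T ^ η := by
      rw [← Real.rpow_add hTpos]; congr 1; ring
    rw [this]; ring
  rw [hfin]
  have hTη : 0 < T ^ η := Real.rpow_pos_of_pos hTpos η
  by_cases hcase : 1 + k ≤ s.re
  · have := hright s rfl hcase h2
    have h5 : 0 < D * k * T ^ η := by positivity
    linarith
  · push Not at hcase
    set w : ℂ := ⟨1 + k, s.im⟩ with hw
    have hwb := hright w rfl le_rfl (by show 1 + k ≤ 5 / 2; linarith)
    -- mean value inequality on the horizontal segment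
    set S : Set ℂ := {z : ℂ | z.im = s.im ∧ 1 - η / 2 ≤ z.re ∧ z.re ≤ 5 / 2} with hS
    have hconv : Convex ℝ S := by
      have e : S = (Complex.imLm ⁻¹' {s.im}) ∩ (Complex.reLm ⁻¹' (Set.Icc (1 - η / 2) (5 / 2))) := by
        ext z; simp [hS, Complex.imLm, Complex.reLm]
      rw [e]
      exact ((convex_singleton _).linear_preimage _).inter ((convex_Icc _ _).linear_preimage _)
    have hmv := hconv.norm_image_sub_le_of_norm_deriv_le (f := riemannZeta) (C := D * T ^ η)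
      (x := w) (y := s) (fun z hz => by
        refine zeta_differentiableAt ?_
        rw [hz.1]; intro h; rw [h, abs_zero] at h3; linarith)
      (fun z hz => by
        have h9 := hD z hz.2.1 hz.2.2 (by rw [hz.1]; exact h3)
        have : ht z = T := by rw [hT]; unfold ht; rw [hz.1]
        rwa [this] at h9)
      ⟨rfl, by show 1 - η / 2 ≤ 1 + k; linarith, by show 1 + k ≤ 5 / 2; linarith⟩
      ⟨rfl, by linarith, h2⟩
    have hsw : ‖s - w‖ ≤ 2 * k := by
      have e : s - w = ((s.re - (1 + k) : ℝ) : ℂ) := by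
        apply Complex.ext <;> simp [hw]
      rw [e, Complex.norm_real, Real.norm_eq_abs, abs_le]
      constructor <;> linarith
    have h9 : ‖riemannZeta w‖ ≤ ‖riemannZeta s‖ + ‖riemannZeta s - riemannZeta w‖ := by
      have : riemannZeta w = riemannZeta s - (riemannZeta s - riemannZeta w) := by ring
      calc ‖riemannZeta w‖ = ‖riemannZeta s - (riemannZeta s - riemannZeta w)‖ := by rw [← this]
        _ ≤ _ := norm_sub_le _ _
    have h10 : ‖riemannZeta s - riemannZeta w‖ ≤ D * T ^ η * (2 * k) :=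
      hmv.trans (by gcongr)
    linarith

end Crest.Agent.SW.ZS
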